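import Vale.Agent.P143.Euler

/-!
# Estimates for the discretised process
-/

namespace Vale.Agent.P143

open MeasureTheory ProbabilityTheory Finset Real
open scoped Classical NNReal ENNReal

variable {ι : Type} {S : Finset ι} {𝒯 : Finset (Finset ι)} {k : ℕ} {v : ℝ≥0}

/-- The discretised process driven by `η`. -/
noncomputable def eul (S : Finset ι) (𝒯 : Finset (Finset ι)) (v : ℝ≥0) :
    ℕ → (ℕ → ↥S → ℝ) → ι → ℝ
  | 0 => fun _ _ => 0
  | i + 1 => fun η => stepY S 𝒯 v (eul S 𝒯 v i η) (η i)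

/-- The driving random walk at a coordinate. -/
noncomputable def walkAt (S : Finset ι) (e : ι) (i : ℕ) (η : ℕ → ↥S → ℝ) : ℝ :=
  ∑ l ∈ Finset.range i, ext0 S (η l) e

/-- The law of the increments. -/
noncomputable def seqLaw (S : Finset ι) (v : ℝ≥0) : Measure (ℕ → ↥S → ℝ) :=
  Measure.infinitePi fun _ => gam S v

instance (S : Finset ι) (v : ℝ≥0) : IsProbabilityMeasure (seqLaw S v) := by
  unfold seqLaw; infer_instance

lemma eul_succ (i : ℕ) (η : ℕ → ↥S → ℝ) :
    eul S 𝒯 v (i + 1) η = stepY S 𝒯 v (eul S 𝒯 v i η) (η i) := rfl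

lemma measurable_eul (i : ℕ) : Measurable (eul S 𝒯 v i) := by
  induction i with
  | zero => exact measurable_const
  | succ i ih => exact (measurable_stepY S 𝒯 v).comp (ih.prodMk (measurable_pi_apply i))

lemma eul_congr (i : ℕ) : ∀ {η η' : ℕ → ↥S → ℝ}, (∀ l < i, η l = η' l) →
    eul S 𝒯 v i η = eul S 𝒯 v i η' := by
  induction i with
  | zero => intros; rfl
  | succ i ih =>
    intro η η' h
    rw [eul_succ, eul_succ, ih fun l hl => h l (by omega), h i (by omega)]

lemma measurable_walkAt (e : ι) (i : ℕ) : Measurable (walkAt S e i) :=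
  Finset.measurable_sum _ fun l _ =>
    ((measurable_pi_apply e).comp (measurable_ext0 S)).comp (measurable_pi_apply l)

lemma walkAt_congr (e : ι) {i : ℕ} {η η' : ℕ → ↥S → ℝ} (h : ∀ l < i, η l = η' l) :
    walkAt S e i η = walkAt S e i η' :=
  Finset.sum_congr rfl fun l hl => by rw [h l (Finset.mem_range.1 hl)]

lemma seqLaw_map_eval (i : ℕ) : (seqLaw S v).map (fun η => η i) = gam S v :=
  Measure.infinitePi_map_eval _ i

lemma map_past_now {α : Type} [MeasurableSpace α] {i : ℕ} {r : (ℕ → ↥S → ℝ) → α}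
    (hr : Measurable r) (hdep : ∀ η η', (∀ l < i, η l = η' l) → r η = r η') :
    (seqLaw S v).map (fun η => (r η, η i)) = ((seqLaw S v).map r).prod (gam S v) := by
  have hind : iIndepFun (fun (l : ℕ) (η : ℕ → ↥S → ℝ) => η l) (seqLaw S v) :=
    iIndepFun_infinitePi (X := fun _ x => x) fun _ => measurable_id
  have h1 := hind.indepFun_finset (Finset.range i) {i} (by simp)
    fun l => measurable_pi_apply l
  set pad : (↥(Finset.range i) → ↥S → ℝ) → ℕ → ↥S → ℝ :=
    fun u l => if hl : l ∈ Finset.range i then u ⟨l, hl⟩ else 0 with hpad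
  have hpm : Measurable pad := by
    refine measurable_pi_lambda _ fun l => ?_
    simp only [hpad]
    split_ifs
    · exact measurable_pi_apply _
    · exact measurable_const
  have h2 := h1.comp (hr.comp hpm)
    (measurable_pi_apply (⟨i, Finset.mem_singleton_self i⟩ : ↥({i} : Finset ℕ)))
  have hre : ∀ η, r (pad fun l => η l.1) = r η := fun η =>
    hdep _ _ fun l hl => by simp only [hpad]; rw [dif_pos (Finset.mem_range.2 hl)]
  have h3 : IndepFun r (fun η => η i) (seqLaw S v) := by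
    have hfun : r = fun η => r (pad fun l => η l.1) := funext fun η => (hre η).symm
    rw [hfun]
    exact h2
  rw [(indepFun_iff_map_prod_eq_prod_map_map hr.aemeasurable
    (measurable_pi_apply i).aemeasurable).1 h3, seqLaw_map_eval]

/-- Conditioning on the past. -/
lemma integral_past_now {α : Type} [MeasurableSpace α] {i : ℕ} {r : (ℕ → ↥S → ℝ) → α}
    (hr : Measurable r) (hdep : ∀ η η', (∀ l < i, η l = η' l) → r η = r η')
    {H : α × (↥S → ℝ) → ℝ} (hH : Measurable H)
    (hint : Integrable (fun η => H (r η, η i)) (seqLaw S v)) :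
    (∫ η, H (r η, η i) ∂seqLaw S v = ∫ η, (∫ x, H (r η, x) ∂gam S v) ∂seqLaw S v) ∧
      Integrable (fun η => ∫ x, H (r η, x) ∂gam S v) (seqLaw S v) := by
  have hp : Measurable fun η : ℕ → ↥S → ℝ => (r η, η i) := hr.prodMk (measurable_pi_apply i)
  have hI : Integrable H (((seqLaw S v).map r).prod (gam S v)) := by
    rw [← map_past_now hr hdep]
    exact (integrable_map_measure hH.aestronglyMeasurable hp.aemeasurable).2 hint
  refine ⟨?_, (integrable_map_measure hI.integral_prod_left.aestronglyMeasurable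
    hr.aemeasurable).1 hI.integral_prod_left⟩
  rw [← integral_map hp.aemeasurable hH.aestronglyMeasurable, map_past_now hr hdep,
    integral_prod H hI, integral_map hr.aemeasurable hI.integral_prod_left.aestronglyMeasurable]

lemma integrable_unit {α : Type} [MeasurableSpace α] {μ : Measure α} [IsFiniteMeasure μ]
    {f : α → ℝ} (hf : Measurable f) (hb : ∀ a, |f a| ≤ 1) : Integrable f μ :=
  Integrable.of_bound hf.aestronglyMeasurable 1 (Filter.Eventually.of_forall fun a => by
    rw [Real.norm_eq_abs]; exact hb a)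

lemma abs_prb_le_one {θ : ι → ℝ} {W : Finset ι} (hW : W ∈ 𝒯) : |prb 𝒯 θ W| ≤ 1 := by
  rw [abs_of_nonneg (prb_nonneg _ _ _)]; exact prb_le_one hW

lemma abs_marg_le_one (θ : ι → ℝ) (e : ι) : |marg 𝒯 θ e| ≤ 1 := by
  rw [abs_of_nonneg (marg_nonneg _ _ _)]; exact marg_le_one _ _ _

lemma abs_mul_le_one {a b : ℝ} (ha : |a| ≤ 1) (hb : |b| ≤ 1) : |a * b| ≤ 1 := by
  rw [abs_mul]; exact mul_le_one₀ ha (abs_nonneg _) hb

/-- Approximate martingale property. -/
lemma prb_mart (h : Setup S 𝒯 k v) {W : Finset ι} (hW : W ∈ 𝒯) {φ : (ι → ℝ) → ℝ}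
    (hφ : Measurable φ) (hb : ∀ y, |φ y| ≤ 1) (j d : ℕ) :
    |(∫ η, φ (eul S 𝒯 v j η) * prb 𝒯 (eul S 𝒯 v (j + d) η) W ∂seqLaw S v)
      - ∫ η, φ (eul S 𝒯 v j η) * prb 𝒯 (eul S 𝒯 v j η) W ∂seqLaw S v|
      ≤ d * (2 * cst k * (v : ℝ) ^ 2) := by
  induction d with
  | zero => simp
  | succ d ih =>
    set r := fun η => (eul S 𝒯 v j η, eul S 𝒯 v (j + d) η) with hr
    have hrm : Measurable r := (measurable_eul j).prodMk (measurable_eul (j + d))
    have hdep : ∀ η η' : ℕ → ↥S → ℝ, (∀ l < j + d, η l = η' l) → r η = r η' := fun η η' hl => by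
      simp only [hr, eul_congr j fun l hl' => hl l (by omega), eul_congr (j + d) hl]
    set H : ((ι → ℝ) × (ι → ℝ)) × (↥S → ℝ) → ℝ :=
      fun p => φ p.1.1 * prb 𝒯 (stepY S 𝒯 v p.1.2 p.2) W with hH
    have hHm : Measurable H := (hφ.comp (measurable_fst.comp measurable_fst)).mul
      ((measurable_prb 𝒯 W).comp ((measurable_stepY S 𝒯 v).comp
        ((measurable_snd.comp measurable_fst).prodMk measurable_snd)))
    have hHb : ∀ p, |H p| ≤ 1 := fun p => abs_mul_le_one (hb _) (abs_prb_le_one hW)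
    obtain ⟨heq, hi⟩ := integral_past_now hrm hdep hHm
      (integrable_unit (hHm.comp (hrm.prodMk (measurable_pi_apply (j + d)))) fun η => hHb _)
    have hint : Integrable (fun η => φ (eul S 𝒯 v j η) * prb 𝒯 (eul S 𝒯 v (j + d) η) W)
        (seqLaw S v) :=
      integrable_unit ((hφ.comp (measurable_eul j)).mul
        ((measurable_prb 𝒯 W).comp (measurable_eul (j + d))))
        fun η => abs_mul_le_one (hb _) (abs_prb_le_one hW)
    have hstep : |(∫ η, φ (eul S 𝒯 v j η) * prb 𝒯 (eul S 𝒯 v (j + (d + 1)) η) W ∂seqLaw S v)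
        - ∫ η, φ (eul S 𝒯 v j η) * prb 𝒯 (eul S 𝒯 v (j + d) η) W ∂seqLaw S v|
        ≤ 2 * cst k * (v : ℝ) ^ 2 := by
      have he : (∫ η, φ (eul S 𝒯 v j η) * prb 𝒯 (eul S 𝒯 v (j + (d + 1)) η) W ∂seqLaw S v)
          = ∫ η, H (r η, η (j + d)) ∂seqLaw S v := rfl
      rw [he, heq, ← integral_sub hi hint, ← Real.norm_eq_abs]
      refine (norm_integral_le_of_norm_le_const (C := 2 * cst k * (v : ℝ) ^ 2)
        (Filter.Eventually.of_forall fun η => ?_)).trans (by simp)
      simp only [hH, hr, integral_const_mul, ← mul_sub, Real.norm_eq_abs, abs_mul]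
      calc |φ (eul S 𝒯 v j η)| * |(∫ x, prb 𝒯 (stepY S 𝒯 v (eul S 𝒯 v (j + d) η) x) W ∂gam S v)
            - prb 𝒯 (eul S 𝒯 v (j + d) η) W| ≤ 1 * (2 * cst k * (v : ℝ) ^ 2) :=
            mul_le_mul (hb _) (step_prb h hW _) (abs_nonneg _) zero_le_one
        _ = _ := one_mul _
    push_cast
    rw [abs_le] at ih hstep ⊢
    constructor <;> linarith

/-- Sums of approximate martingales. -/
lemma marg_mart (h : Setup S 𝒯 k v) (e : ι) {φ : (ι → ℝ) → ℝ} (hφ : Measurable φ)
    (hb : ∀ y, |φ y| ≤ 1) {j K : ℕ} (hjK : j ≤ K) :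
    |(∫ η, φ (eul S 𝒯 v j η) * marg 𝒯 (eul S 𝒯 v K η) e ∂seqLaw S v)
      - ∫ η, φ (eul S 𝒯 v j η) * marg 𝒯 (eul S 𝒯 v j η) e ∂seqLaw S v|
      ≤ 𝒯.card * (K * (2 * cst k * (v : ℝ) ^ 2)) := by
  obtain ⟨d, rfl⟩ := Nat.exists_eq_add_of_le hjK
  have hsum : ∀ i, (∫ η, φ (eul S 𝒯 v j η) * marg 𝒯 (eul S 𝒯 v i η) e ∂seqLaw S v)
      = ∑ T ∈ 𝒯, if e ∈ T then
          ∫ η, φ (eul S 𝒯 v j η) * prb 𝒯 (eul S 𝒯 v i η) T ∂seqLaw S v else 0 := by
    intro i
    simp only [marg, Finset.mul_sum]
    rw [integral_finsetSum]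
    · exact Finset.sum_congr rfl fun T _ => by split_ifs <;> simp
    · intro T hT
      split_ifs
      · exact integrable_unit ((hφ.comp (measurable_eul j)).mul
          ((measurable_prb 𝒯 T).comp (measurable_eul i)))
          fun η => abs_mul_le_one (hb _) (abs_prb_le_one hT)
      · simp
  rw [hsum, hsum, ← Finset.sum_sub_distrib]
  refine (Finset.abs_sum_le_sum_abs _ _).trans ?_
  refine (Finset.sum_le_card_nsmul _ _ (((j + d : ℕ) : ℝ) * (2 * cst k * (v : ℝ) ^ 2))
    fun T hT => ?_).trans_eq (by rw [nsmul_eq_mul])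
  have h0 : 0 ≤ 2 * cst k * (v : ℝ) ^ 2 := by have := cst_nonneg k; positivity
  split_ifs
  · refine (prb_mart h hT hφ hb j d).trans ?_
    gcongr
    omega
  · simp only [sub_self, abs_zero]; positivity

lemma eul_eq_walk (e : ι) (i : ℕ) (η : ℕ → ↥S → ℝ) :
    eul S 𝒯 v i η e = walkAt S e i η + (v : ℝ) * ∑ l ∈ Finset.range i, marg 𝒯 (eul S 𝒯 v l η) e := by
  induction i with
  | zero => simp [eul, walkAt]
  | succ i ih =>
    rw [eul_succ, stepY_eq]
    simp only [walkAt, Finset.sum_range_succ, ih]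
    ring

lemma integrable_ext0_eval (S : Finset ι) (v : ℝ≥0) (e : ι) (i : ℕ) :
    Integrable (fun η => ext0 S (η i) e) (seqLaw S v) :=
  (integrable_map_measure (g := fun x => ext0 S x e)
    ((measurable_pi_apply e).comp (measurable_ext0 S)).aestronglyMeasurable
    (measurable_pi_apply i).aemeasurable).1 (by
      rw [seqLaw_map_eval]; exact (ext0_moments S v e).1)

lemma eul_abs_bound (h : Setup S 𝒯 k v) (e : ι) (i : ℕ) :
    Integrable (fun η => eul S 𝒯 v i η e) (seqLaw S v) ∧
      ∫ η, |eul S 𝒯 v i η e| ∂seqLaw S v ≤ i * (2 * Real.sqrt v) := by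
  induction i with
  | zero => simp [eul]
  | succ i ih =>
    obtain ⟨hi, hb⟩ := ih
    have hx := integrable_ext0_eval S v e i
    have hm : Integrable (fun η => marg 𝒯 (eul S 𝒯 v i η) e) (seqLaw S v) :=
      integrable_unit ((measurable_marg 𝒯 e).comp (measurable_eul i)) fun η => abs_marg_le_one _ _
    have hI : Integrable (fun η => eul S 𝒯 v (i + 1) η e) (seqLaw S v) :=
      (hi.add hx).add (hm.const_mul _)
    refine ⟨hI, ?_⟩
    have he : ∫ η, |ext0 S (η i) e| ∂seqLaw S v ≤ Real.sqrt v := by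
      calc ∫ η, |ext0 S (η i) e| ∂seqLaw S v
          = ∫ x, |ext0 S x e| ∂(seqLaw S v).map (fun η => η i) :=
            (integral_map (φ := fun η : ℕ → ↥S → ℝ => η i)
              (measurable_pi_apply i).aemeasurable
              ((measurable_pi_apply e).comp (measurable_ext0 S)).abs.aestronglyMeasurable).symm
        _ ≤ Real.sqrt v := by rw [seqLaw_map_eval]; exact integral_abs_ext0 h.pos S e
    have hv : (v : ℝ) ≤ Real.sqrt v := Real.le_sqrt_of_sq_le
      (by nlinarith [h.le_one, v.coe_nonneg])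
    calc ∫ η, |eul S 𝒯 v (i + 1) η e| ∂seqLaw S v
        ≤ ∫ η, (|eul S 𝒯 v i η e| + |ext0 S (η i) e|) + Real.sqrt v ∂seqLaw S v := by
          refine integral_mono hI.abs ((hi.abs.add hx.abs).add (integrable_const _)) fun η => ?_
          simp only [eul_succ, stepY_eq]
          refine (abs_add_le _ _).trans (add_le_add (abs_add_le _ _) ?_)
          rw [abs_mul, abs_of_nonneg v.coe_nonneg]
          exact le_trans (mul_le_of_le_one_right v.coe_nonneg (abs_marg_le_one _ _)) hv
      _ ≤ ((i + 1 : ℕ) : ℝ) * (2 * Real.sqrt v) := by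
          rw [integral_add (f := fun η : ℕ → ↥S → ℝ => |eul S 𝒯 v i η e| + |ext0 S (η i) e|)
            (hi.abs.add hx.abs) (integrable_const _), integral_add hi.abs hx.abs]
          simp only [integral_const, probReal_univ, smul_eq_mul, one_mul]
          push_cast
          linarith

lemma walkAt_sq (v : ℝ≥0) (e : ι) (i : ℕ) :
    Integrable (fun η => walkAt S e i η ^ 2) (seqLaw S v) ∧
      ∫ η, walkAt S e i η ^ 2 ∂seqLaw S v ≤ i * (v : ℝ) := by
  induction i with
  | zero => simp [walkAt]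
  | succ i ih =>
    obtain ⟨hi, hb⟩ := ih
    have hx : Integrable (fun η => ext0 S (η i) e ^ 2) (seqLaw S v) :=
      (integrable_map_measure (g := fun x => ext0 S x e ^ 2)
        (((measurable_pi_apply e).comp (measurable_ext0 S)).pow_const 2).aestronglyMeasurable
        (measurable_pi_apply i).aemeasurable).1 (by
          rw [seqLaw_map_eval]; exact (ext0_moments S v e).2.1)
    have hs : ∀ η, walkAt S e (i + 1) η = walkAt S e i η + ext0 S (η i) e :=
      fun η => Finset.sum_range_succ _ _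
    have hI : Integrable (fun η => walkAt S e (i + 1) η ^ 2) (seqLaw S v) := by
      refine Integrable.mono' ((hi.const_mul 2).add (hx.const_mul 2))
        ((measurable_walkAt e (i + 1)).pow_const 2).aestronglyMeasurable
        (Filter.Eventually.of_forall fun η => ?_)
      simp only [Real.norm_eq_abs, Pi.add_apply, hs, abs_pow, sq_abs]
      nlinarith [sq_nonneg (walkAt S e i η - ext0 S (η i) e)]
    refine ⟨hI, ?_⟩
    set H : ℝ × (↥S → ℝ) → ℝ := fun p => (p.1 + ext0 S p.2 e) ^ 2 with hH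
    have hHm : Measurable H := (measurable_fst.add
      (((measurable_pi_apply e).comp (measurable_ext0 S)).comp measurable_snd)).pow_const 2
    obtain ⟨heq, hii⟩ := integral_past_now (measurable_walkAt e i)
      (fun η η' hl => walkAt_congr e hl) hHm (by simpa [hH, ← hs] using hI)
    calc ∫ η, walkAt S e (i + 1) η ^ 2 ∂seqLaw S v
        = ∫ η, H (walkAt S e i η, η i) ∂seqLaw S v := by simp only [hH, hs]
      _ = ∫ η, (∫ x, H (walkAt S e i η, x) ∂gam S v) ∂seqLaw S v := heq
      _ ≤ ∫ η, walkAt S e i η ^ 2 + (v : ℝ) ∂seqLaw S v := by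
          refine integral_mono hii (hi.add (integrable_const _)) fun η => ?_
          obtain ⟨m1, m2, m3, m4⟩ := ext0_moments S v e
          simp only [hH, add_sq]
          rw [integral_add (f := fun x => walkAt S e i η ^ 2 + 2 * walkAt S e i η * ext0 S x e)
            ((integrable_const _).add (m1.const_mul _)) m2,
            integral_add (integrable_const _) (m1.const_mul _), integral_const_mul, m3]
          simp only [integral_const, probReal_univ, smul_eq_mul, one_mul, mul_zero, add_zero]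
          linarith
      _ ≤ ((i + 1 : ℕ) : ℝ) * (v : ℝ) := by
          rw [integral_add hi (integrable_const _)]
          simp only [integral_const, probReal_univ, smul_eq_mul, one_mul]
          push_cast
          linarith

/-- First moment of a coordinate against the probability of `W`. -/
lemma prb_mul_eul (h : Setup S 𝒯 k v) {W : Finset ι} (hW : W ∈ 𝒯) (e : ι) (K : ℕ) :
    ∀ i ≤ K, |(∫ η, prb 𝒯 (eul S 𝒯 v i η) W * eul S 𝒯 v i η e ∂seqLaw S v)
      - i * ((v : ℝ) * vec W e * prb 𝒯 (fun _ => 0) W)|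
      ≤ i * (2 * (2 * K * Real.sqrt v + 3) * cst k * (v : ℝ) ^ 2
          + v * (K * (2 * cst k * (v : ℝ) ^ 2))) := by
  intro i
  induction i with
  | zero => intro _; simp [eul]
  | succ i ih =>
    intro hiK
    have ih := ih (by omega)
    set H : (ι → ℝ) × (↥S → ℝ) → ℝ :=
      fun p => prb 𝒯 (stepY S 𝒯 v p.1 p.2) W * stepY S 𝒯 v p.1 p.2 e with hH
    have hHm : Measurable H := ((measurable_prb 𝒯 W).comp (measurable_stepY S 𝒯 v)).mul
      ((measurable_pi_apply e).comp (measurable_stepY S 𝒯 v))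
    have hint : ∀ l, Integrable (fun η => prb 𝒯 (eul S 𝒯 v l η) W * eul S 𝒯 v l η e)
        (seqLaw S v) := fun l =>
      (eul_abs_bound h e l).1.bdd_mul
        ((measurable_prb 𝒯 W).comp (measurable_eul l)).aestronglyMeasurable (c := 1)
        (Filter.Eventually.of_forall fun η => by
          rw [Real.norm_eq_abs]; exact abs_prb_le_one hW)
    obtain ⟨heq, hii⟩ := integral_past_now (measurable_eul (v := v) (𝒯 := 𝒯) i)
      (fun η η' hl => eul_congr i hl) hHm (hint (i + 1))
    have hF : Integrable (fun η => prb 𝒯 (eul S 𝒯 v i η) W) (seqLaw S v) :=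
      integrable_unit ((measurable_prb 𝒯 W).comp (measurable_eul i)) fun η => abs_prb_le_one hW
    have hA : Integrable (fun η => prb 𝒯 (eul S 𝒯 v i η) W
        * (eul S 𝒯 v i η e + v * vec W e)) (seqLaw S v) := by
      simp only [mul_add]
      exact (hint i).add (hF.mul_const _)
    have hstep : |(∫ η, prb 𝒯 (eul S 𝒯 v (i + 1) η) W * eul S 𝒯 v (i + 1) η e ∂seqLaw S v)
        - ∫ η, prb 𝒯 (eul S 𝒯 v i η) W * (eul S 𝒯 v i η e + v * vec W e) ∂seqLaw S v|
        ≤ 2 * (2 * K * Real.sqrt v + 3) * cst k * (v : ℝ) ^ 2 := by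
      have he : (∫ η, prb 𝒯 (eul S 𝒯 v (i + 1) η) W * eul S 𝒯 v (i + 1) η e ∂seqLaw S v)
          = ∫ η, H (eul S 𝒯 v i η, η i) ∂seqLaw S v := rfl
      rw [he, heq, ← integral_sub hii hA]
      refine abs_integral_le_integral_abs.trans ?_
      obtain ⟨hI1, hI2⟩ := eul_abs_bound h e i
      calc ∫ η, |(∫ x, H (eul S 𝒯 v i η, x) ∂gam S v)
            - prb 𝒯 (eul S 𝒯 v i η) W * (eul S 𝒯 v i η e + v * vec W e)| ∂seqLaw S v
          ≤ ∫ η, 2 * (|eul S 𝒯 v i η e| + 3) * cst k * (v : ℝ) ^ 2 ∂seqLaw S v :=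
            integral_mono (hii.sub hA).abs
              ((((hI1.abs.add (integrable_const _)).const_mul _).mul_const _).mul_const _)
              fun η => step_prb_mul h hW _ e
        _ ≤ _ := by
            rw [integral_mul_const, integral_mul_const, integral_const_mul,
              integral_add hI1.abs (integrable_const _)]
            simp only [integral_const, probReal_univ, smul_eq_mul, one_mul]
            have hiK' : (i : ℝ) ≤ K := by exact_mod_cast (by omega : i ≤ K)
            have := mul_le_mul_of_nonneg_right hiK' (Real.sqrt_nonneg (v : ℝ))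
            gcongr ?_ * _ * _
            · exact cst_nonneg k
            · linarith
    have hmart := prb_mart h hW (φ := fun _ => (1:ℝ)) measurable_const (fun _ => by simp) 0 i
    simp only [zero_add, one_mul] at hmart
    have h0 : ∫ η, prb 𝒯 (eul S 𝒯 v 0 η) W ∂seqLaw S v = prb 𝒯 (fun _ => 0) W := by
      simp [eul]
    rw [h0] at hmart
    have hsplit : ∫ η, prb 𝒯 (eul S 𝒯 v i η) W * (eul S 𝒯 v i η e + v * vec W e) ∂seqLaw S v
        = (∫ η, prb 𝒯 (eul S 𝒯 v i η) W * eul S 𝒯 v i η e ∂seqLaw S v)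
          + (∫ η, prb 𝒯 (eul S 𝒯 v i η) W ∂seqLaw S v) * (v * vec W e) := by
      simp only [mul_add]
      rw [integral_add (hint i) (hF.mul_const _), integral_mul_const]
    rw [hsplit] at hstep
    have hv0 := v.coe_nonneg
    have hvec := vec_mem W e
    have hbd : |((∫ η, prb 𝒯 (eul S 𝒯 v i η) W ∂seqLaw S v) - prb 𝒯 (fun _ => 0) W)
        * (v * vec W e)| ≤ v * (K * (2 * cst k * (v : ℝ) ^ 2)) := by
      rw [abs_mul, abs_of_nonneg (mul_nonneg hv0 hvec.1), mul_comm (v : ℝ) (K * _)]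
      refine mul_le_mul (hmart.trans ?_) (mul_le_of_le_one_right hv0 hvec.2)
        (mul_nonneg hv0 hvec.1) (by have := cst_nonneg k; positivity)
      have := cst_nonneg k
      gcongr
      omega
    push_cast
    rw [abs_le] at ih hstep hbd ⊢
    constructor <;> linarith

/-- The error constant. -/
noncomputable def errC (N k : ℕ) (T : ℝ) : ℝ := 20 * ((N : ℝ) + 1) * cst k * (T + 1)

lemma errC_nonneg (N k : ℕ) {T : ℝ} (hT : 0 ≤ T) : 0 ≤ errC N k T := by
  have := cst_nonneg k; unfold errC; positivity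

lemma integral_event_bound (h : Setup S 𝒯 k v) (P : Finset ι → Prop) (K : ℕ) :
    |(∫ η, (∑ T ∈ 𝒯, if P T then prb 𝒯 (eul S 𝒯 v K η) T else 0) ∂seqLaw S v)
      - ∑ T ∈ 𝒯, if P T then prb 𝒯 (fun _ => 0) T else 0|
      ≤ 𝒯.card * (K * (2 * cst k * (v : ℝ) ^ 2)) := by
  rw [integral_finsetSum]
  · rw [← Finset.sum_sub_distrib]
    refine (Finset.abs_sum_le_sum_abs _ _).trans ((Finset.sum_le_card_nsmul _ _ _
      fun T hT => ?_).trans_eq (by rw [nsmul_eq_mul]))
    split_ifs
    · have := prb_mart h hT (φ := fun _ => (1:ℝ)) measurable_const (fun _ => by simp) 0 K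
      simpa [eul] using this
    · have := cst_nonneg k
      simp only [integral_zero, sub_self, abs_zero]
      positivity
  · intro T hT
    split_ifs
    · exact integrable_unit ((measurable_prb 𝒯 T).comp (measurable_eul K))
        fun η => abs_prb_le_one hT
    · simp

lemma marg_integrable (S : Finset ι) (𝒯 : Finset (Finset ι)) (v : ℝ≥0) (e : ι) (i : ℕ) :
    Integrable (fun η => marg 𝒯 (eul S 𝒯 v i η) e) (seqLaw S v) :=
  integrable_unit ((measurable_marg 𝒯 e).comp (measurable_eul i)) fun _ => abs_marg_le_one _ _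

lemma marg_mul_integrable (S : Finset ι) (𝒯 : Finset (Finset ι)) (v : ℝ≥0) (e : ι) (i j : ℕ) :
    Integrable (fun η => marg 𝒯 (eul S 𝒯 v i η) e * marg 𝒯 (eul S 𝒯 v j η) e) (seqLaw S v) :=
  integrable_unit (((measurable_marg 𝒯 e).comp (measurable_eul i)).mul
    ((measurable_marg 𝒯 e).comp (measurable_eul j)))
    fun _ => abs_mul_le_one (abs_marg_le_one _ _) (abs_marg_le_one _ _)

/-- The marginal concentrates near `{0, 1}`. -/
lemma var_bound (h : Setup S 𝒯 k v) (e : ι) {K : ℕ} (hK : 0 < K) :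
    ∫ η, marg 𝒯 (eul S 𝒯 v K η) e * (1 - marg 𝒯 (eul S 𝒯 v K η) e) ∂seqLaw S v
      ≤ 1 / Real.sqrt (K * v) + errC 𝒯.card k (K * v) * Real.sqrt v := by
  set N : ℝ := (𝒯.card : ℝ)
  set c := cst k
  have hc : 0 ≤ c := cst_nonneg k
  set T : ℝ := K * v
  set s := Real.sqrt v
  have hv : (0:ℝ) < v := by exact_mod_cast pos_iff_ne_zero.2 h.pos
  have hTpos : 0 < T := mul_pos (by exact_mod_cast hK) hv
  have hs : 0 ≤ s := Real.sqrt_nonneg _
  have hvs : (v : ℝ) ≤ s := Real.le_sqrt_of_sq_le (by nlinarith [h.le_one])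
  set m : ℕ → (ℕ → ↥S → ℝ) → ℝ := fun i η => marg 𝒯 (eul S 𝒯 v i η) e
  set p := marg 𝒯 (fun _ => (0:ℝ)) e
  set D : ℝ := N * (K * (2 * c * (v : ℝ) ^ 2))
  have hD : D ≤ 2 * N * c * T * s := by
    calc D = 2 * N * c * T * v := by simp only [D, T]; ring
      _ ≤ 2 * N * c * T * s := by gcongr
  set E : ℝ := N * (K * (2 * (2 * K * s + 3) * c * (v : ℝ) ^ 2
      + v * (K * (2 * c * (v : ℝ) ^ 2))))
  have hE : E ≤ 2 * N * c * (3 * T + 3) * s * T := by
    calc E = 2 * N * c * T * (2 * T * s + 3 * v + T * v) := by simp only [E, T]; ring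
      _ ≤ 2 * N * c * T * (2 * T * s + 3 * s + T * s) := by gcongr
      _ = _ := by ring
  have hmean : |(∫ η, m K η ∂seqLaw S v) - p| ≤ D := by
    have := marg_mart h e (φ := fun _ => (1:ℝ)) measurable_const (fun _ => by simp)
      (Nat.zero_le K)
    simpa [eul, m, p, D] using this
  have hI : ∀ W ∈ 𝒯,
      Integrable (fun η => prb 𝒯 (eul S 𝒯 v K η) W * eul S 𝒯 v K η e) (seqLaw S v) := fun W hW =>
    (eul_abs_bound h e K).1.bdd_mul
      ((measurable_prb 𝒯 W).comp (measurable_eul K)).aestronglyMeasurable (c := 1)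
      (Filter.Eventually.of_forall fun η => by rw [Real.norm_eq_abs]; exact abs_prb_le_one hW)
  -- the first moment identity
  have hmom : p * T - E ≤ ∫ η, m K η * eul S 𝒯 v K η e ∂seqLaw S v := by
    have hsum : (∫ η, m K η * eul S 𝒯 v K η e ∂seqLaw S v) = ∑ W ∈ 𝒯, if e ∈ W then
        ∫ η, prb 𝒯 (eul S 𝒯 v K η) W * eul S 𝒯 v K η e ∂seqLaw S v else 0 := by
      simp only [m, marg, Finset.sum_mul]
      rw [integral_finsetSum]
      · exact Finset.sum_congr rfl fun W _ => by split_ifs <;> simp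
      · intro W hW
        split_ifs
        · exact hI W hW
        · simp
    have hp : p * T = ∑ W ∈ 𝒯, if e ∈ W then prb 𝒯 (fun _ => (0:ℝ)) W * T else 0 := by
      simp only [p, marg, Finset.sum_mul, ite_mul, zero_mul]
    have hdiff : |(∫ η, m K η * eul S 𝒯 v K η e ∂seqLaw S v) - p * T| ≤ E := by
      rw [hsum, hp, ← Finset.sum_sub_distrib]
      refine (Finset.abs_sum_le_sum_abs _ _).trans ((Finset.sum_le_card_nsmul _ _ _
        fun W hW => ?_).trans_eq (nsmul_eq_mul _ _))
      split_ifs with heW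
      · have := prb_mul_eul h hW e K K le_rfl
        rw [show (K : ℝ) * ((v : ℝ) * vec W e * prb 𝒯 (fun _ => 0) W)
          = prb 𝒯 (fun _ => (0:ℝ)) W * T by simp [vec, heW, T]; ring] at this
        exact this
      · simp only [sub_self, abs_zero]
        positivity
    linarith [(abs_le.1 hdiff).1]
  have hwalk : ∫ η, m K η * walkAt S e K η ∂seqLaw S v ≤ Real.sqrt T := by
    obtain ⟨hw1, hw2⟩ := walkAt_sq (S := S) v e K
    have hsT : 0 < Real.sqrt T := Real.sqrt_pos.2 hTpos
    have hpt : ∀ η, |m K η * walkAt S e K η|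
        ≤ (walkAt S e K η ^ 2 / Real.sqrt T + Real.sqrt T) / 2 := by
      intro η
      rw [abs_mul]
      refine (mul_le_of_le_one_left (abs_nonneg _) (abs_marg_le_one _ _)).trans ?_
      have h1 : 0 ≤ (|walkAt S e K η| - Real.sqrt T) ^ 2 / Real.sqrt T := by positivity
      have h2 : (|walkAt S e K η| - Real.sqrt T) ^ 2 / Real.sqrt T
          = walkAt S e K η ^ 2 / Real.sqrt T + Real.sqrt T - 2 * |walkAt S e K η| := by
        rw [← sq_abs (walkAt S e K η)]; field_simp; ring
      linarith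
    have hdom : Integrable (fun η => (walkAt S e K η ^ 2 / Real.sqrt T + Real.sqrt T) / 2)
        (seqLaw S v) := ((hw1.div_const _).add (integrable_const _)).div_const _
    refine (le_abs_self _).trans ((abs_integral_le_integral_abs).trans
      ((integral_mono ?_ hdom hpt).trans ?_))
    · exact (hdom.mono' (((measurable_marg 𝒯 e).comp (measurable_eul K)).mul
        (measurable_walkAt e K)).aestronglyMeasurable
        (Filter.Eventually.of_forall fun η => by rw [Real.norm_eq_abs]; exact hpt η)).abs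
    · rw [integral_div, integral_add (hw1.div_const _) (integrable_const _), integral_div]
      simp only [integral_const, probReal_univ, smul_eq_mul, one_mul]
      have : (∫ η, walkAt S e K η ^ 2 ∂seqLaw S v) / Real.sqrt T ≤ Real.sqrt T := by
        rw [div_le_iff₀ hsT, ← sq, Real.sq_sqrt hTpos.le]; exact hw2
      linarith
  have hprod : ∀ i ≤ K, ∫ η, m K η * m i η ∂seqLaw S v
      ≤ (∫ η, m K η * m K η ∂seqLaw S v) + 3 * D := by
    intro i hi
    have h1 := marg_mart h e (φ := fun y => marg 𝒯 y e) (measurable_marg 𝒯 e)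
      (fun y => abs_marg_le_one y e) hi
    have h2 : 0 ≤ ∫ η, (m K η - m i η) * (m K η - m i η) ∂seqLaw S v :=
      integral_nonneg fun η => mul_self_nonneg _
    have h3 : (∫ η, (m K η - m i η) * (m K η - m i η) ∂seqLaw S v)
        = (∫ η, m K η * m K η ∂seqLaw S v) - 2 * (∫ η, m i η * m K η ∂seqLaw S v)
          + ∫ η, m i η * m i η ∂seqLaw S v := by
      have e1 := marg_mul_integrable S 𝒯 v e K K
      have e2 := marg_mul_integrable S 𝒯 v e i K
      have e3 := marg_mul_integrable S 𝒯 v e i i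
      simp only [m] at *
      rw [← integral_const_mul, ← integral_sub e1 (e2.const_mul _),
        ← integral_add (f := fun η => marg 𝒯 (eul S 𝒯 v K η) e * marg 𝒯 (eul S 𝒯 v K η) e
          - 2 * (marg 𝒯 (eul S 𝒯 v i η) e * marg 𝒯 (eul S 𝒯 v K η) e)) (e1.sub (e2.const_mul _)) e3]
      refine integral_congr_ae (Filter.Eventually.of_forall fun η => ?_)
      ring
    have h4 : (∫ η, m K η * m i η ∂seqLaw S v) = ∫ η, m i η * m K η ∂seqLaw S v := by
      simp only [mul_comm]
    rw [abs_le] at h1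
    change -D ≤ _ ∧ _ ≤ D at h1
    linarith [h1.1, h1.2]
  have hint2 : ∀ i, Integrable (fun η => m K η * m i η) (seqLaw S v) :=
    fun i => marg_mul_integrable S 𝒯 v e K i
  have hw_int : Integrable (fun η => m K η * walkAt S e K η) (seqLaw S v) := by
    obtain ⟨hw1, -⟩ := walkAt_sq (S := S) v e K
    refine Integrable.mono' (hw1.add (integrable_const 1))
      (((measurable_marg 𝒯 e).comp (measurable_eul K)).mul
        (measurable_walkAt e K)).aestronglyMeasurable (Filter.Eventually.of_forall fun η => ?_)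
    simp only [Real.norm_eq_abs, abs_mul, Pi.add_apply]
    refine (mul_le_of_le_one_left (abs_nonneg _) (abs_marg_le_one _ _)).trans ?_
    nlinarith [sq_nonneg (|walkAt S e K η| - 1), sq_abs (walkAt S e K η),
      abs_nonneg (walkAt S e K η)]
  have hdecomp : ∫ η, m K η * eul S 𝒯 v K η e ∂seqLaw S v
      ≤ Real.sqrt T + T * ((∫ η, m K η * m K η ∂seqLaw S v) + 3 * D) := by
    calc ∫ η, m K η * eul S 𝒯 v K η e ∂seqLaw S v
        = ∫ η, m K η * walkAt S e K η + (v : ℝ) * ∑ l ∈ Finset.range K, m K η * m l η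
            ∂seqLaw S v := by
          refine integral_congr_ae (Filter.Eventually.of_forall fun η => ?_)
          simp only [eul_eq_walk, m, ← Finset.mul_sum]
          ring
      _ = (∫ η, m K η * walkAt S e K η ∂seqLaw S v)
            + (v : ℝ) * ∑ l ∈ Finset.range K, ∫ η, m K η * m l η ∂seqLaw S v := by
          rw [integral_add hw_int ((integrable_finsetSum _ fun l _ => hint2 l).const_mul _),
            integral_const_mul, integral_finsetSum _ fun l _ => hint2 l]
      _ ≤ Real.sqrt T + (v : ℝ) * ((K : ℝ) * ((∫ η, m K η * m K η ∂seqLaw S v) + 3 * D)) := by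
          refine add_le_add hwalk (mul_le_mul_of_nonneg_left ?_ v.coe_nonneg)
          refine (Finset.sum_le_card_nsmul _ _ _ fun l hl =>
            hprod l (Finset.mem_range.1 hl).le).trans_eq ?_
          rw [Finset.card_range, nsmul_eq_mul]
      _ = _ := by simp only [T]; ring
  have hkey : p - (∫ η, m K η * m K η ∂seqLaw S v)
      ≤ 1 / Real.sqrt T + 3 * D + 2 * N * c * (3 * T + 3) * s := by
    have hsT : 0 < Real.sqrt T := Real.sqrt_pos.2 hTpos
    refine le_of_mul_le_mul_right ?_ hTpos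
    have h1 : 1 / Real.sqrt T * T = Real.sqrt T := by
      rw [one_div, inv_mul_eq_div, div_eq_iff hsT.ne', Real.mul_self_sqrt hTpos.le]
    rw [add_mul, add_mul, h1]
    linarith
  calc ∫ η, m K η * (1 - m K η) ∂seqLaw S v
      = (∫ η, m K η ∂seqLaw S v) - ∫ η, m K η * m K η ∂seqLaw S v := by
        rw [← integral_sub (marg_integrable S 𝒯 v e K) (hint2 K)]
        refine integral_congr_ae (Filter.Eventually.of_forall fun η => ?_)
        simp only [m]
        ring
    _ ≤ 1 / Real.sqrt T + 4 * D + 2 * N * c * (3 * T + 3) * s := by linarith [(abs_le.1 hmean).2]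
    _ ≤ 1 / Real.sqrt T + errC 𝒯.card k T * s := by
        have : 0 ≤ N := Nat.cast_nonneg _
        have h2 : (14 * N * (T + 1) + 0) * c * s ≤ 20 * (N + 1) * c * (T + 1) * s := by
          rw [add_zero]
          have : 0 ≤ c * s := mul_nonneg hc hs
          nlinarith [mul_nonneg this hTpos.le, mul_nonneg (mul_nonneg this hTpos.le) (Nat.cast_nonneg (α := ℝ) 𝒯.card), mul_nonneg this (Nat.cast_nonneg (α := ℝ) 𝒯.card)]
        have h3 : 0 ≤ N * c * s * T := by positivity
        unfold errC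
        change _ ≤ 1 / Real.sqrt T + 20 * (N + 1) * c * (T + 1) * s
        nlinarith [mul_nonneg (mul_nonneg ‹0 ≤ N› hc) hs]

/-- The marginal is nearly constant after a long time. -/
lemma cauchy_bound (h : Setup S 𝒯 k v) (e : ι) {j K : ℕ} (hj : 0 < j) (hjK : j ≤ K) :
    ∫ η, (marg 𝒯 (eul S 𝒯 v K η) e - marg 𝒯 (eul S 𝒯 v j η) e) ^ 2 ∂seqLaw S v
      ≤ 1 / Real.sqrt (j * v) + 2 * errC 𝒯.card k (K * v) * Real.sqrt v := by
  set m : ℕ → (ℕ → ↥S → ℝ) → ℝ := fun i η => marg 𝒯 (eul S 𝒯 v i η) e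
  set D : ℝ := (𝒯.card : ℝ) * (K * (2 * cst k * (v : ℝ) ^ 2))
  have hc := cst_nonneg k
  have h1 := marg_mart h e (φ := fun y => marg 𝒯 y e) (measurable_marg 𝒯 e)
    (fun y => abs_marg_le_one y e) hjK
  have h2 := marg_mart h e (φ := fun _ => (1:ℝ)) measurable_const (fun _ => by simp) hjK
  simp only [one_mul] at h2
  have h3 : ∫ η, m K η * m K η ∂seqLaw S v ≤ ∫ η, m K η ∂seqLaw S v := by
    refine integral_mono (marg_mul_integrable S 𝒯 v e K K) (marg_integrable S 𝒯 v e K) fun η => ?_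
    exact mul_le_of_le_one_left (marg_nonneg _ _ _) (marg_le_one _ _ _)
  have h4 : ∫ η, (m K η - m j η) ^ 2 ∂seqLaw S v
      = (∫ η, m K η * m K η ∂seqLaw S v) - 2 * (∫ η, m j η * m K η ∂seqLaw S v)
        + ∫ η, m j η * m j η ∂seqLaw S v := by
    have e1 := marg_mul_integrable S 𝒯 v e K K
    have e2 := marg_mul_integrable S 𝒯 v e j K
    have e3 := marg_mul_integrable S 𝒯 v e j j
    simp only [m] at *
    rw [← integral_const_mul, ← integral_sub e1 (e2.const_mul _),
      ← integral_add (f := fun η => marg 𝒯 (eul S 𝒯 v K η) e * marg 𝒯 (eul S 𝒯 v K η) e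
        - 2 * (marg 𝒯 (eul S 𝒯 v j η) e * marg 𝒯 (eul S 𝒯 v K η) e)) (e1.sub (e2.const_mul _)) e3]
    refine integral_congr_ae (Filter.Eventually.of_forall fun η => ?_)
    ring
  have h5 : ∫ η, m j η * (1 - m j η) ∂seqLaw S v
      = (∫ η, m j η ∂seqLaw S v) - ∫ η, m j η * m j η ∂seqLaw S v := by
    rw [← integral_sub (marg_integrable S 𝒯 v e j) (marg_mul_integrable S 𝒯 v e j j)]
    refine integral_congr_ae (Filter.Eventually.of_forall fun η => ?_)
    simp only [m]
    ring
  have h6 : ∫ η, m j η * (1 - m j η) ∂seqLaw S v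
      ≤ 1 / Real.sqrt (j * v) + errC 𝒯.card k (j * v) * Real.sqrt v := var_bound h e hj
  have hmono : errC 𝒯.card k (j * v) ≤ errC 𝒯.card k (K * v) := by
    unfold errC
    have : (j : ℝ) ≤ K := by exact_mod_cast hjK
    gcongr
  have hD : 3 * D ≤ errC 𝒯.card k (K * v) * Real.sqrt v := by
    have hvs : (v : ℝ) ≤ Real.sqrt v :=
      Real.le_sqrt_of_sq_le (by nlinarith [h.le_one, v.coe_nonneg])
    have hN : (0:ℝ) ≤ (𝒯.card : ℝ) := Nat.cast_nonneg _
    have hKv : 0 ≤ (K : ℝ) * v := by positivity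
    calc 3 * D = 6 * (𝒯.card : ℝ) * cst k * (K * v) * v := by simp only [D]; ring
      _ ≤ 20 * ((𝒯.card : ℝ) + 1) * cst k * (K * v + 1) * Real.sqrt v := by
          gcongr <;> linarith
      _ = _ := by unfold errC; ring
  have h7 := mul_le_mul_of_nonneg_right hmono (Real.sqrt_nonneg (v : ℝ))
  change |(∫ η, m j η * m K η ∂seqLaw S v) - ∫ η, m j η * m j η ∂seqLaw S v| ≤ D at h1
  change |(∫ η, m K η ∂seqLaw S v) - ∫ η, m j η ∂seqLaw S v| ≤ D at h2
  rw [abs_le] at h1 h2
  show ∫ η, (m K η - m j η) ^ 2 ∂seqLaw S v ≤ _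
  linarith

end Vale.Agent.P143
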