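import Mathlib

/-!
# Definitions used in the statement of the hand-in for P143

Uniform spanning trees of finite connected subgraphs and their weak limit along exhaustions.
-/

namespace Vale.Agent.P143

variable {V : Type} {G : SimpleGraph V}

/-- The spanning trees of a subgraph `H`, as edge sets: acyclic sets of edges of `H`
that connect any two vertices of `H`. -/
def spanningTrees (H : G.Subgraph) : Set (Set (Sym2 V)) :=
  {T | T ⊆ H.edgeSet ∧ (SimpleGraph.fromEdgeSet T).IsAcyclic ∧
    ∀ u ∈ H.verts, ∀ v ∈ H.verts, (SimpleGraph.fromEdgeSet T).Reachable u v}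

/-- The probability that a uniformly random spanning tree of `H` satisfies `P`. -/
noncomputable def ustProb (H : G.Subgraph) (P : Set (Sym2 V) → Prop) : ℝ :=
  ({T ∈ spanningTrees H | P T}.ncard : ℝ) / ((spanningTrees H).ncard : ℝ)

/-- An exhaustion of `G` by finite connected subgraphs. -/
def IsExhaustion (G : SimpleGraph V) (H : ℕ → G.Subgraph) : Prop :=
  Monotone H ∧ (∀ n, (H n).verts.Finite ∧ (H n).Connected) ∧
    (∀ v, ∃ n, v ∈ (H n).verts) ∧ (∀ u v, G.Adj u v → ∃ n, (H n).Adj u v)

/-- `μ` is the free uniform spanning forest of `G`: it is a probability measure on edge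
configurations whose cylinder probabilities are the limits of those of the uniform spanning
trees along every exhaustion, and there is at least one exhaustion. -/
def IsFUSF (G : SimpleGraph V) (μ : MeasureTheory.Measure (Sym2 V → Bool)) : Prop :=
  MeasureTheory.IsProbabilityMeasure μ ∧ (∃ H, IsExhaustion G H) ∧
    ∀ H, IsExhaustion G H → ∀ (A : Finset (Sym2 V)) (η : Sym2 V → Bool),
      Filter.Tendsto (fun n => ustProb (H n) (fun T => ∀ e ∈ A, (e ∈ T ↔ η e = true)))
        Filter.atTop (nhds (μ.real {X | ∀ e ∈ A, X e = η e}))

end Vale.Agent.P143
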