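import Vale.Agent.P143.Shift

/-!
# The discretised localization process on a finite collection
-/

namespace Vale.Agent.P143

open MeasureTheory ProbabilityTheory Finset Real
open scoped Classical NNReal ENNReal

variable {ι : Type}

/-- The setting: a nonempty collection of `k`-subsets of `S`, and a step size. -/
structure Setup (S : Finset ι) (𝒯 : Finset (Finset ι)) (k : ℕ) (v : ℝ≥0) : Prop where
  ne : 𝒯.Nonempty
  sub : ∀ T ∈ 𝒯, T ⊆ S
  card : ∀ T ∈ 𝒯, T.card = k
  pos : v ≠ 0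
  small : (v : ℝ) * (k + 1) ≤ 1 / 2

lemma Setup.le_one {S : Finset ι} {𝒯 : Finset (Finset ι)} {k : ℕ} {v : ℝ≥0}
    (h : Setup S 𝒯 k v) : (v : ℝ) ≤ 1 := by
  have := h.small
  nlinarith [v.coe_nonneg, (Nat.cast_nonneg k : (0:ℝ) ≤ k)]

/-- The constant of the first order expansion. -/
noncomputable def cst (k : ℕ) : ℝ := 4 * ((k : ℝ) + 1) ^ 2

lemma cst_nonneg (k : ℕ) : 0 ≤ cst k := by unfold cst; positivity

lemma le_cst (k : ℕ) : (k : ℝ) + 1 ≤ cst k := by
  unfold cst; nlinarith [(Nat.cast_nonneg k : (0:ℝ) ≤ k)]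

variable {S : Finset ι} {𝒯 : Finset (Finset ι)} {k : ℕ} {v : ℝ≥0}

/-- One step of the discretised process. -/
noncomputable def stepY (S : Finset ι) (𝒯 : Finset (Finset ι)) (v : ℝ≥0) (y : ι → ℝ)
    (x : ↥S → ℝ) (i : ι) : ℝ :=
  y i + ext0 S x i + (v : ℝ) * marg 𝒯 y i

lemma stepY_eq (S : Finset ι) (𝒯 : Finset (Finset ι)) (v : ℝ≥0) (y : ι → ℝ) (x : ↥S → ℝ) :
    stepY S 𝒯 v y x = fun i => y i + ext0 S x i + (v : ℝ) * marg 𝒯 y i := rfl

lemma sum_prb_vec (y : ι → ℝ) (i : ι) :
    ∑ T ∈ 𝒯, prb 𝒯 y T * vec T i = marg 𝒯 y i := by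
  refine Finset.sum_congr rfl fun T _ => ?_
  unfold vec; split_ifs <;> simp

lemma sum_prb_resp (_h : Setup S 𝒯 k v) (y z : ι → ℝ) (W : Finset ι) :
    ∑ T ∈ 𝒯, prb 𝒯 y T * resp 𝒯 z W (vec T) = resp 𝒯 z W (marg 𝒯 y) := by
  have key : ∀ U : Finset ι,
      ∑ T ∈ 𝒯, prb 𝒯 y T * ∑ i ∈ U, vec T i = ∑ i ∈ U, marg 𝒯 y i := by
    intro U
    simp only [Finset.mul_sum]
    rw [Finset.sum_comm]
    exact Finset.sum_congr rfl fun i _ => sum_prb_vec y i
  simp only [resp, mul_sub, Finset.sum_sub_distrib, key W]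
  congr 1
  calc ∑ T ∈ 𝒯, prb 𝒯 y T * ∑ U ∈ 𝒯, prb 𝒯 z U * ∑ i ∈ U, vec T i
      = ∑ U ∈ 𝒯, prb 𝒯 z U * ∑ T ∈ 𝒯, prb 𝒯 y T * ∑ i ∈ U, vec T i := by
        simp only [Finset.mul_sum]
        rw [Finset.sum_comm]
        exact Finset.sum_congr rfl fun U _ => Finset.sum_congr rfl fun T _ =>
          Finset.sum_congr rfl fun i _ => by ring
    _ = _ := Finset.sum_congr rfl fun U _ => by rw [key U]

lemma integral_gam_eval (i : ↥S) {f : ℝ → ℝ} (hf : Measurable f) :
    ∫ x, f (x i) ∂gam S v = ∫ r, f r ∂gaussianReal 0 v := by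
  have hmp : MeasurePreserving (fun x : ↥S → ℝ => x i) (gam S v) (gaussianReal 0 v) :=
    measurePreserving_eval _ i
  rw [← hmp.map_eq, integral_map hmp.measurable.aemeasurable hf.aestronglyMeasurable]

lemma ext0_moments (S : Finset ι) (v : ℝ≥0) (e : ι) :
    Integrable (fun x => ext0 S x e) (gam S v) ∧ Integrable (fun x => ext0 S x e ^ 2) (gam S v) ∧
      (∫ x, ext0 S x e ∂gam S v = 0) ∧ (∫ x, ext0 S x e ^ 2 ∂gam S v ≤ v) := by
  unfold ext0
  by_cases h : e ∈ S
  · simp only [dif_pos h]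
    have hmp : MeasurePreserving (fun x : ↥S → ℝ => x ⟨e, h⟩) (gam S v) (gaussianReal 0 v) :=
      measurePreserving_eval _ _
    refine ⟨?_, ?_, ?_, ?_⟩
    · exact hmp.integrable_comp_of_integrable
        ((memLp_id_gaussianReal (μ := 0) (v := v) 1).integrable (by simp))
    · exact hmp.integrable_comp_of_integrable
        (g := fun r => r ^ 2) (memLp_id_gaussianReal (μ := 0) (v := v) 2).integrable_sq
    · rw [integral_gam_eval ⟨e, h⟩ (f := fun r => r) measurable_id, integral_id_gaussianReal]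
    · rw [integral_gam_eval ⟨e, h⟩ (f := fun r => r ^ 2) (measurable_id.pow_const 2)]
      refine le_of_eq ?_
      have := variance_id_gaussianReal (μ := (0:ℝ)) (v := v)
      rw [variance_of_integral_eq_zero (by fun_prop) (by simp [integral_id_gaussianReal])] at this
      simpa using this
  · simp only [dif_neg h]
    refine ⟨integrable_const _, by simp, by simp, by simp⟩

lemma integral_abs_ext0 (hv : v ≠ 0) (S : Finset ι) (e : ι) :
    ∫ x, |ext0 S x e| ∂gam S v ≤ Real.sqrt v := by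
  obtain ⟨h1, h2, -, h4⟩ := ext0_moments S v e
  have hs : 0 < Real.sqrt v := Real.sqrt_pos.2 (by exact_mod_cast pos_iff_ne_zero.2 hv)
  calc ∫ x, |ext0 S x e| ∂gam S v
      ≤ ∫ x, (ext0 S x e ^ 2 / Real.sqrt v + Real.sqrt v) / 2 ∂gam S v := by
        refine integral_mono h1.abs (((h2.div_const _).add (integrable_const _)).div_const _)
          fun x => ?_
        have : 0 ≤ (|ext0 S x e| - Real.sqrt v) ^ 2 / Real.sqrt v := by positivity
        have h3 : (|ext0 S x e| - Real.sqrt v) ^ 2 / Real.sqrt v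
            = ext0 S x e ^ 2 / Real.sqrt v + Real.sqrt v - 2 * |ext0 S x e| := by
          rw [← sq_abs (ext0 S x e)]; field_simp; ring
        linarith
    _ ≤ Real.sqrt v := by
        rw [integral_div, integral_add (h2.div_const _) (integrable_const _), integral_div]
        simp only [integral_const, probReal_univ, smul_eq_mul, one_mul]
        have : (∫ x, ext0 S x e ^ 2 ∂gam S v) / Real.sqrt v ≤ Real.sqrt v := by
          rw [div_le_iff₀ hs, ← sq, Real.sq_sqrt v.coe_nonneg]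
          exact h4
        linarith

lemma measurable_stepY (S : Finset ι) (𝒯 : Finset (Finset ι)) (v : ℝ≥0) :
    Measurable fun p : (ι → ℝ) × (↥S → ℝ) => stepY S 𝒯 v p.1 p.2 := by
  refine measurable_pi_lambda _ fun i => ?_
  unfold stepY
  exact (((measurable_pi_apply i).comp measurable_fst).add
    ((measurable_pi_apply i).comp ((measurable_ext0 S).comp measurable_snd))).add
    (((measurable_marg 𝒯 i).comp measurable_fst).const_mul _)

lemma integrable_prb_comp {α : Type} [MeasurableSpace α] {μ : Measure α} [IsFiniteMeasure μ]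
    {W : Finset ι} (hW : W ∈ 𝒯) {g : α → ι → ℝ} (hg : Measurable g) :
    Integrable (fun a => prb 𝒯 (g a) W) μ :=
  Integrable.of_bound ((measurable_prb 𝒯 W).comp hg).aestronglyMeasurable 1
    (Filter.Eventually.of_forall fun a => by
      rw [Real.norm_eq_abs, abs_of_nonneg (prb_nonneg _ _ _)]; exact prb_le_one hW)

lemma measurable_shiftY (S : Finset ι) (y w : ι → ℝ) (c : ℝ) :
    Measurable fun (x : ↥S → ℝ) (i : ι) => y i + ext0 S x i + c * w i :=
  measurable_pi_lambda _ fun i =>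
    ((((measurable_pi_apply i).comp (measurable_ext0 S)).const_add (y i)).add_const _)

/-- One step preserves the probability of `W` up to second order. -/
lemma step_prb (h : Setup S 𝒯 k v) {W : Finset ι} (hW : W ∈ 𝒯) (y : ι → ℝ) :
    |(∫ x, prb 𝒯 (stepY S 𝒯 v y x) W ∂gam S v) - prb 𝒯 y W| ≤ 2 * cst k * (v : ℝ) ^ 2 := by
  have hint : ∀ T : Finset ι, Integrable
      (fun x => prb 𝒯 (fun i => y i + ext0 S x i + (v : ℝ) * vec T i) W) (gam S v) := fun T =>
    integrable_prb_comp hW (measurable_shiftY S y (vec T) v)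
  have hex := exact_identity h.ne h.sub h.card h.pos hW (ψ := fun _ => (1:ℝ)) measurable_const y
    (fun T _ => by simpa using hint T)
  simp only [mul_one, integral_const, probReal_univ, smul_eq_mul] at hex
  have hex2 : prb 𝒯 y W = ∫ x, ∑ T ∈ 𝒯,
      prb 𝒯 y T * prb 𝒯 (fun i => y i + ext0 S x i + (v : ℝ) * vec T i) W ∂gam S v := by
    rw [integral_finsetSum _ fun T _ => (hint T).const_mul _]
    simp only [integral_const_mul]
    exact hex.symm
  have hi1 : Integrable (fun x => prb 𝒯 (stepY S 𝒯 v y x) W) (gam S v) :=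
    integrable_prb_comp hW (measurable_shiftY S y (marg 𝒯 y) v)
  rw [hex2, ← integral_sub hi1 (integrable_finsetSum _ fun T _ => (hint T).const_mul _),
    ← Real.norm_eq_abs]
  refine (norm_integral_le_of_norm_le_const (C := 2 * cst k * (v : ℝ) ^ 2)
    (Filter.Eventually.of_forall fun x => ?_)).trans (by simp)
  set z := fun i => y i + ext0 S x i with hz
  have hm : ∀ i, 0 ≤ marg 𝒯 y i ∧ marg 𝒯 y i ≤ 1 :=
    fun i => ⟨marg_nonneg _ _ _, marg_le_one _ _ _⟩
  have e1 := prb_expand h.ne h.card z hW hm v.coe_nonneg h.small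
  have e2 : ∀ T, |prb 𝒯 (fun i => z i + (v : ℝ) * vec T i) W
      - prb 𝒯 z W * (1 + v * resp 𝒯 z W (vec T))| ≤ cst k * (v : ℝ) ^ 2 := fun T =>
    prb_expand h.ne h.card z hW (vec_mem T) v.coe_nonneg h.small
  have key : (∑ T ∈ 𝒯, prb 𝒯 y T * (prb 𝒯 z W * (1 + v * resp 𝒯 z W (vec T))))
      = prb 𝒯 z W * (1 + v * resp 𝒯 z W (marg 𝒯 y)) := by
    rw [← sum_prb_resp h y z W]
    simp only [mul_add, Finset.sum_add_distrib, mul_one, ← Finset.sum_mul, sum_prb h.ne,
      Finset.mul_sum, one_mul]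
    congr 1
    exact Finset.sum_congr rfl fun T _ => by ring
  have b2 : |(∑ T ∈ 𝒯, prb 𝒯 y T * prb 𝒯 (fun i => z i + (v : ℝ) * vec T i) W)
      - prb 𝒯 z W * (1 + v * resp 𝒯 z W (marg 𝒯 y))| ≤ cst k * (v : ℝ) ^ 2 := by
    rw [← key, ← Finset.sum_sub_distrib]
    refine (Finset.abs_sum_le_sum_abs _ _).trans ?_
    calc ∑ T ∈ 𝒯, |prb 𝒯 y T * prb 𝒯 (fun i => z i + (v : ℝ) * vec T i) W
          - prb 𝒯 y T * (prb 𝒯 z W * (1 + v * resp 𝒯 z W (vec T)))|
        ≤ ∑ T ∈ 𝒯, prb 𝒯 y T * (cst k * (v : ℝ) ^ 2) := Finset.sum_le_sum fun T _ => by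
          rw [← mul_sub, abs_mul, abs_of_nonneg (prb_nonneg _ _ _)]
          exact mul_le_mul_of_nonneg_left (e2 T) (prb_nonneg _ _ _)
      _ = cst k * (v : ℝ) ^ 2 := by rw [← Finset.sum_mul, sum_prb h.ne, one_mul]
  rw [Real.norm_eq_abs]
  simp only [cst] at e1 b2 ⊢
  simp only [stepY_eq, hz] at e1 b2 ⊢
  rw [abs_le] at e1 b2 ⊢
  constructor <;> linarith

/-- One step of the first moment of a coordinate against the probability of `W`. -/
lemma step_prb_mul (h : Setup S 𝒯 k v) {W : Finset ι} (hW : W ∈ 𝒯) (y : ι → ℝ) (e : ι) :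
    |(∫ x, prb 𝒯 (stepY S 𝒯 v y x) W * stepY S 𝒯 v y x e ∂gam S v)
      - prb 𝒯 y W * (y e + v * vec W e)| ≤ 2 * (|y e| + 3) * cst k * (v : ℝ) ^ 2 := by
  obtain ⟨he1, he2, he3, he4⟩ := ext0_moments S v e
  have hlin : ∀ w : ι → ℝ, Integrable
      (fun x => y e + ext0 S x e + (v : ℝ) * w e) (gam S v) :=
    fun w => ((integrable_const _).add he1).add (integrable_const _)
  have hint : ∀ w : ι → ℝ, Integrable (fun x => prb 𝒯 (fun i => y i + ext0 S x i + (v : ℝ) * w i) W
      * (y e + ext0 S x e + (v : ℝ) * w e)) (gam S v) := fun w =>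
    (hlin w).bdd_mul ((measurable_prb 𝒯 W).comp (measurable_shiftY S y w v)).aestronglyMeasurable
      (c := 1) (Filter.Eventually.of_forall fun x => by
        rw [Real.norm_eq_abs]
        refine le_of_eq_of_le (abs_of_nonneg (prb_nonneg _ _ _)) ?_
        exact prb_le_one hW)
  have hex := exact_identity h.ne h.sub h.card h.pos hW (ψ := fun u => u e) (measurable_pi_apply e) y
    (fun T _ => hint (vec T))
  have hmean : ∫ x, (y e + ext0 S x e + (v : ℝ) * vec W e) ∂gam S v = y e + v * vec W e := by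
    rw [integral_add (f := fun x => y e + ext0 S x e) ((integrable_const _).add he1)
        (integrable_const _), integral_add (integrable_const _) he1, he3]
    simp
  rw [hmean] at hex
  have hex2 : prb 𝒯 y W * (y e + v * vec W e) = ∫ x, ∑ T ∈ 𝒯,
      prb 𝒯 y T * (prb 𝒯 (fun i => y i + ext0 S x i + (v : ℝ) * vec T i) W
        * (y e + ext0 S x e + (v : ℝ) * vec T e)) ∂gam S v := by
    rw [integral_finsetSum _ fun T _ => (hint (vec T)).const_mul _]
    simp only [integral_const_mul]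
    exact hex.symm
  simp only [stepY_eq]
  rw [hex2, ← integral_sub (hint (marg 𝒯 y))
    (integrable_finsetSum _ fun T _ => (hint (vec T)).const_mul _)]
  refine (abs_integral_le_integral_abs).trans ?_
  have hbound : ∀ x : ↥S → ℝ,
      |prb 𝒯 (stepY S 𝒯 v y x) W * stepY S 𝒯 v y x e -
        ∑ T ∈ 𝒯, prb 𝒯 y T * (prb 𝒯 (fun i => y i + ext0 S x i + (v : ℝ) * vec T i) W
          * (y e + ext0 S x e + (v : ℝ) * vec T e))|
      ≤ 2 * (|y e| + |ext0 S x e| + 2) * cst k * (v : ℝ) ^ 2 := by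
    intro x
    set z := fun i => y i + ext0 S x i with hz
    -- affine approximation of the integrand
    set A : (ι → ℝ) → ℝ := fun w =>
      prb 𝒯 z W * (z e + v * w e + z e * v * resp 𝒯 z W w) with hA
    have happ : ∀ w : ι → ℝ, (∀ i, 0 ≤ w i ∧ w i ≤ 1) →
        |prb 𝒯 (fun i => z i + (v : ℝ) * w i) W * (z e + v * w e) - A w|
          ≤ (|y e| + |ext0 S x e| + 2) * cst k * (v : ℝ) ^ 2 := by
      intro w hw
      have e1 : |prb 𝒯 (fun i => z i + (v : ℝ) * w i) W
          - prb 𝒯 z W * (1 + v * resp 𝒯 z W w)| ≤ cst k * (v : ℝ) ^ 2 :=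
        prb_expand h.ne h.card z hW hw v.coe_nonneg h.small
      have hzw : |z e + (v : ℝ) * w e| ≤ |y e| + |ext0 S x e| + 1 := by
        have hv1 : (v : ℝ) * w e ≤ 1 := mul_le_one₀ h.le_one (hw e).1 (hw e).2
        have hv0 : 0 ≤ (v : ℝ) * w e := mul_nonneg v.coe_nonneg (hw e).1
        simp only [hz]
        rw [abs_le]
        constructor <;> linarith [abs_le.1 (le_refl |y e|), abs_le.1 (le_refl |ext0 S x e|)]
      have hr : |prb 𝒯 z W * ((v : ℝ) * w e) * ((v : ℝ) * resp 𝒯 z W w)|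
          ≤ cst k * (v : ℝ) ^ 2 := by
        have h1 := resp_bound h.ne h.card z hW hw
        have h2 := le_cst k
        rw [abs_mul, abs_mul, abs_mul, abs_mul, abs_of_nonneg (prb_nonneg _ _ _),
          abs_of_nonneg (v.coe_nonneg), abs_of_nonneg (hw e).1]
        calc prb 𝒯 z W * ((v : ℝ) * w e) * ((v : ℝ) * |resp 𝒯 z W w|)
            ≤ 1 * ((v : ℝ) * 1) * ((v : ℝ) * cst k) := by
              have := prb_nonneg 𝒯 z W
              have := (hw e).1
              gcongr
              · exact prb_le_one hW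
              · exact (hw e).2
              · linarith
          _ = cst k * (v : ℝ) ^ 2 := by ring
      have heq : prb 𝒯 (fun i => z i + (v : ℝ) * w i) W * (z e + v * w e) - A w
          = (prb 𝒯 (fun i => z i + (v : ℝ) * w i) W - prb 𝒯 z W * (1 + v * resp 𝒯 z W w))
              * (z e + v * w e)
            + prb 𝒯 z W * ((v : ℝ) * w e) * ((v : ℝ) * resp 𝒯 z W w) := by
        simp only [hA]; ring
      rw [heq]
      refine (abs_add_le _ _).trans ?_
      rw [abs_mul]
      have := mul_le_mul e1 hzw (abs_nonneg _) (mul_nonneg (cst_nonneg k) (sq_nonneg _))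
      nlinarith
    have key : (∑ T ∈ 𝒯, prb 𝒯 y T * A (vec T)) = A (marg 𝒯 y) := by
      simp only [hA]
      calc ∑ T ∈ 𝒯, prb 𝒯 y T * (prb 𝒯 z W * (z e + v * vec T e + z e * v * resp 𝒯 z W (vec T)))
          = ∑ T ∈ 𝒯, (prb 𝒯 z W * z e * prb 𝒯 y T + prb 𝒯 z W * v * (prb 𝒯 y T * vec T e)
              + prb 𝒯 z W * z e * v * (prb 𝒯 y T * resp 𝒯 z W (vec T))) :=
            Finset.sum_congr rfl fun T _ => by ring
        _ = prb 𝒯 z W * z e + prb 𝒯 z W * v * marg 𝒯 y e
              + prb 𝒯 z W * z e * v * resp 𝒯 z W (marg 𝒯 y) := by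
            rw [Finset.sum_add_distrib, Finset.sum_add_distrib, ← Finset.mul_sum, ← Finset.mul_sum,
              ← Finset.mul_sum, sum_prb h.ne, sum_prb_vec, sum_prb_resp h, mul_one]
        _ = _ := by ring
    have b1 := happ (marg 𝒯 y) fun i => ⟨marg_nonneg _ _ _, marg_le_one _ _ _⟩
    have b2 : |(∑ T ∈ 𝒯, prb 𝒯 y T *
        (prb 𝒯 (fun i => z i + (v : ℝ) * vec T i) W * (z e + v * vec T e))) - A (marg 𝒯 y)|
        ≤ (|y e| + |ext0 S x e| + 2) * cst k * (v : ℝ) ^ 2 := by
      rw [← key, ← Finset.sum_sub_distrib]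
      refine (Finset.abs_sum_le_sum_abs _ _).trans ?_
      calc ∑ T ∈ 𝒯, |prb 𝒯 y T * (prb 𝒯 (fun i => z i + (v : ℝ) * vec T i) W
            * (z e + v * vec T e)) - prb 𝒯 y T * A (vec T)|
          ≤ ∑ T ∈ 𝒯, prb 𝒯 y T * ((|y e| + |ext0 S x e| + 2) * cst k * (v : ℝ) ^ 2) :=
            Finset.sum_le_sum fun T _ => by
              rw [← mul_sub, abs_mul, abs_of_nonneg (prb_nonneg _ _ _)]
              exact mul_le_mul_of_nonneg_left (happ _ (vec_mem T)) (prb_nonneg _ _ _)
        _ = (|y e| + |ext0 S x e| + 2) * cst k * (v : ℝ) ^ 2 := by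
            rw [← Finset.sum_mul, sum_prb h.ne, one_mul]
    simp only [stepY_eq, hz] at b1 b2 ⊢
    rw [abs_le] at b1 b2 ⊢
    constructor <;> linarith
  calc ∫ x, |prb 𝒯 (stepY S 𝒯 v y x) W * stepY S 𝒯 v y x e -
        ∑ T ∈ 𝒯, prb 𝒯 y T * (prb 𝒯 (fun i => y i + ext0 S x i + (v : ℝ) * vec T i) W
          * (y e + ext0 S x e + (v : ℝ) * vec T e))| ∂gam S v
      ≤ ∫ x, 2 * (|y e| + |ext0 S x e| + 2) * cst k * (v : ℝ) ^ 2 ∂gam S v :=
        integral_mono (((hint (marg 𝒯 y)).sub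
            (integrable_finsetSum _ fun T _ => (hint (vec T)).const_mul _)).abs)
          ((((((integrable_const _).add he1.abs).add (integrable_const _)).const_mul _).mul_const _).mul_const _) hbound
    _ ≤ 2 * (|y e| + 3) * cst k * (v : ℝ) ^ 2 := by
        rw [integral_mul_const, integral_mul_const, integral_const_mul,
          integral_add (f := fun x => |y e| + |ext0 S x e|) ((integrable_const _).add he1.abs)
            (integrable_const _),
          integral_add (integrable_const _) he1.abs]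
        simp only [integral_const, probReal_univ, smul_eq_mul, one_mul]
        have h1 := (integral_abs_ext0 h.pos S e).trans (Real.sqrt_le_one.2 h.le_one)
        gcongr ?_ * _ * _
        · exact cst_nonneg k
        · linarith

end Vale.Agent.P143
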