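import Vale.Agent.P143.Paths

/-!
# One noise variable per edge, produced equivariantly from one label per vertex
-/

namespace Vale.Agent.P143

open MeasureTheory ProbabilityTheory Filter Topology Finset Real
open scoped Classical NNReal ENNReal unitInterval

/-- The index set of the randomness of one vertex. -/
abbrev Idx : Type := Option ℕ × (ℕ × ℕ)

/-- A measurable map sending a uniform label to independent Gaussian variables. -/
noncomputable def decode : I → Idx → ℝ :=
  Classical.choose (Measure.exists_measurable_map_eq (stdG Idx))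

lemma measurable_decode : Measurable decode :=
  (Classical.choose_spec (Measure.exists_measurable_map_eq (stdG Idx))).1

lemma map_decode : (volume : Measure I).map decode = stdG Idx :=
  (Classical.choose_spec (Measure.exists_measurable_map_eq (stdG Idx))).2

variable {V : Type}

/-- All the Gaussian variables. -/
noncomputable def raw (U : V → I) (p : V × Idx) : ℝ := decode (U p.1) p.2

lemma measurable_raw : Measurable (raw (V := V)) :=
  measurable_pi_lambda _ fun p =>
    (measurable_pi_apply p.2).comp (measurable_decode.comp (measurable_pi_apply p.1))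

lemma measurable_raw_apply (p : V × Idx) : Measurable fun U : V → I => raw U p :=
  (measurable_pi_apply p).comp measurable_raw

lemma law_raw :
    (Measure.infinitePi fun _ : V => (volume : Measure I)).map raw = stdG (V × Idx) := by
  have hfun : (raw (V := V)) = ⇑(MeasurableEquiv.curry V Idx ℝ).symm ∘
      (fun (U : V → I) v => decode (U v)) := rfl
  have hm : Measurable fun (U : V → I) v => decode (U v) :=
    measurable_pi_lambda _ fun v => measurable_decode.comp (measurable_pi_apply v)
  rw [hfun, ← Measure.map_map (MeasurableEquiv.measurable _) hm,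
    Measure.infinitePi_map_pi (f := fun _ => decode) _ (fun _ => measurable_decode)]
  simp only [map_decode]
  exact Measure.infinitePi_map_curry_symm (fun _ _ => gaussianReal 0 1)

/-- The rank of `b` among the neighbours of `a`. -/
noncomputable def rk (G : SimpleGraph V) (R : V → ℝ) (a b : V) : ℕ :=
  {c | G.Adj a c ∧ R c < R b}.ncard

/-- The noise of an edge, from keys `R` and slots `W`. -/
noncomputable def noiseAux (G : SimpleGraph V) (R : V → ℝ) (W : V × ℕ × (ℕ × ℕ) → ℝ) :
    Sym2 V → ℕ × ℕ → ℝ :=
  Sym2.lift ⟨fun a b l => (W (a, rk G R a b, l) + W (b, rk G R b a, l)) / Real.sqrt 2,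
    fun a b => funext fun l => by dsimp only; rw [add_comm]⟩

/-- The noise of an edge, from the labels. -/
noncomputable def edgeNoise (G : SimpleGraph V) (U : V → I) : Sym2 V → ℕ × ℕ → ℝ :=
  noiseAux G (fun v => raw U (v, none, 0, 0)) (fun q => raw U (q.1, some q.2.1, q.2.2))

lemma rk_injOn {G : SimpleGraph V} {R : V → ℝ} (hR : Function.Injective R) {a b b' : V}
    (hfin : (G.neighborSet a).Finite) (hb : G.Adj a b) (hb' : G.Adj a b')
    (h : rk G R a b = rk G R a b') : b = b' := by
  have key : ∀ x y, G.Adj a x → R x < R y → rk G R a x < rk G R a y := by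
    intro x y hx hxy
    refine Set.ncard_lt_ncard ⟨fun c hc => ⟨hc.1, hc.2.trans hxy⟩, fun hsub => ?_⟩
      (hfin.subset fun c hc => hc.1)
    exact lt_irrefl _ (hsub ⟨hx, hxy⟩).2
  rcases lt_trichotomy (R b) (R b') with hlt | heq | hgt
  · exact absurd h (key b b' hb hlt).ne
  · exact hR heq
  · exact absurd h (key b' b hb' hgt).ne'

lemma infinitePi_sum {A B X : Type} [MeasurableSpace X] (μ : Measure X) [IsProbabilityMeasure μ] :
    ((Measure.infinitePi fun _ : A => μ).prod (Measure.infinitePi fun _ : B => μ)).map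
        (fun p => Sum.elim p.1 p.2)
      = Measure.infinitePi fun _ : A ⊕ B => μ := by
  have hm : Measurable fun p : (A → X) × (B → X) => Sum.elim p.1 p.2 := by
    refine measurable_pi_lambda _ fun q => ?_
    rcases q with a | b
    · exact (measurable_pi_apply a).comp measurable_fst
    · exact (measurable_pi_apply b).comp measurable_snd
  refine Measure.eq_infinitePi _ fun s t ht => ?_
  rw [Measure.map_apply hm (MeasurableSet.pi s.countable_toSet fun i _ => ht i)]
  have hpre : (fun p : (A → X) × (B → X) => Sum.elim p.1 p.2) ⁻¹' Set.pi s t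
      = (Set.pi ↑s.toLeft fun a => t (Sum.inl a)) ×ˢ (Set.pi ↑s.toRight fun b => t (Sum.inr b)) := by
    ext ⟨x, y⟩
    simp [Set.mem_pi]
  rw [hpre, Measure.prod_prod, Measure.infinitePi_pi _ (fun i _ => ht _),
    Measure.infinitePi_pi _ (fun i _ => ht _)]
  conv_rhs => rw [← Finset.toLeft_disjSum_toRight (u := s), Finset.prod_disjSum]

lemma law_op : (stdG Bool).map (fun y => (y true + y false) / Real.sqrt 2) = gaussianReal 0 1 := by
  have : (fun y : Bool → ℝ => (y true + y false) / Real.sqrt 2) = (fun z => z true) ∘ mix := by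
    funext y; simp [mix]
  rw [this, ← Measure.map_map (measurable_pi_apply true) measurable_mix, stdG_mix]
  exact Measure.infinitePi_map_eval _ true

lemma stdG_eq_null {V : Type} {a b : V} (h : a ≠ b) :
    stdG V {R | R a = R b} = 0 := by
  set g : Bool → V := fun i => if i = true then a else b with hgdef
  have hg : Function.Injective g := by
    intro x y; cases x <;> cases y <;> simp [hgdef, h, Ne.symm h]
  have hms : MeasurableSet {y : Bool → ℝ | y true = y false} :=
    measurableSet_eq_fun (measurable_pi_apply _) (measurable_pi_apply _)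
  have hgm : Measurable fun x : V → ℝ => x ∘ g :=
    measurable_pi_lambda _ fun i => measurable_pi_apply _
  have h1 : stdG V {R | R a = R b} = stdG Bool {y | y true = y false} := by
    rw [stdG, stdG, ← infinitePi_comp_injective (gaussianReal 0 1) hg,
      Measure.map_apply hgm hms]
    rfl
  have hm : Measurable fun (p : ℝ × ℝ) (i : Bool) => if i = true then p.1 else p.2 := by
    refine measurable_pi_lambda _ fun i => ?_
    cases i <;> simp <;> fun_prop
  rw [h1, stdG, ← prod_to_bool, Measure.map_apply hm hms,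
    Measure.prod_apply (hm hms)]
  refine (lintegral_congr fun x => ?_).trans lintegral_zero
  have : Prod.mk x ⁻¹' ((fun (p : ℝ × ℝ) (i : Bool) => if i = true then p.1 else p.2) ⁻¹'
      {y : Bool → ℝ | y true = y false}) = {x} := by
    ext z; simp [eq_comm]
  rw [this]
  have := nullSingletonClass_gaussianReal (μ := (0:ℝ)) (v := 1) one_ne_zero
  exact measure_singleton x

variable [Countable V]

lemma measurable_rk_param {Ω : Type} [MeasurableSpace Ω] {G : Ω → SimpleGraph V} {R : Ω → V → ℝ}
    (hG : ∀ a b, MeasurableSet {ω | (G ω).Adj a b}) (hR : Measurable R) (a b : V) :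
    Measurable fun ω => rk (G ω) (R ω) a b := by
  refine measurable_to_countable' fun n => ?_
  set P : Ω → V → Prop := fun ω c => (G ω).Adj a c ∧ R ω c < R ω b with hP
  have hPm : ∀ c, MeasurableSet {ω | P ω c} := fun c =>
    (hG a c).inter (measurableSet_lt ((measurable_pi_apply c).comp hR)
      ((measurable_pi_apply b).comp hR))
  have hfin : ∀ s : Finset V, MeasurableSet {ω | {c | P ω c} = (s : Set V)} := by
    intro s
    have : {ω | {c | P ω c} = (s : Set V)} = ⋂ c, {ω | P ω c ↔ c ∈ s} := by
      ext ω; simp [Set.ext_iff]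
    rw [this]
    refine MeasurableSet.iInter fun c => ?_
    by_cases hc : c ∈ s
    · rw [show {ω | P ω c ↔ c ∈ s} = {ω | P ω c} by ext ω; simp [hc]]
      exact hPm c
    · rw [show {ω | P ω c ↔ c ∈ s} = {ω | P ω c}ᶜ by ext ω; simp [hc]]
      exact (hPm c).compl
  have hpos : ∀ m, MeasurableSet {ω | {c | P ω c}.ncard = m + 1} := by
    intro m
    have : {ω | {c | P ω c}.ncard = m + 1}
        = ⋃ s : Finset V, ⋃ (_ : s.card = m + 1), {ω | {c | P ω c} = (s : Set V)} := by
      ext ω
      simp only [Set.mem_ofPred_eq, Set.mem_iUnion, exists_prop]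
      constructor
      · intro h
        have hf : {c | P ω c}.Finite := Set.finite_of_ncard_ne_zero (by rw [h]; omega)
        refine ⟨hf.toFinset, ?_, by simp⟩
        rw [← Set.ncard_eq_toFinset_card _ hf]; exact h
      · rintro ⟨s, hs, h⟩
        rw [h, Set.ncard_coe_finset, hs]
    rw [this]
    exact MeasurableSet.iUnion fun s => MeasurableSet.iUnion fun _ => hfin s
  rcases n with _ | m
  · have : (fun ω => rk (G ω) (R ω) a b) ⁻¹' {0}
        = (⋃ m, {ω | {c | P ω c}.ncard = m + 1})ᶜ := by
      ext ω
      simp only [Set.mem_preimage, Set.mem_singleton_iff, Set.mem_compl_iff, Set.mem_iUnion,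
        Set.mem_ofPred_eq, rk, hP, not_exists]
      constructor
      · intro h m; omega
      · intro h
        by_contra h0
        exact h ({c | (G ω).Adj a c ∧ R ω c < R ω b}.ncard - 1) (by omega)
    rw [this]
    exact (MeasurableSet.iUnion hpos).compl
  · exact hpos m

lemma measurable_noiseAux_param {Ω : Type} [MeasurableSpace Ω] {G : Ω → SimpleGraph V}
    {R : Ω → V → ℝ} {W : Ω → V × ℕ × (ℕ × ℕ) → ℝ}
    (hG : ∀ a b, MeasurableSet {ω | (G ω).Adj a b}) (hR : Measurable R) (hW : Measurable W) :
    Measurable fun ω => noiseAux (G ω) (R ω) (W ω) := by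
  refine measurable_pi_lambda _ fun e => ?_
  induction e using Sym2.ind with
  | h a b =>
    refine measurable_pi_lambda _ fun l => ?_
    simp only [noiseAux, Sym2.lift_mk]
    have hsel : ∀ x y : V, Measurable fun ω => W ω (x, rk (G ω) (R ω) x y, l) := fun x y => by
      have hg : Measurable fun p : (V × ℕ × (ℕ × ℕ) → ℝ) × ℕ => p.1 (x, p.2, l) :=
        measurable_from_prod_countable_left fun n => measurable_pi_apply (x, n, l)
      exact hg.comp (hW.prodMk (measurable_rk_param hG hR x y))
    exact ((hsel a b).add (hsel b a)).div_const _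

lemma measurable_edgeNoise_param {Ω : Type} [MeasurableSpace Ω] {G : Ω → SimpleGraph V}
    {U : Ω → V → I} (hG : ∀ a b, MeasurableSet {ω | (G ω).Adj a b}) (hU : Measurable U) :
    Measurable fun ω => edgeNoise (G ω) (U ω) :=
  measurable_noiseAux_param hG
    (measurable_pi_lambda _ fun v => (measurable_raw_apply (v, none, 0, 0)).comp hU)
    (measurable_pi_lambda _ fun q =>
      (measurable_raw_apply (q.1, some q.2.1, q.2.2)).comp hU)

lemma measurable_edgeNoise (G : SimpleGraph V) : Measurable (edgeNoise G) :=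
  measurable_edgeNoise_param (G := fun _ => G)
    (fun a b => MeasurableSet.const _) measurable_id

omit [Countable V] in
lemma law_noiseAux_fixed {G : SimpleGraph V} (hlf : ∀ v, (G.neighborSet v).Finite)
    {S : Finset (Sym2 V)} (hS : ↑S ⊆ G.edgeSet) {R : V → ℝ} (hR : Function.Injective R) :
    (stdG (V × ℕ × (ℕ × ℕ))).map (fun W (e : ↥S) => noiseAux G R W e.1)
      = Measure.infinitePi fun _ : ↥S => stdG (ℕ × ℕ) := by
  set fst : ↥S → V := fun e => (Quot.out e.1).1
  set snd : ↥S → V := fun e => (Quot.out e.1).2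
  have hout : ∀ e : ↥S, s(fst e, snd e) = e.1 := fun e => Quot.out_eq e.1
  have hadj : ∀ e : ↥S, G.Adj (fst e) (snd e) := fun e => by
    rw [← SimpleGraph.mem_edgeSet, hout e]; exact hS e.2
  set g : (↥S × (ℕ × ℕ)) × Bool → V × ℕ × (ℕ × ℕ) := fun p =>
    if p.2 = true then (fst p.1.1, rk G R (fst p.1.1) (snd p.1.1), p.1.2)
    else (snd p.1.1, rk G R (snd p.1.1) (fst p.1.1), p.1.2) with hg
  have hginj : Function.Injective g := by
    rintro ⟨⟨e, l⟩, b⟩ ⟨⟨e', l'⟩, b'⟩ heq
    have key : ∀ x y x' y' : V, G.Adj x y → G.Adj x' y' →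
        ((x, rk G R x y, l) : V × ℕ × (ℕ × ℕ)) = (x', rk G R x' y', l') →
        s(x, y) = s(x', y') ∧ x = x' ∧ y = y' ∧ l = l' := by
      intro x y x' y' hxy hxy' h
      simp only [Prod.mk.injEq] at h
      obtain ⟨rfl, h2, h3⟩ := h
      have := rk_injOn hR (hlf x) hxy hxy' h2
      subst this
      exact ⟨rfl, rfl, rfl, h3⟩
    cases b <;> cases b' <;> simp only [hg, Bool.false_eq_true, if_false, if_true] at heq
    · obtain ⟨he, -, -, rfl⟩ := key _ _ _ _ (hadj e).symm (hadj e').symm heq
      rw [Sym2.eq_swap, hout, Sym2.eq_swap, hout] at he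
      obtain rfl := Subtype.ext he
      rfl
    · obtain ⟨he, h1, h2, -⟩ := key _ _ _ _ (hadj e).symm (hadj e') heq
      rw [Sym2.eq_swap, hout, hout] at he
      obtain rfl := Subtype.ext he
      exact absurd h2 (hadj e).ne
    · obtain ⟨he, h1, h2, -⟩ := key _ _ _ _ (hadj e) (hadj e').symm heq
      rw [hout, Sym2.eq_swap, hout] at he
      obtain rfl := Subtype.ext he
      exact absurd h1 (hadj e).ne
    · obtain ⟨he, -, -, rfl⟩ := key _ _ _ _ (hadj e) (hadj e') heq
      rw [hout, hout] at he
      obtain rfl := Subtype.ext he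
      rfl
  have hfun : (fun W (e : ↥S) => noiseAux G R W e.1)
      = ⇑(MeasurableEquiv.curry ↥S (ℕ × ℕ) ℝ)
        ∘ (fun (x : ↥S × (ℕ × ℕ) → Bool → ℝ) p => (x p true + x p false) / Real.sqrt 2)
        ∘ ⇑(MeasurableEquiv.curry (↥S × (ℕ × ℕ)) Bool ℝ) ∘ fun W => W ∘ g := by
    funext W e l
    conv_lhs => rw [← hout e]
    simp only [noiseAux, Sym2.lift_mk]
    rfl
  have hm0 : Measurable fun W : V × ℕ × (ℕ × ℕ) → ℝ => W ∘ g :=
    measurable_pi_lambda _ fun i => measurable_pi_apply _
  have hm1 : Measurable ⇑(MeasurableEquiv.curry (↥S × (ℕ × ℕ)) Bool ℝ) :=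
    MeasurableEquiv.measurable _
  have hop : Measurable fun y : Bool → ℝ => (y true + y false) / Real.sqrt 2 := by fun_prop
  have hm2 : Measurable fun (x : ↥S × (ℕ × ℕ) → Bool → ℝ) p =>
      (x p true + x p false) / Real.sqrt 2 :=
    measurable_pi_lambda _ fun p => hop.comp (measurable_pi_apply p)
  rw [hfun, ← Measure.map_map (MeasurableEquiv.measurable _) (hm2.comp (hm1.comp hm0)),
    ← Measure.map_map hm2 (hm1.comp hm0), ← Measure.map_map hm1 hm0, stdG,
    infinitePi_comp_injective _ hginj, Measure.infinitePi_map_curry (fun _ _ => gaussianReal 0 1),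
    Measure.infinitePi_map_pi (f := fun _ (y : Bool → ℝ) => (y true + y false) / Real.sqrt 2) _
      (fun _ => hop)]
  have : (fun _ : ↥S × (ℕ × ℕ) => (Measure.infinitePi fun _ : Bool => gaussianReal 0 1).map
      fun y => (y true + y false) / Real.sqrt 2) = fun _ => gaussianReal 0 1 :=
    funext fun _ => law_op
  simp only [this]
  exact Measure.infinitePi_map_curry (fun _ _ => gaussianReal 0 1)

/-- On finitely many edges the noises are independent with the standard law. -/
lemma law_edgeNoise {G : SimpleGraph V} (hlf : ∀ v, (G.neighborSet v).Finite)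
    {S : Finset (Sym2 V)} (hS : ↑S ⊆ G.edgeSet) :
    (Measure.infinitePi fun _ : V => (volume : Measure I)).map (fun U (e : ↥S) => edgeNoise G U e.1)
      = Measure.infinitePi fun _ : ↥S => stdG (ℕ × ℕ) := by
  set f : V ⊕ (V × ℕ × (ℕ × ℕ)) → V × Idx :=
    Sum.elim (fun v => (v, none, 0, 0)) (fun q => (q.1, some q.2.1, q.2.2)) with hf
  have hfinj : Function.Injective f := by
    rintro (v | ⟨v, i, l⟩) (v' | ⟨v', i', l'⟩) h <;> simp_all [f]
  set Φ : (V → ℝ) × (V × ℕ × (ℕ × ℕ) → ℝ) → ↥S → ℕ × ℕ → ℝ :=
    fun p e => noiseAux G p.1 p.2 e.1 with hΦdef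
  have hΦ : Measurable Φ := measurable_pi_lambda _ fun e => (measurable_pi_apply e.1).comp
    (measurable_noiseAux_param (G := fun _ => G) (fun a b => MeasurableSet.const _)
      measurable_fst measurable_snd)
  set split : (V ⊕ (V × ℕ × (ℕ × ℕ)) → ℝ) → (V → ℝ) × (V × ℕ × (ℕ × ℕ) → ℝ) :=
    fun x => (x ∘ Sum.inl, x ∘ Sum.inr) with hsp
  have hspm : Measurable split :=
    (measurable_pi_lambda _ fun i => measurable_pi_apply _).prodMk
      (measurable_pi_lambda _ fun i => measurable_pi_apply _)
  have hsum : Measurable fun p : (V → ℝ) × (V × ℕ × (ℕ × ℕ) → ℝ) => Sum.elim p.1 p.2 := by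
    refine measurable_pi_lambda _ fun q => ?_
    rcases q with a | b
    · exact (measurable_pi_apply a).comp measurable_fst
    · exact (measurable_pi_apply b).comp measurable_snd
  have hsl : (stdG (V ⊕ (V × ℕ × (ℕ × ℕ)))).map split = (stdG V).prod (stdG (V × ℕ × (ℕ × ℕ))) := by
    rw [stdG, stdG, stdG, ← infinitePi_sum, Measure.map_map hspm hsum]
    exact Measure.map_id
  have hcf : Measurable fun x : V × Idx → ℝ => x ∘ f :=
    measurable_pi_lambda _ fun i => measurable_pi_apply _
  have hfun : (fun U (e : ↥S) => edgeNoise G U e.1) = Φ ∘ split ∘ (fun x => x ∘ f) ∘ raw := rfl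
  rw [hfun, ← Measure.map_map hΦ (hspm.comp (hcf.comp measurable_raw)),
    ← Measure.map_map hspm (hcf.comp measurable_raw), ← Measure.map_map hcf measurable_raw,
    law_raw, show (stdG (V × Idx)).map (fun x => x ∘ f) = stdG (V ⊕ (V × ℕ × (ℕ × ℕ))) from
      infinitePi_comp_injective _ hfinj, hsl]
  refine Measure.ext fun A hA => ?_
  rw [Measure.map_apply hΦ hA, Measure.prod_apply (hΦ hA)]
  have hae : ∀ᵐ R ∂stdG V, Function.Injective R := by
    have : ∀ᵐ R ∂stdG V, ∀ a b : V, a ≠ b → R a ≠ R b := by
      rw [ae_all_iff]; intro a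
      rw [ae_all_iff]; intro b
      by_cases hab : a = b
      · exact Eventually.of_forall fun R h => absurd hab h
      · rw [ae_iff]
        simpa [hab] using stdG_eq_null hab
    filter_upwards [this] with R hR a b h
    by_contra hne
    exact hR a b hne h
  have hconst : ∀ᵐ R ∂stdG V, stdG (V × ℕ × (ℕ × ℕ)) (Prod.mk R ⁻¹' (Φ ⁻¹' A))
      = (Measure.infinitePi fun _ : ↥S => stdG (ℕ × ℕ)) A := by
    filter_upwards [hae] with R hR
    rw [← law_noiseAux_fixed hlf hS hR]
    exact (Measure.map_apply (hΦ.comp measurable_prodMk_left) hA).symm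
  rw [lintegral_congr_ae hconst, lintegral_const, measure_univ, mul_one]

/-- The driving path of an edge. -/
noncomputable def edgePath (G : SimpleGraph V) (U : V → I) (t : ℝ) (e : Sym2 V) : ℝ :=
  path (edgeNoise G U e) t

omit [Countable V] in
lemma edgePath_zero (G : SimpleGraph V) (U : V → I) (e : Sym2 V) : edgePath G U 0 e = 0 := by
  rw [edgePath, path_dyadic (edgeNoise G U e) 0 0 0 (by simp)]
  simp

lemma measurable_edgePath_param {Ω : Type} [MeasurableSpace Ω] {G : Ω → SimpleGraph V}
    {U : Ω → V → I} (hG : ∀ a b, MeasurableSet {ω | (G ω).Adj a b}) (hU : Measurable U) :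
    Measurable fun p : Ω × ℝ => edgePath (G p.1) (U p.1) p.2 :=
  measurable_pi_lambda _ fun e => by
    have h1 : Measurable fun ω => edgeNoise (G ω) (U ω) e :=
      (measurable_pi_apply e).comp (measurable_edgeNoise_param hG hU)
    have h2 : Measurable fun p : Ω × ℝ => (edgeNoise (G p.1) (U p.1) e, p.2) :=
      (h1.comp measurable_fst).prodMk measurable_snd
    show Measurable fun p : Ω × ℝ => path (edgeNoise (G p.1) (U p.1) e) p.2
    have h3 := measurable_path.comp' h2
    simpa only using h3

end Vale.Agent.P143
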