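import Mathlib

/-!
# The integral equation `D t = ∫₀ᵗ M (B s + D s) ds` for a sup-norm Lipschitz field
-/

namespace Vale.Agent.P143

open MeasureTheory Filter Topology Set

variable {I : Type}

/-- A bounded field which is `2`-Lipschitz for the supremum norm. -/
structure FieldOk (M : (I → ℝ) → I → ℝ) : Prop where
  meas : Measurable M
  nonneg : ∀ x e, 0 ≤ M x e
  le_one : ∀ x e, M x e ≤ 1
  lip : ∀ (x y : I → ℝ) (δ : ℝ), 0 ≤ δ → (∀ f, |x f - y f| ≤ δ) → ∀ e, |M x e - M y e| ≤ 2 * δ

/-- Picard iterates. -/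
noncomputable def pic (M : (I → ℝ) → I → ℝ) (B : ℝ → I → ℝ) : ℕ → ℝ → I → ℝ
  | 0 => fun _ _ => 0
  | k + 1 => fun t e => ∫ s in Ioc 0 t, M (fun f => B s f + pic M B k s f) e

/-- The limit of the Picard iterates. -/
noncomputable def drift (M : (I → ℝ) → I → ℝ) (B : ℝ → I → ℝ) (t : ℝ) (e : I) : ℝ :=
  limsup (fun k => pic M B k t e) atTop

/-- The solution. -/
noncomputable def sol (M : (I → ℝ) → I → ℝ) (B : ℝ → I → ℝ) (t : ℝ) (e : I) : ℝ :=
  B t e + drift M B t e

lemma pic_zero (M : (I → ℝ) → I → ℝ) (B : ℝ → I → ℝ) (t : ℝ) (e : I) : pic M B 0 t e = 0 := rfl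

lemma pic_succ (M : (I → ℝ) → I → ℝ) (B : ℝ → I → ℝ) (k : ℕ) (t : ℝ) (e : I) :
    pic M B (k + 1) t e = ∫ s in Ioc 0 t, M (fun f => B s f + pic M B k s f) e := rfl

section Param

variable {Ω : Type} [MeasurableSpace Ω]

lemma measurable_pic_param {M : Ω → (I → ℝ) → I → ℝ} {B : Ω → ℝ → I → ℝ}
    (hM : Measurable fun p : Ω × (I → ℝ) => M p.1 p.2)
    (hB : Measurable fun p : Ω × ℝ => B p.1 p.2) :
    ∀ k, Measurable fun p : Ω × ℝ => pic (M p.1) (B p.1) k p.2 := by
  intro k
  induction k with
  | zero => simp only [pic]; exact measurable_const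
  | succ k ih =>
    refine measurable_pi_lambda _ fun e => ?_
    have hg : Measurable fun p : Ω × ℝ =>
        M p.1 (fun f => B p.1 p.2 f + pic (M p.1) (B p.1) k p.2 f) e := by
      have h1 : Measurable fun p : Ω × ℝ =>
          ((p.1, fun f => B p.1 p.2 f + pic (M p.1) (B p.1) k p.2 f) : Ω × (I → ℝ)) :=
        measurable_fst.prodMk (measurable_pi_lambda _ fun f =>
          ((measurable_pi_apply f).comp hB).add ((measurable_pi_apply f).comp ih))
      exact (measurable_pi_apply e).comp (hM.comp h1)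
    have hset : MeasurableSet {q : (Ω × ℝ) × ℝ | 0 < q.2 ∧ q.2 ≤ q.1.2} :=
      (measurableSet_lt measurable_const measurable_snd).inter
        (measurableSet_le measurable_snd (measurable_snd.comp measurable_fst))
    have hG : Measurable fun q : (Ω × ℝ) × ℝ =>
        M q.1.1 (fun f => B q.1.1 q.2 f + pic (M q.1.1) (B q.1.1) k q.2 f) e :=
      hg.comp ((measurable_fst.comp measurable_fst).prodMk measurable_snd)
    have hI := ((hG.indicator hset).stronglyMeasurable.integral_prod_right'
      (ν := (volume : Measure ℝ))).measurable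
    convert hI using 1
    funext p
    rw [pic_succ, ← integral_indicator measurableSet_Ioc]
    refine integral_congr_ae (Filter.Eventually.of_forall fun s => ?_)
    simp only [Set.indicator_apply, Set.mem_setOf_eq, Set.mem_Ioc]

lemma measurable_sol_param {M : Ω → (I → ℝ) → I → ℝ} {B : Ω → ℝ → I → ℝ}
    (hM : Measurable fun p : Ω × (I → ℝ) => M p.1 p.2)
    (hB : Measurable fun p : Ω × ℝ => B p.1 p.2) :
    Measurable fun p : Ω × ℝ => sol (M p.1) (B p.1) p.2 :=
  measurable_pi_lambda _ fun e => ((measurable_pi_apply e).comp hB).add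
    (Measurable.limsup fun k => (measurable_pi_apply e).comp (measurable_pic_param hM hB k))

end Param

variable {M : (I → ℝ) → I → ℝ} {B : ℝ → I → ℝ}

lemma measurable_pic (hM : FieldOk M) (hB : Measurable B) (k : ℕ) : Measurable (pic M B k) :=
  (measurable_pic_param (Ω := Unit) (M := fun _ => M) (B := fun _ => B)
    (hM.meas.comp measurable_snd) (hB.comp measurable_snd) k).comp
    (measurable_prodMk_left (x := ()))

lemma integrableOn_field (hM : FieldOk M) {x : ℝ → I → ℝ} (hx : Measurable x) (a t : ℝ) (e : I) :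
    IntegrableOn (fun s => M (x s) e) (Ioc a t) := by
  refine IntegrableOn.of_bound measure_Ioc_lt_top ?_ 1 (Eventually.of_forall fun s => ?_)
  · exact ((measurable_pi_apply e).comp (hM.meas.comp hx)).aestronglyMeasurable
  · rw [Real.norm_eq_abs, abs_of_nonneg (hM.nonneg _ _)]; exact hM.le_one _ _

lemma measurable_arg (hM : FieldOk M) (hB : Measurable B) (k : ℕ) :
    Measurable fun s => fun f => B s f + pic M B k s f :=
  hB.add (measurable_pic hM hB k)

lemma pic_nonneg (hM : FieldOk M) (k : ℕ) (t : ℝ) (e : I) : 0 ≤ pic M B k t e := by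
  cases k with
  | zero => simp [pic_zero]
  | succ k => rw [pic_succ]; exact setIntegral_nonneg measurableSet_Ioc fun s _ => hM.nonneg _ _

lemma pic_le (hM : FieldOk M) (k : ℕ) {t : ℝ} (ht : 0 ≤ t) (e : I) : pic M B k t e ≤ t := by
  cases k with
  | zero => simpa [pic_zero] using ht
  | succ k =>
    rw [pic_succ]
    refine le_trans (le_abs_self _) ?_
    have := norm_setIntegral_le_of_norm_le_const
      (f := fun s => M (fun f => B s f + pic M B k s f) e) (C := 1)
      (measure_Ioc_lt_top (a := (0:ℝ)) (b := t) (μ := volume))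
      (fun s _ => by rw [Real.norm_eq_abs, abs_of_nonneg (hM.nonneg _ _)]; exact hM.le_one _ _)
    simpa [Real.norm_eq_abs, ht] using this

lemma pic_step (hM : FieldOk M) (hB : Measurable B) (k : ℕ) :
    ∀ t : ℝ, 0 ≤ t → ∀ e,
      |pic M B (k + 1) t e - pic M B k t e| ≤ (1 / 2) ^ k * Real.exp (4 * t) := by
  induction k with
  | zero =>
    intro t ht e
    rw [pic_zero, sub_zero, pow_zero, one_mul, abs_of_nonneg (pic_nonneg hM _ _ _)]
    calc pic M B 1 t e ≤ t := pic_le hM 1 ht e
      _ ≤ 4 * t + 1 := by linarith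
      _ ≤ Real.exp (4 * t) := Real.add_one_le_exp _
  | succ k ih =>
    intro t ht e
    rw [pic_succ M B (k + 1), pic_succ M B k,
      ← integral_sub (integrableOn_field hM (measurable_arg hM hB (k + 1)) 0 t e)
        (integrableOn_field hM (measurable_arg hM hB k) 0 t e)]
    have hint : IntegrableOn (fun s => 2 * ((1 / 2 : ℝ) ^ k * Real.exp (4 * s))) (Ioc 0 t) :=
      (Continuous.integrableOn_Ioc (by fun_prop))
    calc |∫ s in Ioc 0 t, (M (fun f => B s f + pic M B (k + 1) s f) e
          - M (fun f => B s f + pic M B k s f) e)|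
        ≤ ∫ s in Ioc 0 t, |M (fun f => B s f + pic M B (k + 1) s f) e
          - M (fun f => B s f + pic M B k s f) e| := abs_integral_le_integral_abs
      _ ≤ ∫ s in Ioc 0 t, 2 * ((1 / 2) ^ k * Real.exp (4 * s)) := by
          refine setIntegral_mono_on ?_ hint measurableSet_Ioc fun s hs => ?_
          · exact ((integrableOn_field hM (measurable_arg hM hB (k + 1)) 0 t e).sub
              (integrableOn_field hM (measurable_arg hM hB k) 0 t e)).abs
          · refine hM.lip _ _ _ (by positivity) (fun f => ?_) e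
            simpa using ih s hs.1.le f
      _ = 2 * (1 / 2) ^ k * ((Real.exp (4 * t) - 1) / 4) := by
          rw [← intervalIntegral.integral_of_le ht]
          simp only [intervalIntegral.integral_const_mul]
          rw [intervalIntegral.integral_comp_mul_left (fun u => Real.exp u) (by norm_num : (4:ℝ) ≠ 0),
            integral_exp]
          simp
          ring
      _ ≤ (1 / 2) ^ (k + 1) * Real.exp (4 * t) := by
          rw [pow_succ]
          have := Real.exp_pos (4 * t)
          have : (0:ℝ) < (1/2) ^ k := by positivity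
          nlinarith

lemma cauchy_pic (hM : FieldOk M) (hB : Measurable B) {t : ℝ} (ht : 0 ≤ t) (e : I) :
    Tendsto (fun k => pic M B k t e) atTop (𝓝 (drift M B t e)) ∧
      ∀ k, |pic M B k t e - drift M B t e| ≤ 2 * (1 / 2) ^ k * Real.exp (4 * t) := by
  have hd : ∀ k, dist (pic M B k t e) (pic M B (k + 1) t e) ≤ Real.exp (4 * t) * (1 / 2) ^ k := by
    intro k
    rw [Real.dist_eq, abs_sub_comm, mul_comm]
    exact pic_step hM hB k t ht e
  obtain ⟨l, hl⟩ := cauchySeq_tendsto_of_complete
    (cauchySeq_of_le_geometric _ _ (by norm_num) hd)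
  have hlim : drift M B t e = l := hl.limsup_eq
  refine ⟨hlim ▸ hl, fun k => ?_⟩
  have := dist_le_of_le_geometric_of_tendsto _ _ (by norm_num) hd hl k
  rw [Real.dist_eq, ← hlim] at this
  refine this.trans_eq ?_
  ring

lemma drift_nonneg (hM : FieldOk M) (hB : Measurable B) {t : ℝ} (ht : 0 ≤ t) (e : I) :
    0 ≤ drift M B t e :=
  ge_of_tendsto' (cauchy_pic hM hB ht e).1 fun k => pic_nonneg hM k t e

lemma drift_le (hM : FieldOk M) (hB : Measurable B) {t : ℝ} (ht : 0 ≤ t) (e : I) :
    drift M B t e ≤ t :=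
  le_of_tendsto' (cauchy_pic hM hB ht e).1 fun k => pic_le hM k ht e

lemma measurable_sol (hM : FieldOk M) (hB : Measurable B) : Measurable (sol M B) :=
  (measurable_sol_param (Ω := Unit) (M := fun _ => M) (B := fun _ => B)
    (hM.meas.comp measurable_snd) (hB.comp measurable_snd)).comp
    (measurable_prodMk_left (x := ()))

/-- The integral equation. -/
lemma drift_eq (hM : FieldOk M) (hB : Measurable B) {t : ℝ} (ht : 0 ≤ t) (e : I) :
    drift M B t e = ∫ s in Ioc 0 t, M (sol M B s) e := by
  refine tendsto_nhds_unique ((cauchy_pic hM hB ht e).1.comp (tendsto_add_atTop_nat 1)) ?_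
  have hptw : ∀ s ∈ Ioc (0:ℝ) t, ∀ k,
      |M (fun f => B s f + pic M B k s f) e - M (sol M B s) e|
        ≤ 2 * (2 * (1 / 2) ^ k * Real.exp (4 * t)) := by
    intro s hs k
    refine hM.lip _ _ _ (by positivity) (fun f => ?_) e
    simp only [sol, add_sub_add_left_eq_sub]
    refine ((cauchy_pic hM hB hs.1.le f).2 k).trans ?_
    gcongr
    exact hs.2
  have h0 : Tendsto (fun k : ℕ => 2 * (2 * (1 / 2 : ℝ) ^ k * Real.exp (4 * t))) atTop (𝓝 0) := by
    simpa using (((tendsto_pow_atTop_nhds_zero_of_lt_one (by norm_num : (0:ℝ) ≤ 1/2)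
      (by norm_num)).const_mul 2).mul_const (Real.exp (4 * t))).const_mul 2
  refine tendsto_integral_of_dominated_convergence (fun _ => (1:ℝ))
    (fun k => (integrableOn_field hM (measurable_arg hM hB k) 0 t e).1)
    (integrableOn_const (measure_Ioc_lt_top.ne))
    (fun k => Eventually.of_forall fun s => by
      rw [Real.norm_eq_abs, abs_of_nonneg (hM.nonneg _ _)]; exact hM.le_one _ _) ?_
  filter_upwards [ae_restrict_mem measurableSet_Ioc] with s hs
  rw [tendsto_iff_dist_tendsto_zero]
  exact squeeze_zero (fun k => dist_nonneg) (fun k => hptw s hs k) h0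

/-- The drift is `1`-Lipschitz in time. -/
lemma drift_sub_le (hM : FieldOk M) (hB : Measurable B) {s t : ℝ} (hs : 0 ≤ s) (hst : s ≤ t)
    (e : I) : |drift M B t e - drift M B s e| ≤ t - s := by
  rw [drift_eq hM hB (hs.trans hst) e, drift_eq hM hB hs e,
    ← Ioc_union_Ioc_eq_Ioc hs hst,
    setIntegral_union (Ioc_disjoint_Ioc_of_le le_rfl) measurableSet_Ioc
      (integrableOn_field hM (measurable_sol hM hB) 0 s e)
      (integrableOn_field hM (measurable_sol hM hB) s t e), add_sub_cancel_left]
  have := norm_setIntegral_le_of_norm_le_const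
      (f := fun u => M (sol M B u) e) (C := 1)
      (measure_Ioc_lt_top (a := s) (b := t) (μ := volume))
      (fun u _ => by rw [Real.norm_eq_abs, abs_of_nonneg (hM.nonneg _ _)]; exact hM.le_one _ _)
  simpa [Real.norm_eq_abs, hst] using this

end Vale.Agent.P143
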