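import Vale.Agent.P143.Network
import Vale.Agent.P143.Picard
import Vale.Agent.P143.Chain
import Vale.Agent.P143.Noise

/-!
# The localization process on a finite edge set
-/

namespace Vale.Agent.P143

open MeasureTheory ProbabilityTheory Filter Topology Finset Real
open scoped Classical NNReal ENNReal unitInterval

attribute [local irreducible] path edgePath

variable {V : Type} [Countable V]

lemma fieldOk_mfin (S : Finset (Sym2 V)) : FieldOk (mfin S) where
  meas := measurable_pi_lambda _ fun e => (continuous_mfin S e).measurable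
  nonneg := mfin_nonneg S
  le_one := mfin_le_one S
  lip := fun _ _ _ hδ h e => mfin_lipschitz hδ (fun f _ => h f) e

lemma measurable_edgePath (G : SimpleGraph V) :
    Measurable fun p : (V → I) × ℝ => edgePath G p.1 p.2 :=
  measurable_edgePath_param (G := fun _ => G) (U := id) (fun _ _ => MeasurableSet.const _)
    measurable_id

lemma measurable_edgePath_time (G : SimpleGraph V) (U : V → I) : Measurable (edgePath G U) :=
  (measurable_edgePath G).comp (measurable_prodMk_left (x := U))

/-- The localization process on the finite edge set `S`. -/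
noncomputable def solS (G : SimpleGraph V) (S : Finset (Sym2 V)) (U : V → I) : ℝ → Sym2 V → ℝ :=
  sol (mfin S) (edgePath G U)

lemma measurable_solS (G : SimpleGraph V) (S : Finset (Sym2 V)) (t : ℝ) :
    Measurable fun U : V → I => solS G S U t :=
  (measurable_sol_param (M := fun _ : V → I => mfin S) (B := edgePath G)
    ((fieldOk_mfin S).meas.comp measurable_snd) (measurable_edgePath G)).comp
    (measurable_prodMk_right (y := t))

/-- The increments on the mesh `2⁻ʲ`. -/
noncomputable def incS (G : SimpleGraph V) (S : Finset (Sym2 V)) (j : ℕ) (U : V → I) (i : ℕ)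
    (e : ↥S) : ℝ :=
  edgePath G U (((i + 1 : ℕ) : ℝ) / 2 ^ j) e - edgePath G U ((i : ℝ) / 2 ^ j) e

lemma measurable_incS (G : SimpleGraph V) (S : Finset (Sym2 V)) (j : ℕ) :
    Measurable (incS G S j) := by
  have h : ∀ (t : ℝ) (e : Sym2 V), Measurable fun U : V → I => edgePath G U t e := fun t e =>
    (measurable_pi_apply e).comp ((measurable_edgePath G).comp (measurable_prodMk_right (y := t)))
  exact measurable_pi_lambda _ fun i => measurable_pi_lambda _ fun e => (h _ _).sub (h _ _)

/-- The labels. -/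
noncomputable def labels (V : Type) : Measure (V → I) :=
  Measure.infinitePi fun _ : V => (volume : Measure I)

instance (V : Type) : IsProbabilityMeasure (labels V) := by unfold labels; infer_instance

lemma law_incS {G : SimpleGraph V} (hlf : ∀ v, (G.neighborSet v).Finite) {S : Finset (Sym2 V)}
    (hS : ↑S ⊆ G.edgeSet) (j : ℕ) :
    (labels V).map (incS G S j) = seqLaw S (1 / 2 ^ j) := by
  set N : (↥S → ℕ × ℕ → ℝ) → ↥S → ℕ → ℝ := fun z e i =>
    path (z e) (((i + 1 : ℕ) : ℝ) / 2 ^ j) - path (z e) ((i : ℝ) / 2 ^ j)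
  set d : (ℕ × ℕ → ℝ) → ℕ → ℝ := fun z i =>
    path z (((i + 1 : ℕ) : ℝ) / 2 ^ j) - path z ((i : ℝ) / 2 ^ j) with hd
  have hdm : Measurable d := by
    have h : ∀ t : ℝ, Measurable fun z : ℕ × ℕ → ℝ => path z t := fun t =>
      measurable_path.fun_comp (measurable_id.prodMk measurable_const)
    exact measurable_pi_lambda _ fun i => (h _).sub (h _)
  set sw : ℕ × ↥S → ↥S × ℕ := fun p => (p.2, p.1) with hsw
  have hfun : incS G S j = ⇑(MeasurableEquiv.curry ℕ ↥S ℝ) ∘ (fun x : ↥S × ℕ → ℝ => x ∘ sw)
      ∘ ⇑(MeasurableEquiv.curry ↥S ℕ ℝ).symm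
      ∘ (fun (z : ↥S → ℕ × ℕ → ℝ) e => d (z e)) ∘ fun U (e : ↥S) => edgeNoise G U e.1 := by
    funext U i e
    simp only [incS, edgePath]
    rfl
  have h0 : Measurable fun (U : V → I) (e : ↥S) => edgeNoise G U e.1 :=
    measurable_pi_lambda _ fun e => (measurable_pi_apply e.1).comp (measurable_edgeNoise G)
  have h1 : Measurable fun (z : ↥S → ℕ × ℕ → ℝ) e => d (z e) :=
    measurable_pi_lambda _ fun e => hdm.comp (measurable_pi_apply e)
  have h2 : Measurable ⇑(MeasurableEquiv.curry ↥S ℕ ℝ).symm := MeasurableEquiv.measurable _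
  have h3 : Measurable fun x : ↥S × ℕ → ℝ => x ∘ sw :=
    measurable_pi_lambda _ fun i => measurable_pi_apply _
  rw [labels, hfun, ← Measure.map_map (MeasurableEquiv.measurable _) (h3.comp (h2.comp (h1.comp h0))),
    ← Measure.map_map h3 (h2.comp (h1.comp h0)), ← Measure.map_map h2 (h1.comp h0),
    ← Measure.map_map h1 h0, law_edgeNoise hlf hS,
    Measure.infinitePi_map_pi (f := fun _ => d) _ (fun _ => hdm)]
  have hl : (stdG (ℕ × ℕ)).map d
      = Measure.infinitePi fun _ : ℕ => gaussianReal 0 (1 / 2 ^ j) := law_path j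
  simp only [hl]
  rw [Measure.infinitePi_map_curry_symm (fun _ _ => gaussianReal 0 (1 / 2 ^ j)),
    infinitePi_comp_injective (gaussianReal 0 (1 / 2 ^ j)) (g := sw) (fun a b h => by
      simp only [hsw, Prod.mk.injEq] at h; exact Prod.ext h.2 h.1),
    Measure.infinitePi_map_curry (fun _ _ => gaussianReal 0 (1 / 2 ^ j)), seqLaw]
  simp only [gam, Measure.infinitePi_eq_pi]

lemma ae_continuous_edgePath {G : SimpleGraph V} (hlf : ∀ v, (G.neighborSet v).Finite)
    {S : Finset (Sym2 V)} (hS : ↑S ⊆ G.edgeSet) :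
    ∀ᵐ U ∂labels V, ∀ e ∈ S, Continuous fun t => edgePath G U t e := by
  have h0 : Measurable fun (U : V → I) (e : ↥S) => edgeNoise G U e.1 :=
    measurable_pi_lambda _ fun e => (measurable_pi_apply e.1).comp (measurable_edgeNoise G)
  have h1 : ∀ᵐ z ∂(labels V).map (fun U (e : ↥S) => edgeNoise G U e.1),
      ∀ e, Continuous (path (z e)) := by
    rw [labels, law_edgeNoise hlf hS, ae_all_iff]
    intro e
    exact (measurePreserving_eval_infinitePi (fun _ : ↥S => stdG (ℕ × ℕ))
      e).quasiMeasurePreserving.ae path_continuous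
  filter_upwards [ae_of_ae_map h0.aemeasurable h1] with U hU e he
  simp only [edgePath]
  exact hU ⟨e, he⟩

/-- The Euler scheme converges to the solution on almost every path. -/
lemma eul_tendsto {G : SimpleGraph V} (S : Finset (Sym2 V)) {U : V → I}
    (hc : ∀ e ∈ S, Continuous fun t => edgePath G U t e) (T : ℕ) :
    Tendsto (fun j => eul S (bases S) (1 / 2 ^ j) (T * 2 ^ j) (incS G S j U)) atTop
      (𝓝 fun e => if e ∈ S then solS G S U T e else 0) := by
  have hM := fieldOk_mfin S
  have hB := measurable_edgePath_time G U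
  set B := edgePath G U
  set θ := solS G S U
  have hθ : ∀ t e, θ t e = B t e + drift (mfin S) B t e := fun t e => rfl
  have hout : ∀ (v : ℝ≥0) (η : ℕ → ↥S → ℝ) (e : Sym2 V), e ∉ S →
      ∀ i, eul S (bases S) v i η e = 0 := by
    intro v η e he i
    induction i with
    | zero => rfl
    | succ i ih =>
      rw [eul_succ, stepY_eq]
      simp only [ih, ext0, dif_neg he, marg_eq_zero bases_subset he, mul_zero, add_zero]
  refine tendsto_pi_nhds.2 fun e => ?_
  by_cases he : e ∈ S
  swap
  · simp only [if_neg he, hout _ _ e he]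
    exact tendsto_const_nhds
  simp only [if_pos he]
  rw [Metric.tendsto_atTop]
  intro ε hε
  set η0 : ℝ := ε / (2 * (T + 1) * Real.exp (2 * T)) with hη0
  have hη0pos : 0 < η0 := by positivity
  have hcont : ContinuousOn (fun s (f : ↥S) => θ s f.1) (Set.Icc (0:ℝ) T) := by
    refine continuousOn_pi.2 fun f => ?_
    simp only [hθ]
    refine (hc f.1 f.2).continuousOn.add ?_
    have hl : LipschitzOnWith 1 (fun s => drift (mfin S) B s f.1) (Set.Icc (0:ℝ) T) := by
      rw [lipschitzOnWith_iff_dist_le_mul]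
      intro x hx y hy
      rw [Real.dist_eq, Real.dist_eq, NNReal.coe_one, one_mul]
      rcases le_total y x with h | h
      · rw [abs_of_nonneg (sub_nonneg.2 h)]
        exact drift_sub_le hM hB hy.1 h _
      · rw [abs_sub_comm, abs_sub_comm x y, abs_of_nonneg (sub_nonneg.2 h)]
        exact drift_sub_le hM hB hx.1 h _
    exact hl.continuousOn
  obtain ⟨δ, hδ, hδu⟩ := Metric.uniformContinuousOn_iff.1
    ((isCompact_Icc).uniformContinuousOn_of_continuous hcont) η0 hη0pos
  obtain ⟨J, hJ⟩ := exists_pow_lt_of_lt_one hδ (show (1/2:ℝ) < 1 by norm_num)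
  refine ⟨J, fun j hj => ?_⟩
  set v : ℝ≥0 := 1 / 2 ^ j with hvdef
  have hv : (v : ℝ) = 1 / 2 ^ j := by simp [hvdef]
  have hv0 : 0 < (v : ℝ) := by rw [hv]; positivity
  have hvδ : (v : ℝ) < δ := by
    refine lt_of_le_of_lt ?_ hJ
    rw [hv, one_div, one_div, inv_pow]
    exact inv_anti₀ (by positivity) (pow_le_pow_right₀ (by norm_num) hj)
  set K := T * 2 ^ j with hKdef
  have hKv : (K : ℝ) * v = T := by
    rw [hv, hKdef]; push_cast; field_simp
  set E := fun i => eul S (bases S) v i (incS G S j U)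
  have key : ∀ i ≤ K, ∀ f ∈ S,
      |E i f - θ (i * v) f| ≤ i * (2 * v * η0) * (1 + 2 * (v : ℝ)) ^ i := by
    intro i
    induction i with
    | zero =>
      intro _ f _
      have h0 : drift (mfin S) B 0 f = 0 :=
        le_antisymm (drift_le hM hB le_rfl f) (drift_nonneg hM hB le_rfl f)
      simp [E, eul, hθ, h0, B, edgePath_zero]
    | succ i ih =>
      intro hi f hf
      have ih := ih (by omega)
      set a := (i : ℝ) * (2 * v * η0) * (1 + 2 * (v : ℝ)) ^ i with ha
      have ha0 : 0 ≤ a := by positivity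
      set s0 := (i : ℝ) * v
      set s1 := ((i + 1 : ℕ) : ℝ) * v
      have hs1 : s1 = s0 + v := by simp only [s1, s0]; push_cast; ring
      have hs00 : 0 ≤ s0 := by positivity
      have hs1T : s1 ≤ T := by
        rw [← hKv]
        exact mul_le_mul_of_nonneg_right (by exact_mod_cast hi) hv0.le
      have hdr : drift (mfin S) B s1 f
          = drift (mfin S) B s0 f + ∫ s in Set.Ioc s0 s1, mfin S (sol (mfin S) B s) f := by
        rw [drift_eq hM hB (by linarith) f, drift_eq hM hB hs00 f,
          ← Set.Ioc_union_Ioc_eq_Ioc hs00 (show s0 ≤ s1 by linarith),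
          setIntegral_union (Set.Ioc_disjoint_Ioc_of_le le_rfl) measurableSet_Ioc
            (integrableOn_field hM (measurable_sol hM hB) 0 s0 f)
            (integrableOn_field hM (measurable_sol hM hB) s0 s1 f)]
      have hinc : incS G S j U i ⟨f, hf⟩ = B s1 f - B s0 f := by
        simp only [incS, B, s1, s0, hv, mul_one_div]
      have hEsucc : E (i + 1) f = E i f + (B s1 f - B s0 f) + (v : ℝ) * mfin S (E i) f := by
        simp only [E, eul_succ, stepY_eq]
        rw [show ext0 S (incS G S j U i) f = incS G S j U i ⟨f, hf⟩ from dif_pos hf, hinc]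
        rfl
      have hint : |(∫ s in Set.Ioc s0 s1, mfin S (sol (mfin S) B s) f) - (v : ℝ) * mfin S (E i) f|
          ≤ 2 * (a + η0) * v := by
        have hc1 : (∫ _s in Set.Ioc s0 s1, mfin S (E i) f) = (v : ℝ) * mfin S (E i) f := by
          simp [hs1]
        rw [← hc1, ← integral_sub (integrableOn_field hM (measurable_sol hM hB) s0 s1 f)
          (integrableOn_const measure_Ioc_lt_top.ne)]
        have := norm_setIntegral_le_of_norm_le_const
          (f := fun s => mfin S (sol (mfin S) B s) f - mfin S (E i) f) (C := 2 * (a + η0))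
          (measure_Ioc_lt_top (a := s0) (b := s1) (μ := volume)) (fun s hs => ?_)
        · simpa [Real.norm_eq_abs, hs1, NNReal.coe_nonneg] using this
        · rw [Real.norm_eq_abs]
          refine mfin_lipschitz (by positivity) (fun g hg => ?_) f
          have h1 := ih g hg
          have hd := hδu s ⟨by linarith [hs.1], by linarith [hs.2]⟩ s0 ⟨hs00, by linarith⟩ (by
            rw [Real.dist_eq, abs_of_nonneg (by linarith [hs.1])]
            linarith [hs.2])
          have h2 : |θ s g - θ s0 g| ≤ η0 := by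
            have := (dist_le_pi_dist (fun f : ↥S => θ s f.1) (fun f : ↥S => θ s0 f.1) ⟨g, hg⟩).trans
              hd.le
            rwa [Real.dist_eq] at this
          calc |sol (mfin S) B s g - E i g| = |(θ s g - θ s0 g) - (E i g - θ s0 g)| := by
                simp only [θ, solS, B]; ring_nf
            _ ≤ |θ s g - θ s0 g| + |E i g - θ s0 g| := abs_sub _ _
            _ ≤ a + η0 := by linarith
      have h1 := ih f hf
      rw [hEsucc, hθ, hdr]
      have hfin : |E i f + (B s1 f - B s0 f) + (v : ℝ) * mfin S (E i) f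
          - (B s1 f + (drift (mfin S) B s0 f + ∫ s in Set.Ioc s0 s1, mfin S (sol (mfin S) B s) f))|
          ≤ a + 2 * (a + η0) * v := by
        have : E i f + (B s1 f - B s0 f) + (v : ℝ) * mfin S (E i) f
            - (B s1 f + (drift (mfin S) B s0 f + ∫ s in Set.Ioc s0 s1, mfin S (sol (mfin S) B s) f))
            = (E i f - θ s0 f) - ((∫ s in Set.Ioc s0 s1, mfin S (sol (mfin S) B s) f)
              - (v : ℝ) * mfin S (E i) f) := by
          rw [hθ]; ring
        rw [this]
        exact (abs_sub _ _).trans (add_le_add h1 hint)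
      refine hfin.trans ?_
      have hp : 1 ≤ (1 + 2 * (v : ℝ)) ^ (i + 1) := one_le_pow₀ (by linarith)
      have hnn : 0 ≤ 2 * (v : ℝ) * η0 := by positivity
      calc a + 2 * (a + η0) * v = a * (1 + 2 * (v : ℝ)) + 2 * v * η0 * 1 := by ring
        _ ≤ a * (1 + 2 * (v : ℝ)) + 2 * v * η0 * (1 + 2 * (v : ℝ)) ^ (i + 1) := by gcongr
        _ = _ := by rw [ha]; push_cast; ring
  rw [Real.dist_eq]
  have hk := key K le_rfl e he
  rw [hKv] at hk
  refine lt_of_le_of_lt hk ?_
  have hpow : (1 + 2 * (v : ℝ)) ^ K ≤ Real.exp (2 * T) := by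
    calc (1 + 2 * (v : ℝ)) ^ K ≤ Real.exp (2 * v) ^ K :=
          pow_le_pow_left₀ (by positivity) (by linarith [Real.add_one_le_exp (2 * (v : ℝ))]) K
      _ = Real.exp (2 * T) := by rw [← Real.exp_nat_mul, ← hKv]; ring_nf
  calc (K : ℝ) * (2 * v * η0) * (1 + 2 * (v : ℝ)) ^ K
      = 2 * T * η0 * (1 + 2 * (v : ℝ)) ^ K := by rw [← hKv]; ring
    _ ≤ 2 * T * η0 * Real.exp (2 * T) := by gcongr
    _ = ε * (T / (T + 1)) := by rw [hη0]; field_simp
    _ < ε := by
        have : (T : ℝ) / (T + 1) < 1 := by rw [div_lt_one (by positivity)]; linarith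
        nlinarith

lemma sqrt_step_tendsto (C : ℝ) :
    Tendsto (fun j : ℕ => C * Real.sqrt (((1 / 2 ^ j : ℝ≥0)) : ℝ)) atTop (𝓝 0) := by
  have h1 : Tendsto (fun j : ℕ => (((1 / 2 ^ j : ℝ≥0)) : ℝ)) atTop (𝓝 0) := by
    have := tendsto_pow_atTop_nhds_zero_of_lt_one (show (0:ℝ) ≤ 1/2 by norm_num) (by norm_num)
    refine this.congr fun j => ?_
    simp [one_div, inv_pow]
  simpa using ((Real.continuous_sqrt.tendsto 0).comp h1).const_mul C

lemma setup_eventually (S : Finset (Sym2 V)) :
    ∃ k, ∀ᶠ j in atTop, Setup S (bases S) k (1 / 2 ^ j : ℝ≥0) := by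
  obtain ⟨T₀, hT₀⟩ := bases_nonempty S
  refine ⟨T₀.card, ?_⟩
  have h1 : Tendsto (fun j : ℕ => (1 / 2 : ℝ) ^ j * (T₀.card + 1)) atTop (𝓝 0) := by
    simpa using (tendsto_pow_atTop_nhds_zero_of_lt_one (show (0:ℝ) ≤ 1/2 by norm_num)
      (by norm_num)).mul_const ((T₀.card : ℝ) + 1)
  filter_upwards [h1.eventually_le_const (show (0:ℝ) < 1/2 by norm_num)] with j hj
  refine ⟨bases_nonempty S, bases_subset,
    fun T hT => (mem_bases.1 hT).card_eq (mem_bases.1 hT₀), by positivity, ?_⟩
  simpa [one_div, inv_pow] using hj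

omit [Countable V] in
lemma mfin_ite (S : Finset (Sym2 V)) (θ : Sym2 V → ℝ) (e : Sym2 V) :
    mfin S (fun f => if f ∈ S then θ f else 0) e = mfin S θ e :=
  marg_congr bases_subset (fun _ hf => if_pos hf) e

/-- Transfer of an estimate for the scheme to the solution. -/
lemma transfer {G : SimpleGraph V} (hlf : ∀ v, (G.neighborSet v).Finite) {S : Finset (Sym2 V)}
    (hS : ↑S ⊆ G.edgeSet) (T t : ℕ) {Φ : (Sym2 V → ℝ) → (Sym2 V → ℝ) → ℝ}
    (hΦ : Continuous fun p : (Sym2 V → ℝ) × (Sym2 V → ℝ) => Φ p.1 p.2)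
    (hb : ∀ x y, |Φ x y| ≤ 1) :
    Tendsto (fun j => ∫ η, Φ (eul S (bases S) (1 / 2 ^ j) (T * 2 ^ j) η)
        (eul S (bases S) (1 / 2 ^ j) (t * 2 ^ j) η) ∂seqLaw S (1 / 2 ^ j)) atTop
      (𝓝 (∫ U, Φ (fun e => if e ∈ S then solS G S U T e else 0)
        (fun e => if e ∈ S then solS G S U t e else 0) ∂labels V)) := by
  have hm : ∀ j, Measurable fun η : ℕ → ↥S → ℝ => Φ (eul S (bases S) (1 / 2 ^ j) (T * 2 ^ j) η)
      (eul S (bases S) (1 / 2 ^ j) (t * 2 ^ j) η) := fun j =>
    hΦ.measurable.comp ((measurable_eul _).prodMk (measurable_eul _))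
  have hrw : ∀ j, (∫ η, Φ (eul S (bases S) (1 / 2 ^ j) (T * 2 ^ j) η)
        (eul S (bases S) (1 / 2 ^ j) (t * 2 ^ j) η) ∂seqLaw S (1 / 2 ^ j))
      = ∫ U, Φ (eul S (bases S) (1 / 2 ^ j) (T * 2 ^ j) (incS G S j U))
        (eul S (bases S) (1 / 2 ^ j) (t * 2 ^ j) (incS G S j U)) ∂labels V := fun j => by
    rw [← law_incS hlf hS j, integral_map (measurable_incS G S j).aemeasurable
      (hm j).aestronglyMeasurable]
  simp only [hrw]
  refine tendsto_integral_of_dominated_convergence (fun _ => (1:ℝ))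
    (fun j => ((hm j).comp (measurable_incS G S j)).aestronglyMeasurable) (integrable_const _)
    (fun j => Eventually.of_forall fun U => by rw [Real.norm_eq_abs]; exact hb _ _) ?_
  filter_upwards [ae_continuous_edgePath hlf hS] with U hU
  exact (hΦ.tendsto _).comp ((eul_tendsto S hU T).prodMk_nhds (eul_tendsto S hU t))

lemma finite_var {G : SimpleGraph V} (hlf : ∀ v, (G.neighborSet v).Finite) {S : Finset (Sym2 V)}
    (hS : ↑S ⊆ G.edgeSet) (e : Sym2 V) {T : ℕ} (hT : 0 < T) :
    ∫ U, mfin S (solS G S U T) e * (1 - mfin S (solS G S U T) e) ∂labels V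
      ≤ 1 / Real.sqrt T := by
  obtain ⟨k, hk⟩ := setup_eventually S
  have hlim := transfer hlf hS T T
    (Φ := fun x _ => mfin S x e * (1 - mfin S x e))
    ((((continuous_mfin S e).mul (continuous_const.sub (continuous_mfin S e)))).comp continuous_fst)
    (fun x _ => by
      have := mfin_nonneg S x e
      have := mfin_le_one S x e
      rw [abs_le]; constructor <;> nlinarith)
  simp only [mfin_ite] at hlim
  refine le_of_tendsto_of_tendsto hlim (g := fun j : ℕ => 1 / Real.sqrt T
    + errC (bases S).card k T * Real.sqrt (((1 / 2 ^ j : ℝ≥0)) : ℝ)) ?_ ?_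
  · simpa using (sqrt_step_tendsto (errC (bases S).card k T)).const_add (1 / Real.sqrt T)
  · filter_upwards [hk] with j hj
    have hK : 0 < T * 2 ^ j := by positivity
    have h := var_bound hj e hK
    have hKv : ((T * 2 ^ j : ℕ) : ℝ) * (((1 / 2 ^ j : ℝ≥0)) : ℝ) = T := by push_cast; field_simp
    rw [hKv] at h
    exact h

lemma finite_cauchy {G : SimpleGraph V} (hlf : ∀ v, (G.neighborSet v).Finite)
    {S : Finset (Sym2 V)} (hS : ↑S ⊆ G.edgeSet) (e : Sym2 V) {t T : ℕ} (ht : 0 < t)
    (htT : t ≤ T) :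
    ∫ U, (mfin S (solS G S U T) e - mfin S (solS G S U t) e) ^ 2 ∂labels V
      ≤ 1 / Real.sqrt t := by
  obtain ⟨k, hk⟩ := setup_eventually S
  have hlim := transfer hlf hS T t
    (Φ := fun x y => (mfin S x e - mfin S y e) ^ 2)
    ((((continuous_mfin S e).comp continuous_fst).sub
      ((continuous_mfin S e).comp continuous_snd)).pow 2)
    (fun x y => by
      have := mfin_nonneg S x e
      have := mfin_le_one S x e
      have := mfin_nonneg S y e
      have := mfin_le_one S y e
      rw [abs_le]; constructor <;> nlinarith)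
  simp only [mfin_ite] at hlim
  refine le_of_tendsto_of_tendsto hlim (g := fun j : ℕ => 1 / Real.sqrt t
    + 2 * errC (bases S).card k T * Real.sqrt (((1 / 2 ^ j : ℝ≥0)) : ℝ)) ?_ ?_
  · simpa using (sqrt_step_tendsto (2 * errC (bases S).card k T)).const_add (1 / Real.sqrt t)
  · filter_upwards [hk] with j hj
    have h := cauchy_bound hj e (show 0 < t * 2 ^ j by positivity)
      (Nat.mul_le_mul_right (2 ^ j) htT)
    have hKv : ((T * 2 ^ j : ℕ) : ℝ) * (((1 / 2 ^ j : ℝ≥0)) : ℝ) = T := by push_cast; field_simp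
    have hjv : ((t * 2 ^ j : ℕ) : ℝ) * (((1 / 2 ^ j : ℝ≥0)) : ℝ) = t := by push_cast; field_simp
    rw [hKv, hjv] at h
    exact h

/-- The product of marginals associated to a cylinder. -/
noncomputable def cylProd (m : Sym2 V → ℝ) (A : Finset (Sym2 V)) (η : Sym2 V → Bool) : ℝ :=
  ∏ e ∈ A, if η e = true then m e else 1 - m e

omit [Countable V] in
lemma abs_cylProd_le {m : Sym2 V → ℝ} (h0 : ∀ e, 0 ≤ m e) (h1 : ∀ e, m e ≤ 1)
    (A : Finset (Sym2 V)) (η : Sym2 V → Bool) : |cylProd m A η| ≤ 1 := by
  rw [cylProd, Finset.abs_prod]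
  refine Finset.prod_le_one (fun e _ => abs_nonneg _) fun e _ => ?_
  have := h0 e
  have := h1 e
  split_ifs <;> rw [abs_le] <;> constructor <;> linarith

lemma finite_event {G : SimpleGraph V} (hlf : ∀ v, (G.neighborSet v).Finite)
    {S : Finset (Sym2 V)} (hS : ↑S ⊆ G.edgeSet) (A : Finset (Sym2 V)) (η : Sym2 V → Bool)
    {T : ℕ} (hT : 0 < T) :
    |(∫ U, cylProd (mfin S (solS G S U T)) A η ∂labels V)
      - ∑ W ∈ bases S, if (∀ e ∈ A, (e ∈ W ↔ η e = true)) then prb (bases S) (fun _ => 0) W else 0|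
      ≤ 2 * A.card * (1 / Real.sqrt T) := by
  obtain ⟨k, hk⟩ := setup_eventually S
  have hlim := transfer hlf hS T T
    (Φ := fun x _ => cylProd (mfin S x) A η)
    (((continuous_finsetProd A (f := fun e x => if η e = true then mfin S x e else 1 - mfin S x e)
      fun e _ => by
        split_ifs
        · exact continuous_mfin S e
        · exact continuous_const.sub (continuous_mfin S e)).comp
      (continuous_fst (Y := Sym2 V → ℝ))))
    (fun x _ => abs_cylProd_le (mfin_nonneg S x) (mfin_le_one S x) A η)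
  have he : ∀ x : Sym2 V → ℝ,
      cylProd (mfin S fun f => if f ∈ S then x f else 0) A η = cylProd (mfin S x) A η :=
    fun x => Finset.prod_congr rfl fun e _ => by simp only [mfin_ite]
  simp only [he] at hlim
  set q := ∑ W ∈ bases S,
    if (∀ e ∈ A, (e ∈ W ↔ η e = true)) then prb (bases S) (fun _ => 0) W else 0
  set R : ℕ → ℝ := fun j => 2 * A.card * (1 / Real.sqrt T)
    + (2 * A.card + 1) * (2 * errC (bases S).card k T) * Real.sqrt (((1 / 2 ^ j : ℝ≥0)) : ℝ)
  refine le_of_tendsto_of_tendsto ((hlim.sub_const q).abs) (g := R) ?_ ?_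
  · simpa [R] using (sqrt_step_tendsto ((2 * A.card + 1) * (2 * errC (bases S).card k T))).const_add
      (2 * A.card * (1 / Real.sqrt T))
  · filter_upwards [hk] with j hj
    set v : ℝ≥0 := 1 / 2 ^ j
    set K := T * 2 ^ j
    have hKv : (K : ℝ) * (v : ℝ) = T := by simp only [K, v]; push_cast; field_simp
    have hK : 0 < K := by positivity
    have h1 := integral_event_bound hj (fun W => ∀ e ∈ A, (e ∈ W ↔ η e = true)) K
    have hvar : ∀ e, ∫ x, marg (bases S) (eul S (bases S) v K x) e
        * (1 - marg (bases S) (eul S (bases S) v K x) e) ∂seqLaw S v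
        ≤ 1 / Real.sqrt T + errC (bases S).card k T * Real.sqrt v := fun e => by
      have := var_bound hj e hK
      rwa [hKv] at this
    set Ev := fun x : ℕ → ↥S → ℝ => ∑ W ∈ bases S,
      if (∀ e ∈ A, (e ∈ W ↔ η e = true)) then prb (bases S) (eul S (bases S) v K x) W else 0
    have hEv : Integrable Ev (seqLaw S v) := by
      refine integrable_finsetSum _ fun W hW => ?_
      split_ifs
      · exact integrable_unit ((measurable_prb _ W).comp (measurable_eul K))
          fun _ => abs_prb_le_one hW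
      · exact integrable_const _
    have hmm : ∀ e, Integrable (fun x => marg (bases S) (eul S (bases S) v K x) e
        * (1 - marg (bases S) (eul S (bases S) v K x) e)) (seqLaw S v) := fun e => by
      simp only [mul_sub, mul_one]
      exact (marg_integrable S _ v e K).sub (marg_mul_integrable S _ v e K K)
    have hP : Integrable (fun x => cylProd (mfin S (eul S (bases S) v K x)) A η) (seqLaw S v) :=
      integrable_unit (Finset.measurable_prod A fun e _ => by
          split_ifs
          · exact (measurable_marg _ e).comp (measurable_eul K)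
          · exact ((measurable_marg _ e).comp (measurable_eul K)).const_sub _)
        fun x => abs_cylProd_le (mfin_nonneg _ _) (mfin_le_one _ _) A η
    have hpt : ∀ x, |cylProd (mfin S (eul S (bases S) v K x)) A η - Ev x|
        ≤ 2 * ∑ e ∈ A, marg (bases S) (eul S (bases S) v K x) e
          * (1 - marg (bases S) (eul S (bases S) v K x) e) := fun x => by
      rw [abs_sub_comm]
      simp only [Ev, cylProd, mfin]
      have := prod_marg_close (bases_nonempty S) (eul S (bases S) v K x) A η
      convert this using 5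
    have h2 : |(∫ x, cylProd (mfin S (eul S (bases S) v K x)) A η ∂seqLaw S v)
        - ∫ x, Ev x ∂seqLaw S v|
        ≤ 2 * (A.card * (1 / Real.sqrt T + errC (bases S).card k T * Real.sqrt v)) := by
      rw [← integral_sub hP hEv]
      refine abs_integral_le_integral_abs.trans ((integral_mono (hP.sub hEv).abs
        ((integrable_finsetSum A fun e _ => hmm e).const_mul 2) hpt).trans ?_)
      rw [integral_const_mul, integral_finsetSum A fun e _ => hmm e]
      gcongr
      refine (Finset.sum_le_card_nsmul _ _ _ fun e _ => hvar e).trans_eq ?_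
      rw [nsmul_eq_mul]
    have h3 : ((bases S).card : ℝ) * ((K : ℝ) * (2 * cst k * (v : ℝ) ^ 2))
        ≤ errC (bases S).card k T * Real.sqrt v := by
      have hvs : (v : ℝ) ≤ Real.sqrt v :=
        Real.le_sqrt_of_sq_le (by nlinarith [hj.le_one, v.coe_nonneg])
      have := cst_nonneg k
      have hN : (0:ℝ) ≤ ((bases S).card : ℝ) := Nat.cast_nonneg _
      calc ((bases S).card : ℝ) * ((K : ℝ) * (2 * cst k * (v : ℝ) ^ 2))
          = 2 * ((bases S).card : ℝ) * cst k * ((K : ℝ) * v) * v := by ring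
        _ = 2 * ((bases S).card : ℝ) * cst k * T * v := by rw [hKv]
        _ ≤ 20 * (((bases S).card : ℝ) + 1) * cst k * (T + 1) * Real.sqrt v := by
            gcongr <;> linarith
        _ = _ := by unfold errC; ring
    have hnn : 0 ≤ errC (bases S).card k T * Real.sqrt v :=
      mul_nonneg (errC_nonneg _ _ (Nat.cast_nonneg _)) (Real.sqrt_nonneg _)
    have hA0 : (0:ℝ) ≤ (A.card : ℝ) := Nat.cast_nonneg _
    have hAn := mul_nonneg hA0 hnn
    simp only [R]
    change |(∫ x, cylProd (mfin S (eul S (bases S) v K x)) A η ∂seqLaw S v) - q| ≤ _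
    have h1 : |(∫ x, Ev x ∂seqLaw S v) - q|
        ≤ ((bases S).card : ℝ) * ((K : ℝ) * (2 * cst k * (v : ℝ) ^ 2)) := by
      simp only [Ev, q]
      convert h1 using 8
    rw [abs_le] at h1 h2 ⊢
    constructor <;> nlinarith

end Vale.Agent.P143
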