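import Mathlib

/-!
# Spanning forests of a finite edge set
-/

namespace Vale.Agent.P143

open Relation Finset
open scoped Classical

variable {V : Type}

/-- One step along an edge of `C`. -/
def Stp (C : Finset (Sym2 V)) (u v : V) : Prop := s(u, v) ∈ C

/-- Connectivity through the edges of `C`. -/
def Conn (C : Finset (Sym2 V)) (u v : V) : Prop := ReflTransGen (Stp C) u v

lemma Conn.refl {C : Finset (Sym2 V)} (u : V) : Conn C u u := ReflTransGen.refl

lemma Stp.symm {C : Finset (Sym2 V)} {u v : V} (h : Stp C u v) : Stp C v u := by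
  simpa [Stp, Sym2.eq_swap] using h

lemma Conn.symm {C : Finset (Sym2 V)} {u v : V} (h : Conn C u v) : Conn C v u := by
  induction h with
  | refl => exact Conn.refl _
  | tail _ h2 ih => exact ReflTransGen.head h2.symm ih

lemma Conn.trans {C : Finset (Sym2 V)} {u v w : V} (h : Conn C u v) (h' : Conn C v w) :
    Conn C u w := ReflTransGen.trans h h'

lemma Conn.mono {C D : Finset (Sym2 V)} {u v : V} (hCD : C ⊆ D) (h : Conn C u v) :
    Conn D u v := ReflTransGen.mono (fun _ _ hs => hCD hs) _ _ h

lemma Conn.edge {C : Finset (Sym2 V)} {u v : V} (h : s(u, v) ∈ C) : Conn C u v :=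
  ReflTransGen.single h

lemma conn_insert {C : Finset (Sym2 V)} {x y u v : V} (h : Conn (insert s(x, y) C) u v) :
    Conn C u v ∨ (Conn C u x ∧ Conn C y v) ∨ (Conn C u y ∧ Conn C x v) := by
  induction h with
  | refl => exact Or.inl (Conn.refl _)
  | @tail b c _ hs ih =>
    rcases Finset.mem_insert.1 hs with he | he
    · rcases Sym2.eq_iff.1 he with ⟨rfl, rfl⟩ | ⟨rfl, rfl⟩
      · rcases ih with h | ⟨h1, h2⟩ | ⟨h1, _⟩
        · exact Or.inr (Or.inl ⟨h, Conn.refl _⟩)
        · exact Or.inr (Or.inl ⟨h1, Conn.refl _⟩)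
        · exact Or.inl h1
      · rcases ih with h | ⟨h1, _⟩ | ⟨h1, h2⟩
        · exact Or.inr (Or.inr ⟨h, Conn.refl _⟩)
        · exact Or.inl h1
        · exact Or.inr (Or.inr ⟨h1, Conn.refl _⟩)
    · have hc : Conn C b c := Conn.edge he
      rcases ih with h | ⟨h1, h2⟩ | ⟨h1, h2⟩
      · exact Or.inl (h.trans hc)
      · exact Or.inr (Or.inl ⟨h1, h2.trans hc⟩)
      · exact Or.inr (Or.inr ⟨h1, h2.trans hc⟩)

/-- An edge set without cycles. -/
def Forest (C : Finset (Sym2 V)) : Prop :=
  ∀ u v : V, s(u, v) ∈ C → ¬ Conn (C.erase s(u, v)) u v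

lemma Forest.mono {C D : Finset (Sym2 V)} (h : D ⊆ C) (hC : Forest C) : Forest D :=
  fun u v hm hc => hC u v (h hm) (hc.mono (Finset.erase_subset_erase _ h))

lemma Forest.insert {C : Finset (Sym2 V)} {x y : V} (hC : Forest C) (hn : ¬ Conn C x y) :
    Forest (Insert.insert s(x, y) C) := by
  have hxy : s(x, y) ∉ C := fun h => hn (Conn.edge h)
  intro u v hm hc
  rcases Finset.mem_insert.1 hm with he | he
  · rw [he, Finset.erase_insert hxy] at hc
    rcases Sym2.eq_iff.1 he with ⟨rfl, rfl⟩ | ⟨rfl, rfl⟩
    · exact hn hc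
    · exact hn hc.symm
  · have hne : s(x, y) ≠ s(u, v) := fun h => hxy (h ▸ he)
    rw [Finset.erase_insert_of_ne hne] at hc
    have hmono : C.erase s(u, v) ⊆ C := Finset.erase_subset _ _
    rcases conn_insert hc with h | ⟨h1, h2⟩ | ⟨h1, h2⟩
    · exact hC u v he h
    · exact hn (((h1.symm.mono hmono).trans (Conn.edge he)).trans (h2.symm.mono hmono))
    · exact hn (((h2.mono hmono).trans (Conn.edge he).symm).trans (h1.mono hmono))

/-- A maximal forest inside `S`. -/
def IsBase (S T : Finset (Sym2 V)) : Prop :=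
  T ⊆ S ∧ Forest T ∧ ∀ u v : V, s(u, v) ∈ S → Conn T u v

/-- The maximal forests inside `S`. -/
noncomputable def bases (S : Finset (Sym2 V)) : Finset (Finset (Sym2 V)) :=
  S.powerset.filter (fun T => IsBase S T)

lemma mem_bases {S T : Finset (Sym2 V)} : T ∈ bases S ↔ IsBase S T := by
  simp [bases]
  exact fun h => h.1

lemma exists_base (S : Finset (Sym2 V)) : ∃ T, IsBase S T := by
  induction S using Finset.induction_on with
  | empty => exact ⟨∅, Finset.Subset.refl _, fun u v h => by simp at h, fun u v h => by simp at h⟩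
  | @insert a S ha ih =>
    obtain ⟨T, hTS, hTF, hTC⟩ := ih
    induction a using Sym2.ind with
    | h x y =>
      by_cases hc : Conn T x y
      · refine ⟨T, hTS.trans (Finset.subset_insert _ _), hTF, fun u v h => ?_⟩
        rcases Finset.mem_insert.1 h with he | he
        · rcases Sym2.eq_iff.1 he with ⟨rfl, rfl⟩ | ⟨rfl, rfl⟩
          · exact hc
          · exact hc.symm
        · exact hTC u v he
      · refine ⟨Insert.insert s(x, y) T, Finset.insert_subset_insert _ hTS, hTF.insert hc,
          fun u v h => ?_⟩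
        rcases Finset.mem_insert.1 h with he | he
        · exact Conn.edge (he ▸ Finset.mem_insert_self _ _)
        · exact (hTC u v he).mono (Finset.subset_insert _ _)

lemma bases_nonempty (S : Finset (Sym2 V)) : (bases S).Nonempty :=
  (exists_base S).imp fun _ h => mem_bases.2 h

/-- Exchange: replace the edge `ab` of a base by an edge of `S` crossing the cut it leaves. -/
lemma IsBase.exchange {S T : Finset (Sym2 V)} (h : IsBase S T) {a b x y : V}
    (hab : s(a, b) ∈ T) (hxy : s(x, y) ∈ S)
    (hcr : Conn (T.erase s(a, b)) a x ∧ Conn (T.erase s(a, b)) b y ∨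
      Conn (T.erase s(a, b)) a y ∧ Conn (T.erase s(a, b)) b x) :
    s(x, y) ∉ T.erase s(a, b) ∧ IsBase S (Insert.insert s(x, y) (T.erase s(a, b))) := by
  obtain ⟨hTS, hTF, hTC⟩ := h
  set C := T.erase s(a, b) with hC
  have hn : ¬ Conn C a b := hTF a b hab
  have hnxy : ¬ Conn C x y := by
    intro hc
    rcases hcr with ⟨h1, h2⟩ | ⟨h1, h2⟩
    · exact hn ((h1.trans hc).trans h2.symm)
    · exact hn ((h1.trans hc.symm).trans h2.symm)
  refine ⟨fun hm => hnxy (Conn.edge hm), Finset.insert_subset hxy
    ((Finset.erase_subset _ _).trans hTS), (hTF.mono (Finset.erase_subset _ _)).insert hnxy, ?_⟩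
  have hsub : C ⊆ Insert.insert s(x, y) C := Finset.subset_insert _ _
  have hE : Conn (Insert.insert s(x, y) C) x y := Conn.edge (Finset.mem_insert_self _ _)
  have hAB : Conn (Insert.insert s(x, y) C) a b := by
    rcases hcr with ⟨h1, h2⟩ | ⟨h1, h2⟩
    · exact ((h1.mono hsub).trans hE).trans (h2.symm.mono hsub)
    · exact ((h1.mono hsub).trans hE.symm).trans (h2.symm.mono hsub)
  intro u v huv
  have hT : Conn (Insert.insert s(a, b) C) u v := by
    rw [hC, Finset.insert_erase hab]; exact hTC u v huv
  rcases conn_insert hT with h | ⟨h1, h2⟩ | ⟨h1, h2⟩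
  · exact h.mono hsub
  · exact ((h1.mono hsub).trans hAB).trans (h2.mono hsub)
  · exact ((h1.mono hsub).trans hAB.symm).trans (h2.mono hsub)

lemma IsBase.conn_of_conn {S T : Finset (Sym2 V)} (h : IsBase S T) {u v : V}
    (hc : Conn S u v) : Conn T u v := by
  induction hc with
  | refl => exact Conn.refl _
  | tail _ hs ih => exact ih.trans (h.2.2 _ _ hs)

/-- All bases have the same number of edges. -/
lemma IsBase.card_eq {S T T' : Finset (Sym2 V)} (h : IsBase S T) (h' : IsBase S T') :
    T.card = T'.card := by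
  suffices H : ∀ (k : ℕ) (T : Finset (Sym2 V)), IsBase S T → (T \ T').card = k →
      T.card = T'.card from H _ T h rfl
  intro k
  induction k with
  | zero =>
    intro T h h0
    have hsub : T ⊆ T' := by
      intro e he
      by_contra hne
      have : e ∈ T \ T' := Finset.mem_sdiff.2 ⟨he, hne⟩
      rw [Finset.card_eq_zero] at h0
      simp [h0] at this
    rw [show T = T' from ?_]
    refine Finset.Subset.antisymm hsub fun e he => ?_
    induction e using Sym2.ind with
    | h u v =>
      by_contra hne
      exact h'.2.1 u v he ((h.2.2 u v (h'.1 he)).mono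
        (fun g hg => Finset.mem_erase.2 ⟨fun hh => hne (hh ▸ hg), hsub hg⟩))
  | succ k ih =>
    intro T h hk
    obtain ⟨e, he⟩ : (T \ T').Nonempty := Finset.card_pos.1 (by omega)
    obtain ⟨heT, heT'⟩ := Finset.mem_sdiff.1 he
    induction e using Sym2.ind with
    | h a b =>
      set C := T.erase s(a, b) with hC
      have hn : ¬ Conn C a b := h.2.1 a b heT
      obtain ⟨x, y, hxy, hcr⟩ : ∃ x y, s(x, y) ∈ T' ∧ Conn C a x ∧ ¬ Conn C a y := by
        by_contra hcon
        push Not at hcon
        have : ∀ z, Conn T' a z → Conn C a z := by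
          intro z hz
          induction hz with
          | refl => exact Conn.refl _
          | tail _ hs ih => exact hcon _ _ hs ih
        exact hn (this b (h'.2.2 a b (h.1 heT)))
      have hby : Conn C b y := by
        have hT : Conn (Insert.insert s(a, b) C) x y := by
          rw [hC, Finset.insert_erase heT]; exact h.2.2 x y (h'.1 hxy)
        rcases conn_insert hT with h1 | ⟨_, h2⟩ | ⟨_, h2⟩
        · exact absurd (hcr.1.trans h1) hcr.2
        · exact h2
        · exact absurd h2 hcr.2
      obtain ⟨hnm, hbase⟩ := h.exchange heT (h'.1 hxy) (Or.inl ⟨hcr.1, hby⟩)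
      have h1 := ih _ hbase (by
        have : (Insert.insert s(x, y) C) \ T' = (T \ T').erase s(a, b) := by
          ext g
          simp only [hC, Finset.mem_sdiff, Finset.mem_insert, Finset.mem_erase]
          constructor
          · rintro ⟨rfl | ⟨hg, hg'⟩, hn'⟩
            · exact absurd hxy hn'
            · exact ⟨hg, hg', hn'⟩
          · rintro ⟨hg, hg', hn'⟩
            exact ⟨Or.inr ⟨hg, hg'⟩, hn'⟩
        rw [this, Finset.card_erase_of_mem he]
        omega)
      rw [Finset.card_insert_of_notMem hnm, Finset.card_erase_of_mem heT] at h1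
      have : 0 < T.card := Finset.card_pos.2 ⟨_, heT⟩
      omega

end Vale.Agent.P143
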