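import Vale.Agent.P143.Network

/-!
# The free marginal on an infinite graph
-/

namespace Vale.Agent.P143

open Finset Real Filter Topology
open scoped Classical

variable {V : Type}

/-- The marginal of the free forest with conductances `exp θ`. -/
noncomputable def mInf (G : SimpleGraph V) (θ : Sym2 V → ℝ) (e : Sym2 V) : ℝ :=
  if e ∈ G.edgeSet then
    ⨅ S : Finset (Sym2 V), if ↑S ⊆ G.edgeSet ∧ e ∈ S then mfin S θ e else 1
  else 0

lemma mInf_bddBelow (G : SimpleGraph V) (θ : Sym2 V → ℝ) (e : Sym2 V) :
    BddBelow (Set.range fun S : Finset (Sym2 V) =>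
      if ↑S ⊆ G.edgeSet ∧ e ∈ S then mfin S θ e else 1) :=
  ⟨0, fun r ⟨S, hS⟩ => by
    rw [← hS]
    dsimp only
    split_ifs <;> [exact mfin_nonneg _ _ _; exact zero_le_one]⟩

lemma mInf_nonneg (G : SimpleGraph V) (θ : Sym2 V → ℝ) (e : Sym2 V) : 0 ≤ mInf G θ e := by
  unfold mInf
  split_ifs
  · exact le_ciInf fun S => by split_ifs <;> [exact mfin_nonneg _ _ _; exact zero_le_one]
  · exact le_rfl

lemma mInf_le_one (G : SimpleGraph V) (θ : Sym2 V → ℝ) (e : Sym2 V) : mInf G θ e ≤ 1 := by
  unfold mInf
  split_ifs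
  · exact (ciInf_le (mInf_bddBelow G θ e) ∅).trans (by simp)
  · exact zero_le_one

lemma mInf_le {G : SimpleGraph V} {S : Finset (Sym2 V)} (hS : ↑S ⊆ G.edgeSet) {e : Sym2 V}
    (he : e ∈ S) (θ : Sym2 V → ℝ) : mInf G θ e ≤ mfin S θ e := by
  unfold mInf
  rw [if_pos (hS he)]
  exact (ciInf_le (mInf_bddBelow G θ e) S).trans_eq (if_pos ⟨hS, he⟩)

lemma mInf_lipschitz (G : SimpleGraph V) {x x' : Sym2 V → ℝ} {δ : ℝ} (hδ : 0 ≤ δ)
    (h : ∀ f, |x f - x' f| ≤ δ) (e : Sym2 V) : |mInf G x e - mInf G x' e| ≤ 2 * δ := by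
  unfold mInf
  split_ifs with he
  · have key : ∀ y y' : Sym2 V → ℝ, (∀ f, |y f - y' f| ≤ δ) →
        (⨅ S : Finset (Sym2 V), if ↑S ⊆ G.edgeSet ∧ e ∈ S then mfin S y e else 1) ≤
        (⨅ S : Finset (Sym2 V), if ↑S ⊆ G.edgeSet ∧ e ∈ S then mfin S y' e else 1) + 2 * δ := by
      intro y y' hy
      rw [← sub_le_iff_le_add]
      refine le_ciInf fun S => ?_
      rw [sub_le_iff_le_add]
      refine (ciInf_le (mInf_bddBelow G y e) S).trans ?_
      split_ifs
      · have := (abs_le.1 (mfin_lipschitz hδ (fun f _ => hy f) e (S := S))).2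
        linarith
      · linarith
    rw [abs_le]
    have h1 := key x x' h
    have h2 := key x' x fun f => by rw [abs_sub_comm]; exact h f
    constructor <;> linarith
  · simpa using hδ

/-- An exhausting sequence of finite edge sets of `G`. -/
structure EdgeExh (G : SimpleGraph V) (S : ℕ → Finset (Sym2 V)) : Prop where
  mono : Monotone S
  sub : ∀ n, ↑(S n) ⊆ G.edgeSet
  cover : ∀ e ∈ G.edgeSet, ∃ n, e ∈ S n

lemma EdgeExh.cofinal {G : SimpleGraph V} {S : ℕ → Finset (Sym2 V)} (h : EdgeExh G S)
    (A : Finset (Sym2 V)) (hA : ↑A ⊆ G.edgeSet) : ∃ n, A ⊆ S n := by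
  induction A using Finset.induction_on with
  | empty => exact ⟨0, Finset.empty_subset _⟩
  | @insert a s _ ih =>
    rw [Finset.coe_insert, Set.insert_subset_iff] at hA
    obtain ⟨n, hn⟩ := ih hA.2
    obtain ⟨m, hm⟩ := h.cover a hA.1
    exact ⟨max n m, Finset.insert_subset (h.mono (le_max_right n m) hm)
      (hn.trans (h.mono (le_max_left n m)))⟩

/-- Continuity along exhaustions, under bounded perturbations of the field. -/
lemma tendsto_mfin {G : SimpleGraph V} {S : ℕ → Finset (Sym2 V)} (hS : EdgeExh G S)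
    {xs : ℕ → Sym2 V → ℝ} {x : Sym2 V → ℝ} {c : ℝ}
    (hlim : ∀ f, Tendsto (fun n => xs n f) atTop (𝓝 (x f)))
    (hc : ∀ n f, |xs n f - x f| ≤ c) (e : Sym2 V) :
    Tendsto (fun n => mfin (S n) (xs n) e) atTop (𝓝 (mInf G x e)) := by
  by_cases he : e ∈ G.edgeSet
  swap
  · have : ∀ n, mfin (S n) (xs n) e = 0 := fun n => mfin_eq_zero (fun h => he (hS.sub n h)) _
    simp only [this, mInf, if_neg he]
    exact tendsto_const_nhds
  induction e using Sym2.ind with
  | h a b =>
  set e := s(a, b) with hedef
  have hlimv : Tendsto xs atTop (𝓝 x) := tendsto_pi_nhds.2 hlim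
  set w := Real.exp (x e)
  have hw : 0 < w := Real.exp_pos _
  obtain ⟨n0, hn0⟩ := hS.cover e he
  -- near-optimal finite sets
  have hopt : ∀ ζ > 0, ∃ j, e ∈ S j ∧ mfin (S j) x e ≤ mInf G x e + ζ := by
    intro ζ hζ
    have hlt : (⨅ T : Finset (Sym2 V), if ↑T ⊆ G.edgeSet ∧ e ∈ T then mfin T x e else 1)
        < mInf G x e + ζ := by
      rw [mInf, if_pos he]; linarith
    obtain ⟨T, hT⟩ := exists_lt_of_ciInf_lt hlt
    by_cases hTc : ↑T ⊆ G.edgeSet ∧ e ∈ T
    · rw [if_pos hTc] at hT
      obtain ⟨j, hj⟩ := hS.cofinal T hTc.1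
      exact ⟨j, hj hTc.2, (mfin_antitone hj x hTc.2).trans hT.le⟩
    · rw [if_neg hTc] at hT
      exact ⟨n0, hn0, (mfin_le_one _ _ _).trans hT.le⟩
  rw [tendsto_order]
  constructor
  · intro r hr
    set gap := mInf G x e - r with hgap
    have hgap0 : 0 < gap := by linarith
    set C2 : ℝ := 2 * (Real.exp (2 * c) + 1) / w with hC2
    have hC20 : 0 ≤ C2 := by positivity
    set K : ℝ := gap / (8 * w) with hK
    have hK0 : 0 < K := by positivity
    obtain ⟨j, hej, hj⟩ := hopt (w * (K ^ 2 / (C2 + 1))) (by positivity)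
    set i := current (S j) x a b with hi
    have hiflow : IsFlow (S j) a b i := current_flow x hej
    have hEi : mfin (S j) x e = w * energy (S j) x i := mfin_eq_energy x hej
    have hEi1 : energy (S j) x i ≤ 1 / w := by
      rw [le_div_iff₀ hw, mul_comm, ← hEi]; exact mfin_le_one _ _ _
    set R : ℕ → ℝ := fun n => ∑ f ∈ S j,
      |i f| * (C2 / Real.exp (-x f) + 1) * |Real.exp (-xs n f) - Real.exp (-x f)|
    have hR : Tendsto R atTop (𝓝 0) := by
      have hcont : Continuous fun y : Sym2 V → ℝ => ∑ f ∈ S j,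
          |i f| * (C2 / Real.exp (-x f) + 1) * |Real.exp (-y f) - Real.exp (-x f)| := by fun_prop
      have h0 := hcont.continuousAt.tendsto.comp hlimv
      simpa [R, Function.comp_def] using h0
    have hlow : Tendsto (fun n => Real.exp (xs n e) *
        (energy (S j) (xs n) i - 2 * (K + R n))) atTop
        (𝓝 (w * (energy (S j) x i - 2 * (K + 0)))) := by
      have hcont : Continuous fun y : Sym2 V → ℝ => energy (S j) y i := by
        unfold energy; fun_prop
      refine Tendsto.mul ((Real.continuous_exp.tendsto _).comp (hlim e)) ?_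
      exact (hcont.continuousAt.tendsto.comp hlimv).sub
        ((tendsto_const_nhds.add hR).const_mul 2)
    have hpos : r < w * (energy (S j) x i - 2 * (K + 0)) := by
      have h1 : mInf G x e ≤ w * energy (S j) x i := hEi ▸ mInf_le (hS.sub j) hej x
      have h2 : w * K = gap / 8 := by rw [hK]; field_simp
      nlinarith
    filter_upwards [hlow.eventually_const_lt hpos, eventually_ge_atTop j] with n hn hjn
    refine hn.trans_le ?_
    have hen : e ∈ S n := hS.mono hjn hej
    have hsub : S j ⊆ S n := hS.mono hjn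
    set k := current (S n) (xs n) a b with hk
    have hkflow : IsFlow (S n) a b k := current_flow _ hen
    have hifl : IsFlow (S n) a b i := hiflow.mono hsub
    rw [mfin_eq_energy (xs n) hen]
    refine mul_le_mul_of_nonneg_left ?_ (Real.exp_pos _).le
    have hkE : energy (S n) (xs n) k ≤ energy (S n) (xs n) i := by
      have := mfin_le_energy (xs n) hen hifl
      rw [mfin_eq_energy (xs n) hen] at this
      exact le_of_mul_le_mul_left this (Real.exp_pos _)
    have hcn : ∀ f, Real.exp (-x f) ≤ Real.exp c * Real.exp (-xs n f) ∧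
        Real.exp (-xs n f) ≤ Real.exp c * Real.exp (-x f) := by
      intro f
      have := abs_le.1 (hc n f)
      constructor <;> rw [← Real.exp_add] <;> apply Real.exp_le_exp.2 <;> linarith
    have hkx : energy (S n) x k ≤ Real.exp (2 * c) / w := by
      calc energy (S n) x k ≤ Real.exp c * energy (S n) (xs n) k := by
            rw [energy, energy, Finset.mul_sum]
            exact Finset.sum_le_sum fun f _ => by nlinarith [(hcn f).1, sq_nonneg (k f)]
        _ ≤ Real.exp c * energy (S n) (xs n) i :=
            mul_le_mul_of_nonneg_left hkE (Real.exp_pos _).le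
        _ ≤ Real.exp c * (Real.exp c * energy (S n) x i) := by
            refine mul_le_mul_of_nonneg_left ?_ (Real.exp_pos _).le
            rw [energy, energy, Finset.mul_sum]
            exact Finset.sum_le_sum fun f _ => by nlinarith [(hcn f).2, sq_nonneg (i f)]
        _ = Real.exp (2 * c) * energy (S n) x i := by
            rw [← mul_assoc, ← Real.exp_add, two_mul]
        _ ≤ Real.exp (2 * c) * (1 / w) := by
            rw [energy_mono_eq hsub hiflow]
            exact mul_le_mul_of_nonneg_left hEi1 (Real.exp_pos _).le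
        _ = Real.exp (2 * c) / w := by ring
    have hix : energy (S n) x i ≤ 1 / w := by rw [energy_mono_eq hsub hiflow]; exact hEi1
    set ψ : Sym2 V → ℝ := fun f => k f - i f with hψ
    have hψE : energy (S n) x ψ ≤ C2 := by
      calc energy (S n) x ψ ≤ 2 * energy (S n) x k + 2 * energy (S n) x i := by
            simp only [energy, Finset.mul_sum, ← Finset.sum_add_distrib]
            refine Finset.sum_le_sum fun f _ => ?_
            have : 0 ≤ (k f + i f) ^ 2 * Real.exp (-x f) :=
              mul_nonneg (sq_nonneg _) (Real.exp_pos _).le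
            simp only [hψ]; nlinarith
        _ ≤ 2 * (Real.exp (2 * c) / w) + 2 * (1 / w) := by linarith
        _ = C2 := by rw [hC2]; ring
    set D := ∑ f ∈ S j, i f * ψ f * Real.exp (-x f) with hD
    -- near optimality forces near orthogonality
    have hDK : -K ≤ D := by
      have hquad : ∀ s : ℝ, -(K ^ 2 / (C2 + 1)) ≤ 2 * s * D + s ^ 2 * energy (S n) x ψ := by
        intro s
        have h1 := mfin_le_energy x hen (hifl.segment hkflow s)
        have h2 : energy (S n) x (fun f => i f + s * (k f - i f))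
            = energy (S j) x i + 2 * s * D + s ^ 2 * energy (S n) x ψ := by
          have h3 : D = ∑ f ∈ S n, i f * ψ f * Real.exp (-x f) :=
            Finset.sum_subset hsub fun f _ hf => by rw [hiflow.1 f hf]; ring
          rw [← energy_mono_eq (θ := x) hsub hiflow, h3]
          simp only [energy, Finset.mul_sum, ← Finset.sum_add_distrib]
          exact Finset.sum_congr rfl fun f _ => by simp only [hψ]; ring
        have h4 : mInf G x e ≤ w * energy (S n) x (fun f => i f + s * (k f - i f)) :=
          (mInf_le (hS.sub n) hen x).trans h1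
        rw [h2] at h4
        rw [hEi] at hj
        nlinarith
      by_contra hcon
      push Not at hcon
      have h5 := hquad (-D / (C2 + 1))
      have h6 : (-D / (C2 + 1)) ^ 2 * energy (S n) x ψ ≤ (-D / (C2 + 1)) ^ 2 * (C2 + 1) :=
        mul_le_mul_of_nonneg_left (by linarith) (sq_nonneg _)
      have h7 : 2 * (-D / (C2 + 1)) * D + (-D / (C2 + 1)) ^ 2 * (C2 + 1)
          = -(D ^ 2 / (C2 + 1)) := by field_simp; ring
      have h8 : K ^ 2 / (C2 + 1) < D ^ 2 / (C2 + 1) :=
        (div_lt_div_iff_of_pos_right (by linarith)).2 (by nlinarith)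
      linarith
    have hDn : -(K + R n) ≤ ∑ f ∈ S j, i f * ψ f * Real.exp (-xs n f) := by
      have h1 : ∀ f ∈ S j, i f * ψ f * Real.exp (-x f)
          - |i f| * (C2 / Real.exp (-x f) + 1) * |Real.exp (-xs n f) - Real.exp (-x f)|
          ≤ i f * ψ f * Real.exp (-xs n f) := by
        intro f hf
        have hb : |ψ f| ≤ C2 / Real.exp (-x f) + 1 := by
          have h2 : ψ f ^ 2 * Real.exp (-x f) ≤ C2 :=
            (Finset.single_le_sum (f := fun g => ψ g ^ 2 * Real.exp (-x g))
              (fun g _ => mul_nonneg (sq_nonneg _) (Real.exp_pos _).le) (hsub hf)).trans hψE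
          rw [← le_div_iff₀ (Real.exp_pos _)] at h2
          nlinarith [sq_nonneg (|ψ f| - 1), sq_abs (ψ f), abs_nonneg (ψ f)]
        have h3 : |i f * ψ f * (Real.exp (-xs n f) - Real.exp (-x f))| ≤
            |i f| * (C2 / Real.exp (-x f) + 1) * |Real.exp (-xs n f) - Real.exp (-x f)| := by
          rw [abs_mul, abs_mul]
          gcongr
        have := (abs_le.1 h3).1
        linarith
      have h2 := Finset.sum_le_sum h1
      rw [Finset.sum_sub_distrib] at h2
      linarith
    have hexp : energy (S n) (xs n) i + 2 * (∑ f ∈ S j, i f * ψ f * Real.exp (-xs n f))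
        ≤ energy (S n) (xs n) k := by
      have h3 : (∑ f ∈ S j, i f * ψ f * Real.exp (-xs n f))
          = ∑ f ∈ S n, i f * ψ f * Real.exp (-xs n f) :=
        Finset.sum_subset hsub fun f _ hf => by rw [hiflow.1 f hf]; ring
      rw [h3, energy, energy, Finset.mul_sum, ← Finset.sum_add_distrib]
      refine Finset.sum_le_sum fun f _ => ?_
      have : 0 ≤ (k f - i f) ^ 2 * Real.exp (-xs n f) :=
        mul_nonneg (sq_nonneg _) (Real.exp_pos _).le
      simp only [hψ]; nlinarith
    rw [← energy_mono_eq (θ := xs n) hsub hiflow]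
    linarith
  · intro r hr
    obtain ⟨j, hej, hj⟩ := hopt ((r - mInf G x e) / 2) (by linarith)
    have h1 : Tendsto (fun n => mfin (S j) (xs n) e) atTop (𝓝 (mfin (S j) x e)) :=
      (continuous_mfin (S j) e).continuousAt.tendsto.comp hlimv
    filter_upwards [h1.eventually_lt_const (show mfin (S j) x e < r by linarith),
      eventually_ge_atTop j] with n hn hjn
    exact (mfin_antitone (hS.mono hjn) (xs n) hej).trans_lt hn

end Vale.Agent.P143
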