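import Vale.Agent.P143.FiniteLimit
import Vale.Agent.P143.Infinite

/-!
# The factor map and its law
-/

namespace Vale.Agent.P143

open MeasureTheory ProbabilityTheory Filter Topology Finset Real
open scoped Classical NNReal ENNReal unitInterval

attribute [local irreducible] path edgePath

variable {V : Type}

/-- The marginals at time `16 ^ k` of the localization process on the infinite graph. -/
noncomputable def outSeq (G : SimpleGraph V) (U : V → I) (k : ℕ) (e : Sym2 V) : ℝ :=
  mInf G (sol (mInf G) (edgePath G U) ((16 ^ k : ℕ) : ℝ)) e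

/-- The factor map. -/
noncomputable def fusfFactor (G : SimpleGraph V) (U : V → I) (e : Sym2 V) : Bool :=
  decide (1 / 2 < limsup (fun k => outSeq G U k e) atTop)

variable [Countable V]

omit [Countable V] in
lemma measurableSet_edge {Ω : Type} [MeasurableSpace Ω] {G : Ω → SimpleGraph V}
    (hG : ∀ a b, MeasurableSet {ω | (G ω).Adj a b}) (e : Sym2 V) :
    MeasurableSet {ω | e ∈ (G ω).edgeSet} := by
  induction e using Sym2.ind with
  | h a b => simpa [SimpleGraph.mem_edgeSet] using hG a b

lemma measurable_mInf_param {Ω : Type} [MeasurableSpace Ω] {G : Ω → SimpleGraph V}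
    (hG : ∀ a b, MeasurableSet {ω | (G ω).Adj a b}) :
    Measurable fun p : Ω × (Sym2 V → ℝ) => mInf (G p.1) p.2 := by
  refine measurable_pi_lambda _ fun e => ?_
  unfold mInf
  refine Measurable.ite (measurable_fst (measurableSet_edge hG e)) ?_ measurable_const
  refine Measurable.iInf fun S => ?_
  refine Measurable.ite ?_ ((continuous_mfin S e).measurable.comp measurable_snd) measurable_const
  have : MeasurableSet {ω | (S : Set (Sym2 V)) ⊆ (G ω).edgeSet ∧ e ∈ S} := by
    by_cases he : e ∈ S
    · have h : {ω | (S : Set (Sym2 V)) ⊆ (G ω).edgeSet ∧ e ∈ S}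
          = ⋂ f ∈ (S : Set (Sym2 V)), {ω | f ∈ (G ω).edgeSet} := by
        ext ω; simp [Set.subset_def, he]
      rw [h]
      exact MeasurableSet.biInter S.countable_toSet fun f _ => measurableSet_edge hG f
    · simp [he]
  exact measurable_fst this

lemma fieldOk_mInf (G : SimpleGraph V) : FieldOk (mInf G) where
  meas := by
    have h1 : Measurable fun θ : Sym2 V → ℝ => (((), θ) : Unit × (Sym2 V → ℝ)) :=
      measurable_prodMk_left
    have h2 := (measurable_mInf_param (Ω := Unit) (G := fun _ => G)
      (fun _ _ => MeasurableSet.const _)).fun_comp h1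
    simpa only using h2
  nonneg := mInf_nonneg G
  le_one := mInf_le_one G
  lip := fun _ _ _ hδ h e => mInf_lipschitz G hδ h e

lemma measurable_outSeq_param {Ω : Type} [MeasurableSpace Ω] {G : Ω → SimpleGraph V}
    {U : Ω → V → I} (hG : ∀ a b, MeasurableSet {ω | (G ω).Adj a b}) (hU : Measurable U) (k : ℕ) :
    Measurable fun ω => outSeq (G ω) (U ω) k := by
  have hM := measurable_mInf_param hG
  have hs := measurable_sol_param (M := fun ω => mInf (G ω))
    (B := fun ω => edgePath (G ω) (U ω)) hM (measurable_edgePath_param hG hU)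
  have h1 : Measurable fun ω => (ω, sol (mInf (G ω)) (edgePath (G ω) (U ω)) ((16 ^ k : ℕ) : ℝ)) :=
    measurable_id.prodMk (hs.fun_comp (measurable_id.prodMk measurable_const))
  exact hM.fun_comp h1

lemma measurable_fusfFactor_param {Ω : Type} [MeasurableSpace Ω] {G : Ω → SimpleGraph V}
    {U : Ω → V → I} (hG : ∀ a b, MeasurableSet {ω | (G ω).Adj a b}) (hU : Measurable U) :
    Measurable fun ω => fusfFactor (G ω) (U ω) := by
  refine measurable_pi_lambda _ fun e => ?_
  have h : Measurable fun ω => limsup (fun k => outSeq (G ω) (U ω) k e) atTop :=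
    Measurable.limsup fun k => (measurable_pi_apply e).comp (measurable_outSeq_param hG hU k)
  refine measurable_to_bool ?_
  have : (fun ω => fusfFactor (G ω) (U ω) e) ⁻¹' {true}
      = {ω | 1 / 2 < limsup (fun k => outSeq (G ω) (U ω) k e) atTop} := by
    ext ω; simp [fusfFactor]
  rw [this]
  exact measurableSet_lt measurable_const h

lemma measurable_outSeq (G : SimpleGraph V) (k : ℕ) : Measurable fun U : V → I => outSeq G U k :=
  measurable_outSeq_param (G := fun _ => G) (fun _ _ => MeasurableSet.const _) measurable_id k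

lemma measurable_fusfFactor (G : SimpleGraph V) : Measurable (fusfFactor G) :=
  measurable_fusfFactor_param (G := fun _ => G) (fun _ _ => MeasurableSet.const _) measurable_id

/-- The finite solutions converge to the infinite one. -/
lemma pic_tendsto {G : SimpleGraph V} {S : ℕ → Finset (Sym2 V)} (hS : EdgeExh G S)
    {B : ℝ → Sym2 V → ℝ} (hB : Measurable B) (k : ℕ) :
    ∀ t : ℝ, 0 ≤ t → ∀ e, Tendsto (fun n => pic (mfin (S n)) B k t e) atTop
      (𝓝 (pic (mInf G) B k t e)) := by
  induction k with
  | zero => intro t _ e; simp only [pic_zero]; exact tendsto_const_nhds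
  | succ k ih =>
    intro t ht e
    simp only [pic_succ]
    refine tendsto_integral_of_dominated_convergence (fun _ => (1:ℝ))
      (fun n => (integrableOn_field (fieldOk_mfin (S n))
        (measurable_arg (fieldOk_mfin (S n)) hB k) 0 t e).1)
      (integrableOn_const measure_Ioc_lt_top.ne)
      (fun n => Eventually.of_forall fun s => by
        rw [Real.norm_eq_abs, abs_of_nonneg (mfin_nonneg _ _ _)]; exact mfin_le_one _ _ _) ?_
    filter_upwards [ae_restrict_mem measurableSet_Ioc] with s hs
    refine tendsto_mfin hS (c := s) (fun f => (ih s hs.1.le f).const_add _) (fun n f => ?_) e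
    simp only [add_sub_add_left_eq_sub]
    rw [abs_le]
    have := pic_nonneg (B := B) (fieldOk_mfin (S n)) k s f
    have := pic_le (B := B) (fieldOk_mfin (S n)) k hs.1.le f
    have := pic_nonneg (B := B) (fieldOk_mInf G) k s f
    have := pic_le (B := B) (fieldOk_mInf G) k hs.1.le f
    constructor <;> linarith

lemma solS_tendsto {G : SimpleGraph V} {S : ℕ → Finset (Sym2 V)} (hS : EdgeExh G S) (U : V → I)
    {t : ℝ} (ht : 0 ≤ t) (e : Sym2 V) :
    Tendsto (fun n => mfin (S n) (solS G (S n) U t) e) atTop
      (𝓝 (mInf G (sol (mInf G) (edgePath G U) t) e)) := by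
  have hB := measurable_edgePath_time G U
  set B := edgePath G U
  have hd : ∀ f, Tendsto (fun n => drift (mfin (S n)) B t f) atTop (𝓝 (drift (mInf G) B t f)) := by
    intro f
    rw [Metric.tendsto_atTop]
    intro ε hε
    have h0 : Tendsto (fun k : ℕ => 2 * (1 / 2 : ℝ) ^ k * Real.exp (4 * t)) atTop (𝓝 0) := by
      simpa using ((tendsto_pow_atTop_nhds_zero_of_lt_one (by norm_num : (0:ℝ) ≤ 1/2)
        (by norm_num)).const_mul 2).mul_const (Real.exp (4 * t))
    obtain ⟨k, hk⟩ := (h0.eventually_lt_const (show (0:ℝ) < ε / 3 by linarith)).exists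
    obtain ⟨N, hN⟩ := Metric.tendsto_atTop.1 (pic_tendsto hS hB k t ht f) (ε / 3) (by linarith)
    refine ⟨N, fun n hn => ?_⟩
    have h1 := (cauchy_pic (fieldOk_mfin (S n)) hB ht f).2 k
    have h2 := (cauchy_pic (fieldOk_mInf G) hB ht f).2 k
    have h3 := hN n hn
    rw [Real.dist_eq] at h3 ⊢
    rw [abs_lt] at h3 ⊢
    rw [abs_le] at h1 h2
    constructor <;> linarith
  refine tendsto_mfin hS (c := t) (fun f => (hd f).const_add _) (fun n f => ?_) e
  simp only [B, add_sub_add_left_eq_sub]
  rw [abs_le]
  have := drift_nonneg (fieldOk_mfin (S n)) hB ht f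
  have := drift_le (fieldOk_mfin (S n)) hB ht f
  have := drift_nonneg (fieldOk_mInf G) hB ht f
  have := drift_le (fieldOk_mInf G) hB ht f
  constructor <;> linarith

lemma sqrt_sixteen (k : ℕ) : 1 / Real.sqrt ((16 ^ k : ℕ) : ℝ) = (1 / 4) ^ k := by
  push_cast
  rw [show (16:ℝ) ^ k = (4 ^ k) ^ 2 by rw [← pow_mul, mul_comm, pow_mul]; norm_num,
    Real.sqrt_sq (by positivity), one_div_pow]

lemma measurable_mfin_solS (G : SimpleGraph V) (S : Finset (Sym2 V)) (t : ℝ) (e : Sym2 V) :
    Measurable fun U : V → I => mfin S (solS G S U t) e :=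
  (continuous_mfin S e).measurable.fun_comp (measurable_solS G S t)

lemma outSeq_var {G : SimpleGraph V} (hlf : ∀ v, (G.neighborSet v).Finite)
    {S : ℕ → Finset (Sym2 V)} (hS : EdgeExh G S) (e : Sym2 V) (k : ℕ) :
    ∫ U, outSeq G U k e * (1 - outSeq G U k e) ∂labels V ≤ (1 / 4) ^ k := by
  have hlim : Tendsto (fun n => ∫ U, mfin (S n) (solS G (S n) U ((16 ^ k : ℕ) : ℝ)) e
      * (1 - mfin (S n) (solS G (S n) U ((16 ^ k : ℕ) : ℝ)) e) ∂labels V) atTop
      (𝓝 (∫ U, outSeq G U k e * (1 - outSeq G U k e) ∂labels V)) := by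
    refine tendsto_integral_of_dominated_convergence (fun _ => (1:ℝ))
      (fun n => ((measurable_mfin_solS G (S n) _ e).mul
        ((measurable_mfin_solS G (S n) _ e).const_sub 1)).aestronglyMeasurable)
      (integrable_const _) (fun n => Eventually.of_forall fun U => ?_)
      (Eventually.of_forall fun U => ?_)
    · rw [Real.norm_eq_abs]
      have h0 := mfin_nonneg (S n) (solS G (S n) U ((16 ^ k : ℕ) : ℝ)) e
      have h1 := mfin_le_one (S n) (solS G (S n) U ((16 ^ k : ℕ) : ℝ)) e
      rw [abs_le]; constructor <;> nlinarith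
    · exact (solS_tendsto hS U (Nat.cast_nonneg _) e).mul
        ((solS_tendsto hS U (Nat.cast_nonneg _) e).const_sub 1)
  refine le_of_tendsto' hlim fun n => ?_
  rw [← sqrt_sixteen]
  exact finite_var hlf (hS.sub n) e (by positivity)

lemma outSeq_step {G : SimpleGraph V} (hlf : ∀ v, (G.neighborSet v).Finite)
    {S : ℕ → Finset (Sym2 V)} (hS : EdgeExh G S) (e : Sym2 V) (k : ℕ) :
    ∫ U, |outSeq G U (k + 1) e - outSeq G U k e| ∂labels V ≤ (1 / 2) ^ k := by
  have hsq : ∫ U, (outSeq G U (k + 1) e - outSeq G U k e) ^ 2 ∂labels V ≤ (1 / 4) ^ k := by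
    have hlim : Tendsto (fun n => ∫ U, (mfin (S n) (solS G (S n) U ((16 ^ (k + 1) : ℕ) : ℝ)) e
        - mfin (S n) (solS G (S n) U ((16 ^ k : ℕ) : ℝ)) e) ^ 2 ∂labels V) atTop
        (𝓝 (∫ U, (outSeq G U (k + 1) e - outSeq G U k e) ^ 2 ∂labels V)) := by
      refine tendsto_integral_of_dominated_convergence (fun _ => (1:ℝ))
        (fun n => (((measurable_mfin_solS G (S n) _ e).sub
          (measurable_mfin_solS G (S n) _ e)).pow_const 2).aestronglyMeasurable)
        (integrable_const _) (fun n => Eventually.of_forall fun U => ?_)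
        (Eventually.of_forall fun U => ?_)
      · rw [Real.norm_eq_abs]
        have h0 := mfin_nonneg (S n) (solS G (S n) U ((16 ^ k : ℕ) : ℝ)) e
        have h1 := mfin_le_one (S n) (solS G (S n) U ((16 ^ k : ℕ) : ℝ)) e
        have h2 := mfin_nonneg (S n) (solS G (S n) U ((16 ^ (k + 1) : ℕ) : ℝ)) e
        have h3 := mfin_le_one (S n) (solS G (S n) U ((16 ^ (k + 1) : ℕ) : ℝ)) e
        rw [abs_le]; constructor <;> nlinarith
      · exact ((solS_tendsto hS U (Nat.cast_nonneg _) e).sub
          (solS_tendsto hS U (Nat.cast_nonneg _) e)).pow 2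
    refine le_of_tendsto' hlim fun n => ?_
    rw [← sqrt_sixteen]
    exact finite_cauchy hlf (hS.sub n) e (by positivity)
      (Nat.pow_le_pow_right (by norm_num) (by omega))
  have hm : Measurable fun U : V → I => outSeq G U (k + 1) e - outSeq G U k e :=
    ((measurable_pi_apply e).comp (measurable_outSeq G (k + 1))).sub
      ((measurable_pi_apply e).comp (measurable_outSeq G k))
  have hb : ∀ U : V → I, |outSeq G U (k + 1) e - outSeq G U k e| ≤ 1 := fun U => by
    have := mInf_nonneg G (sol (mInf G) (edgePath G U) ((16 ^ k : ℕ) : ℝ)) e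
    have := mInf_le_one G (sol (mInf G) (edgePath G U) ((16 ^ k : ℕ) : ℝ)) e
    have := mInf_nonneg G (sol (mInf G) (edgePath G U) ((16 ^ (k + 1) : ℕ) : ℝ)) e
    have := mInf_le_one G (sol (mInf G) (edgePath G U) ((16 ^ (k + 1) : ℕ) : ℝ)) e
    simp only [outSeq]
    rw [abs_le]; constructor <;> linarith
  have hi : Integrable (fun U => |outSeq G U (k + 1) e - outSeq G U k e|) (labels V) :=
    (integrable_unit hm hb).abs
  have hi2 : Integrable (fun U => (outSeq G U (k + 1) e - outSeq G U k e) ^ 2) (labels V) :=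
    integrable_unit (hm.pow_const 2) fun U => by
      rw [abs_pow]; exact pow_le_one₀ (abs_nonneg _) (hb U)
  calc ∫ U, |outSeq G U (k + 1) e - outSeq G U k e| ∂labels V
      ≤ ∫ U, ((outSeq G U (k + 1) e - outSeq G U k e) ^ 2 * 2 ^ k + (1 / 2) ^ k) / 2 ∂labels V := by
        refine integral_mono hi (((hi2.mul_const _).add (integrable_const _)).div_const _) fun U => ?_
        set x := outSeq G U (k + 1) e - outSeq G U k e
        have h1 : 0 ≤ ((1 / 2 : ℝ) ^ k) * (|x| * 2 ^ k - 1) ^ 2 := by positivity
        have h2 : (1 / 2 : ℝ) ^ k * 2 ^ k = 1 := by rw [← mul_pow]; norm_num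
        have h3 : ((1 / 2 : ℝ) ^ k) * (|x| * 2 ^ k - 1) ^ 2
            = x ^ 2 * 2 ^ k * ((1 / 2) ^ k * 2 ^ k) - 2 * |x| * ((1 / 2) ^ k * 2 ^ k)
              + (1 / 2) ^ k := by rw [← sq_abs x]; ring
        rw [h2] at h3
        show |x| ≤ (x ^ 2 * 2 ^ k + (1 / 2) ^ k) / 2
        linarith
    _ ≤ ((1 / 4) ^ k * 2 ^ k + (1 / 2) ^ k) / 2 := by
        rw [integral_div, integral_add (hi2.mul_const _) (integrable_const _), integral_mul_const]
        simp only [integral_const, probReal_univ, smul_eq_mul, one_mul]
        gcongr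
    _ = (1 / 2) ^ k := by
        rw [← mul_pow, show (1 / 4 : ℝ) * 2 = 1 / 2 by norm_num]; ring

/-- Almost surely the marginals converge to the indicator of the output. -/
lemma outSeq_ae_tendsto {G : SimpleGraph V} (hlf : ∀ v, (G.neighborSet v).Finite)
    {S : ℕ → Finset (Sym2 V)} (hS : EdgeExh G S) :
    ∀ᵐ U ∂labels V, ∀ e, Tendsto (fun k => outSeq G U k e) atTop
      (𝓝 (if fusfFactor G U e = true then 1 else 0)) := by
  rw [ae_all_iff]
  intro e
  have hmk : ∀ k, Measurable fun U : V → I => outSeq G U k e :=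
    fun k => (measurable_pi_apply e).comp (measurable_outSeq G k)
  have h01 : ∀ (U : V → I) k, 0 ≤ outSeq G U k e ∧ outSeq G U k e ≤ 1 :=
    fun U k => ⟨mInf_nonneg _ _ _, mInf_le_one _ _ _⟩
  have hsum : ∀ᵐ U ∂labels V, Summable fun k => |outSeq G U (k + 1) e - outSeq G U k e| := by
    have hfin : ∫⁻ U, ∑' k, ENNReal.ofReal |outSeq G U (k + 1) e - outSeq G U k e| ∂labels V
        ≠ ⊤ := by
      have hm : ∀ k, Measurable fun U : V → I =>
          ENNReal.ofReal |outSeq G U (k + 1) e - outSeq G U k e| := fun k =>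
        ((hmk (k + 1)).sub (hmk k)).abs.ennreal_ofReal
      rw [lintegral_tsum fun k => (hm k).aemeasurable]
      refine ne_top_of_le_ne_top ?_
        (ENNReal.tsum_le_tsum (g := fun k => ENNReal.ofReal ((1 / 2 : ℝ) ^ k)) fun k => ?_)
      · rw [← ENNReal.ofReal_tsum_of_nonneg (fun k => by positivity)
          (summable_geometric_of_lt_one (by norm_num) (by norm_num))]
        exact ENNReal.ofReal_ne_top
      · rw [← ofReal_integral_eq_lintegral_ofReal ?_ (Eventually.of_forall fun U => abs_nonneg _)]
        · exact ENNReal.ofReal_le_ofReal (outSeq_step hlf hS e k)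
        · exact (integrable_unit (f := fun U => outSeq G U (k + 1) e - outSeq G U k e)
            ((hmk (k + 1)).sub (hmk k)) fun U => by
              have := h01 U k
              have := h01 U (k + 1)
              rw [abs_le]; constructor <;> linarith).abs
    have hae := ae_lt_top' (Measurable.tsum (L := SummationFilter.unconditional ℕ)
      fun k => ((hmk (k + 1)).sub (hmk k)).abs.ennreal_ofReal).aemeasurable hfin
    filter_upwards [hae] with U hU
    have := ENNReal.summable_toReal hU.ne
    simpa [ENNReal.toReal_ofReal (abs_nonneg _)] using this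
  set L : (V → I) → ℝ := fun U => limsup (fun k => outSeq G U k e) atTop
  have hconv : ∀ᵐ U ∂labels V, Tendsto (fun k => outSeq G U k e) atTop (𝓝 (L U)) := by
    filter_upwards [hsum] with U hU
    have hd : Summable fun k => dist (outSeq G U k e) (outSeq G U (k + 1) e) := by
      simpa [Real.dist_eq, abs_sub_comm] using hU
    obtain ⟨l, hl⟩ := cauchySeq_tendsto_of_complete (cauchySeq_of_summable_dist hd)
    have : L U = l := hl.limsup_eq
    rw [this]; exact hl
  have hLm : Measurable L := Measurable.limsup hmk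
  have hvar : ∀ᵐ U ∂labels V, L U * (1 - L U) = 0 := by
    have hlim : Tendsto (fun k => ∫ U, outSeq G U k e * (1 - outSeq G U k e) ∂labels V) atTop
        (𝓝 (∫ U, L U * (1 - L U) ∂labels V)) := by
      refine tendsto_integral_of_dominated_convergence (fun _ => (1:ℝ))
        (fun k => ((hmk k).mul ((hmk k).const_sub 1)).aestronglyMeasurable) (integrable_const _)
        (fun k => Eventually.of_forall fun U => ?_) ?_
      · rw [Real.norm_eq_abs]
        have := h01 U k
        rw [abs_le]; constructor <;> nlinarith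
      · filter_upwards [hconv] with U hU
        exact hU.mul (hU.const_sub 1)
    have h0 : ∫ U, L U * (1 - L U) ∂labels V ≤ 0 :=
      le_of_tendsto_of_tendsto' hlim
        (tendsto_pow_atTop_nhds_zero_of_lt_one (by norm_num : (0:ℝ) ≤ 1/4) (by norm_num))
        fun k => outSeq_var hlf hS e k
    have hnn : 0 ≤ᵐ[labels V] fun U => L U * (1 - L U) := by
      filter_upwards [hconv] with U hU
      exact ge_of_tendsto' (hU.mul (hU.const_sub 1)) fun k =>
        mul_nonneg (h01 U k).1 (by linarith [(h01 U k).2])
    have hint : Integrable (fun U => L U * (1 - L U)) (labels V) := by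
      refine Integrable.of_bound (hLm.mul (hLm.const_sub 1)).aestronglyMeasurable 1 ?_
      filter_upwards [hconv] with U hU
      have h0 : 0 ≤ L U := ge_of_tendsto' hU fun k => (h01 U k).1
      have h1 : L U ≤ 1 := le_of_tendsto' hU fun k => (h01 U k).2
      rw [Real.norm_eq_abs, abs_le]; constructor <;> nlinarith
    exact (integral_eq_zero_iff_of_nonneg_ae hnn hint).1
      (le_antisymm h0 (integral_nonneg_of_ae hnn))
  filter_upwards [hconv, hvar] with U hU hv
  rcases mul_eq_zero.1 hv with h | h
  · have : fusfFactor G U e = false := by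
      simp only [fusfFactor, decide_eq_false_iff_not]
      change ¬ (1 / 2 < L U)
      linarith
    simpa [this, ← h] using hU
  · have h1 : L U = 1 := by linarith
    have : fusfFactor G U e = true := by
      simp only [fusfFactor, decide_eq_true_eq]
      change 1 / 2 < L U
      linarith
    simpa [this, ← h1] using hU

/-- The law of the factor is the limit of the finite cylinder probabilities. -/
lemma factor_law {G : SimpleGraph V} (hlf : ∀ v, (G.neighborSet v).Finite)
    {S : ℕ → Finset (Sym2 V)} (hS : EdgeExh G S) (A : Finset (Sym2 V)) (η : Sym2 V → Bool) :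
    Tendsto (fun n => ∑ W ∈ bases (S n),
        if (∀ e ∈ A, (e ∈ W ↔ η e = true)) then prb (bases (S n)) (fun _ => 0) W else 0) atTop
      (𝓝 (((labels V).map (fusfFactor G)).real {X | ∀ e ∈ A, X e = η e})) := by
  set C : Set (Sym2 V → Bool) := {X | ∀ e ∈ A, X e = η e}
  have hC : MeasurableSet C := by
    have : C = ⋂ e ∈ (A : Set (Sym2 V)), (fun X : Sym2 V → Bool => X e) ⁻¹' {η e} := by
      ext X; simp [C]
    rw [this]
    exact MeasurableSet.biInter A.countable_toSet fun e _ =>
      measurable_pi_apply e (measurableSet_singleton _)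
  have hCU : MeasurableSet (fusfFactor G ⁻¹' C) := measurable_fusfFactor G hC
  rw [map_measureReal_apply (measurable_fusfFactor G) hC, ← integral_indicator_one hCU]
  set μc := ∫ U, (fusfFactor G ⁻¹' C).indicator (1 : (V → I) → ℝ) U ∂labels V
  set Q : ℕ → ℝ := fun k => ∫ U, cylProd (outSeq G U k) A η ∂labels V
  have hQ : Tendsto Q atTop (𝓝 μc) := by
    refine tendsto_integral_of_dominated_convergence (fun _ => (1:ℝ))
      (fun k => (Finset.measurable_prod A fun e _ => by
        split_ifs
        · exact (measurable_pi_apply e).comp (measurable_outSeq G k)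
        · exact ((measurable_pi_apply e).comp (measurable_outSeq G k)).const_sub _
        ).aestronglyMeasurable)
      (integrable_const _) (fun k => Eventually.of_forall fun U => ?_) ?_
    · rw [Real.norm_eq_abs]
      exact abs_cylProd_le (fun _ => mInf_nonneg _ _ _) (fun _ => mInf_le_one _ _ _) A η
    · filter_upwards [outSeq_ae_tendsto hlf hS] with U hU
      have hval : (fusfFactor G ⁻¹' C).indicator (1 : (V → I) → ℝ) U
          = ∏ e ∈ A, (if fusfFactor G U e = η e then (1:ℝ) else 0) := by
        by_cases h : ∀ e ∈ A, fusfFactor G U e = η e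
        · rw [Set.indicator_of_mem (show U ∈ fusfFactor G ⁻¹' C from h),
            Finset.prod_eq_one fun e he => if_pos (h e he), Pi.one_apply]
        · rw [Set.indicator_of_notMem (show U ∉ fusfFactor G ⁻¹' C from h)]
          push Not at h
          obtain ⟨e, he, hne⟩ := h
          exact (Finset.prod_eq_zero he (if_neg hne)).symm
      rw [hval]
      refine tendsto_finsetProd A fun e _ => ?_
      have h := hU e
      cases hη : η e <;> cases hX : fusfFactor G U e <;> simp [hX] at h ⊢
      · simpa using h.const_sub 1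
      · simpa using h.const_sub 1
      · exact h
      · exact h
  rw [Metric.tendsto_atTop]
  intro ε hε
  have h4 : Tendsto (fun k : ℕ => 2 * (A.card : ℝ) * (1 / 4) ^ k) atTop (𝓝 0) := by
    simpa using (tendsto_pow_atTop_nhds_zero_of_lt_one (by norm_num : (0:ℝ) ≤ 1/4)
      (by norm_num)).const_mul (2 * (A.card : ℝ))
  obtain ⟨k, hk1, hk2⟩ : ∃ k, |Q k - μc| < ε / 3 ∧ 2 * (A.card : ℝ) * (1 / 4) ^ k < ε / 3 := by
    have h1 : ∀ᶠ k in atTop, |Q k - μc| < ε / 3 := by
      have := Metric.tendsto_nhds.1 hQ (ε / 3) (by linarith)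
      simpa [Real.dist_eq] using this
    exact (h1.and (h4.eventually_lt_const (by linarith))).exists
  have hn : Tendsto (fun n => ∫ U, cylProd (mfin (S n) (solS G (S n) U ((16 ^ k : ℕ) : ℝ))) A η
      ∂labels V) atTop (𝓝 (Q k)) := by
    refine tendsto_integral_of_dominated_convergence (fun _ => (1:ℝ))
      (fun n => (Finset.measurable_prod A fun e _ => by
        split_ifs
        · exact measurable_mfin_solS G (S n) _ e
        · exact (measurable_mfin_solS G (S n) _ e).const_sub _).aestronglyMeasurable)
      (integrable_const _) (fun n => Eventually.of_forall fun U => ?_)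
      (Eventually.of_forall fun U => ?_)
    · rw [Real.norm_eq_abs]
      exact abs_cylProd_le (mfin_nonneg _ _) (mfin_le_one _ _) A η
    · refine tendsto_finsetProd A fun e _ => ?_
      split_ifs
      · exact solS_tendsto hS U (Nat.cast_nonneg _) e
      · exact (solS_tendsto hS U (Nat.cast_nonneg _) e).const_sub 1
  obtain ⟨N, hN⟩ := Metric.tendsto_atTop.1 hn (ε / 3) (by linarith)
  refine ⟨N, fun n hn => ?_⟩
  have h1 := finite_event hlf (hS.sub n) A η (T := 16 ^ k) (by positivity)
  rw [sqrt_sixteen] at h1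
  have h2 := hN n hn
  rw [Real.dist_eq] at h2 ⊢
  rw [abs_lt] at hk1 h2 ⊢
  rw [abs_le] at h1
  constructor <;> linarith

end Vale.Agent.P143
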