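import Vale.Agent.P143.Limit

/-!
# The factor commutes with isomorphisms of graphs; Cayley graphs
-/

namespace Vale.Agent.P143

open Finset Real Filter Topology MeasureTheory
open scoped Classical unitInterval

variable {V W : Type} (φ : V ≃ W)

/-- The induced bijection of pairs. -/
def pairMap : Sym2 V ≃ Sym2 W where
  toFun := Sym2.map φ
  invFun := Sym2.map φ.symm
  left_inv e := by simp [Sym2.map_map]
  right_inv e := by simp [Sym2.map_map]

lemma pairMap_apply (e : Sym2 V) : pairMap φ e = e.map φ := rfl

lemma conn_image {C : Finset (Sym2 V)} {u v : V} (h : Conn C u v) :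
    Conn (C.image (pairMap φ)) (φ u) (φ v) := by
  refine Relation.ReflTransGen.lift φ (fun a b hab => ?_) u v h
  exact Finset.mem_image.2 ⟨s(a, b), hab, rfl⟩

lemma conn_image_iff {C : Finset (Sym2 V)} {u v : V} :
    Conn (C.image (pairMap φ)) (φ u) (φ v) ↔ Conn C u v := by
  refine ⟨fun h => ?_, conn_image φ⟩
  have h2 := conn_image φ.symm h
  have hid : (C.image (pairMap φ)).image (pairMap φ.symm) = C := by
    ext e
    simp [pairMap_apply, Sym2.map_map]
  rw [hid, φ.symm_apply_apply, φ.symm_apply_apply] at h2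
  exact h2

lemma forest_image {C : Finset (Sym2 V)} : Forest (C.image (pairMap φ)) ↔ Forest C := by
  constructor
  · intro h u v huv hc
    refine h (φ u) (φ v) (Finset.mem_image.2 ⟨s(u, v), huv, rfl⟩) ?_
    have : (C.image (pairMap φ)).erase s(φ u, φ v) = (C.erase s(u, v)).image (pairMap φ) := by
      rw [Finset.image_erase (pairMap φ).injective]; rfl
    rw [this]
    exact conn_image φ hc
  · intro h u v huv hc
    obtain ⟨a, rfl⟩ := φ.surjective u
    obtain ⟨b, rfl⟩ := φ.surjective v
    have he : s(φ a, φ b) = pairMap φ s(a, b) := rfl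
    rw [he] at huv hc
    rw [← Finset.image_erase (pairMap φ).injective, conn_image_iff] at hc
    exact h a b ((pairMap φ).injective.mem_finset_image.1 huv) hc

lemma isBase_image {S T : Finset (Sym2 V)} :
    IsBase (S.image (pairMap φ)) (T.image (pairMap φ)) ↔ IsBase S T := by
  unfold IsBase
  rw [Finset.image_subset_image_iff (pairMap φ).injective, forest_image]
  refine and_congr_right fun _ => and_congr_right fun _ => ⟨fun h u v huv => ?_, fun h u v huv => ?_⟩
  · exact (conn_image_iff φ).1 (h (φ u) (φ v) (Finset.mem_image.2 ⟨s(u, v), huv, rfl⟩))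
  · obtain ⟨a, rfl⟩ := φ.surjective u
    obtain ⟨b, rfl⟩ := φ.surjective v
    have he : s(φ a, φ b) = pairMap φ s(a, b) := rfl
    rw [he] at huv
    exact conn_image φ (h a b ((pairMap φ).injective.mem_finset_image.1 huv))

lemma bases_image (S : Finset (Sym2 V)) :
    bases (S.image (pairMap φ)) = (bases S).image (fun T => T.image (pairMap φ)) := by
  ext U
  simp only [mem_bases, Finset.mem_image]
  constructor
  · intro h
    refine ⟨U.image (pairMap φ).symm, ?_, by simp [Finset.image_image]⟩
    rw [← isBase_image φ]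
    simpa [Finset.image_image] using h
  · rintro ⟨T, hT, rfl⟩
    exact (isBase_image φ).2 hT

lemma mfin_image (S : Finset (Sym2 V)) (θ : Sym2 W → ℝ) (e : Sym2 V) :
    mfin (S.image (pairMap φ)) θ (pairMap φ e) = mfin S (fun f => θ (pairMap φ f)) e := by
  have hinj : Function.Injective fun T : Finset (Sym2 V) => T.image (pairMap φ) :=
    Finset.image_injective (pairMap φ).injective
  have hwt : ∀ T : Finset (Sym2 V),
      wt θ (T.image (pairMap φ)) = wt (fun f => θ (pairMap φ f)) T := fun T => by
    rw [wt, wt, Finset.sum_image fun a _ b _ h => (pairMap φ).injective h]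
  have hpart : part (bases (S.image (pairMap φ))) θ
      = part (bases S) (fun f => θ (pairMap φ f)) := by
    rw [part, part, bases_image, Finset.sum_image fun a _ b _ h => hinj h]
    exact Finset.sum_congr rfl fun T _ => hwt T
  unfold mfin marg prb
  rw [hpart, bases_image, Finset.sum_image fun a _ b _ h => hinj h]
  refine Finset.sum_congr rfl fun T _ => ?_
  rw [hwt]
  by_cases he : e ∈ T
  · rw [if_pos he, if_pos]
    exact Finset.mem_image.2 ⟨e, he, rfl⟩
  · rw [if_neg he, if_neg]
    intro h
    obtain ⟨a, ha, hae⟩ := Finset.mem_image.1 h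
    exact he ((pairMap φ).injective hae ▸ ha)

variable {G : SimpleGraph V} {G' : SimpleGraph W} (ψ : G ≃g G')

lemma pairMap_edge (e : Sym2 V) : pairMap ψ.toEquiv e ∈ G'.edgeSet ↔ e ∈ G.edgeSet := by
  induction e using Sym2.ind with
  | h a b => simpa [pairMap_apply, Sym2.map_mk] using ψ.map_adj_iff

lemma mInf_map (θ : Sym2 W → ℝ) (e : Sym2 V) :
    mInf G' θ (pairMap ψ.toEquiv e) = mInf G (fun f => θ (pairMap ψ.toEquiv f)) e := by
  unfold mInf
  refine if_congr (pairMap_edge ψ e) ?_ rfl
  have hsurj : Function.Surjective fun S : Finset (Sym2 V) => S.image (pairMap ψ.toEquiv) :=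
    fun S => ⟨S.image (pairMap ψ.toEquiv).symm, by simp [Finset.image_image]⟩
  rw [← hsurj.iInf_comp]
  refine iInf_congr fun S => ?_
  refine if_congr ?_ (mfin_image _ S θ e) rfl
  rw [(pairMap ψ.toEquiv).injective.mem_finset_image, Finset.coe_image, Set.image_subset_iff]
  refine and_congr_left fun _ => ⟨fun h f hf => (pairMap_edge ψ f).1 (h hf),
    fun h f hf => (pairMap_edge ψ f).2 (h hf)⟩

lemma edgeNoise_map (U : W → I) (e : Sym2 V) :
    edgeNoise G' U (pairMap ψ.toEquiv e) = edgeNoise G (fun v => U (ψ v)) e := by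
  induction e using Sym2.ind with
  | h a b =>
    funext l
    simp only [edgeNoise, noiseAux, pairMap_apply, Sym2.map_mk, Sym2.lift_mk]
    have hrk : ∀ x y : V,
        rk G' (fun v => raw U (v, none, 0, 0)) (ψ.toEquiv x) (ψ.toEquiv y)
          = rk G (fun v => raw (fun v => U (ψ v)) (v, none, 0, 0)) x y := by
      intro x y
      unfold rk
      rw [← Set.ncard_image_of_injective _ ψ.toEquiv.injective]
      congr 1
      ext c
      obtain ⟨z, rfl⟩ := ψ.toEquiv.surjective c
      rw [ψ.toEquiv.injective.mem_set_image]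
      simp only [Set.mem_ofPred_eq]
      exact and_congr ψ.map_adj_iff Iff.rfl
    rw [hrk, hrk]
    rfl

lemma edgePath_map (U : W → I) (t : ℝ) (e : Sym2 V) :
    edgePath G' U t (pairMap ψ.toEquiv e) = edgePath G (fun v => U (ψ v)) t e := by
  simp only [edgePath, edgeNoise_map]

attribute [local irreducible] path edgePath

lemma pic_map (U : W → I) (k : ℕ) : ∀ (t : ℝ) (e : Sym2 V),
    pic (mInf G') (edgePath G' U) k t (pairMap ψ.toEquiv e)
      = pic (mInf G) (edgePath G (fun v => U (ψ v))) k t e := by
  induction k with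
  | zero => intros; rfl
  | succ k ih =>
    intro t e
    simp only [pic_succ, mInf_map ψ, edgePath_map ψ, ih]

lemma fusfFactor_map (U : W → I) (e : Sym2 V) :
    fusfFactor G' U (e.map ψ) = fusfFactor G (fun v => U (ψ v)) e := by
  have h : ∀ k, outSeq G' U k (pairMap ψ.toEquiv e) = outSeq G (fun v => U (ψ v)) k e := by
    intro k
    simp only [outSeq, mInf_map ψ, sol, drift, edgePath_map ψ, pic_map ψ]
    rfl
  show decide (1 / 2 < limsup (fun k => outSeq G' U k (pairMap ψ.toEquiv e)) atTop) = _
  simp only [h, fusfFactor]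

/-- Left translation as an automorphism of a Cayley graph. -/
def translate {Γ : Type} [Group Γ] (S : Set Γ) (γ : Γ) :
    SimpleGraph.mulCayley S ≃g SimpleGraph.mulCayley S where
  toEquiv := Equiv.mulLeft γ
  map_rel_iff' := SimpleGraph.mulCayley_adj_mul_iff_right

lemma cayley_connected {Γ : Type} [Group Γ] {S : Set Γ} (hS : Subgroup.closure S = ⊤) :
    (SimpleGraph.mulCayley S).Connected := by
  have htr : ∀ {g x y : Γ}, (SimpleGraph.mulCayley S).Reachable x y →
      (SimpleGraph.mulCayley S).Reachable (g * x) (g * y) :=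
    fun {g x y} h => h.map (translate S g).toHom
  have key : ∀ g : Γ, (SimpleGraph.mulCayley S).Reachable 1 g := by
    intro g
    have hg : g ∈ Subgroup.closure S := hS ▸ Subgroup.mem_top g
    induction hg using Subgroup.closure_induction with
    | mem x hx =>
      by_cases h : (1 : Γ) = x
      · exact h ▸ SimpleGraph.Reachable.refl _
      · exact SimpleGraph.Adj.reachable
          ((SimpleGraph.mulCayley_adj' S 1 x).2 ⟨h, x, hx, Or.inl (one_mul x)⟩)
    | one => exact SimpleGraph.Reachable.refl _
    | mul x y _ _ hx hy => exact hx.trans (by simpa using htr (g := x) hy)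
    | inv x _ hx => exact SimpleGraph.Reachable.symm (by simpa using htr (g := x⁻¹) hx)
  exact SimpleGraph.connected_iff_exists_forall_reachable _ |>.2 ⟨1, key⟩

lemma cayley_locallyFinite {Γ : Type} [Group Γ] {S : Set Γ} (hS : S.Finite) (v : Γ) :
    ((SimpleGraph.mulCayley S).neighborSet v).Finite := by
  refine ((hS.image (fun g => v * g)).union (hS.image (fun g => v * g⁻¹))).subset fun w hw => ?_
  rw [SimpleGraph.mem_neighborSet, SimpleGraph.mulCayley_adj'] at hw
  obtain ⟨-, g, hg, h | h⟩ := hw
  · exact Or.inl ⟨g, hg, h⟩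
  · exact Or.inr ⟨g, hg, by simp [h]⟩

end Vale.Agent.P143
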