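import Mathlib

/-!
# Exponential families on a finite collection of finite sets
-/

namespace Vale.Agent.P143

open Finset Real
open scoped Classical

variable {ι : Type}

/-- The weight of `T` under the field `θ`. -/
noncomputable def wt (θ : ι → ℝ) (T : Finset ι) : ℝ := Real.exp (∑ i ∈ T, θ i)

/-- The partition function. -/
noncomputable def part (𝒯 : Finset (Finset ι)) (θ : ι → ℝ) : ℝ := ∑ T ∈ 𝒯, wt θ T

/-- The probability of `T`. -/
noncomputable def prb (𝒯 : Finset (Finset ι)) (θ : ι → ℝ) (T : Finset ι) : ℝ :=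
  wt θ T / part 𝒯 θ

/-- The probability that `i` belongs to the random set. -/
noncomputable def marg (𝒯 : Finset (Finset ι)) (θ : ι → ℝ) (i : ι) : ℝ :=
  ∑ T ∈ 𝒯, if i ∈ T then prb 𝒯 θ T else 0

lemma wt_pos (θ : ι → ℝ) (T : Finset ι) : 0 < wt θ T := Real.exp_pos _

lemma part_pos {𝒯 : Finset (Finset ι)} (h : 𝒯.Nonempty) (θ : ι → ℝ) : 0 < part 𝒯 θ :=
  Finset.sum_pos (fun T _ => wt_pos θ T) h

lemma prb_nonneg (𝒯 : Finset (Finset ι)) (θ : ι → ℝ) (T : Finset ι) : 0 ≤ prb 𝒯 θ T :=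
  div_nonneg (wt_pos θ T).le (Finset.sum_nonneg fun T _ => (wt_pos θ T).le)

lemma sum_prb {𝒯 : Finset (Finset ι)} (h : 𝒯.Nonempty) (θ : ι → ℝ) :
    ∑ T ∈ 𝒯, prb 𝒯 θ T = 1 := by
  rw [show (∑ T ∈ 𝒯, prb 𝒯 θ T) = (∑ T ∈ 𝒯, wt θ T) / part 𝒯 θ from
    (Finset.sum_div _ _ _).symm]
  exact div_self (part_pos h θ).ne'

lemma prb_le_one {𝒯 : Finset (Finset ι)} {θ : ι → ℝ} {T : Finset ι} (hT : T ∈ 𝒯) :
    prb 𝒯 θ T ≤ 1 := by
  rw [← sum_prb ⟨T, hT⟩ θ]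
  exact Finset.single_le_sum (fun S _ => prb_nonneg 𝒯 θ S) hT

lemma marg_nonneg (𝒯 : Finset (Finset ι)) (θ : ι → ℝ) (i : ι) : 0 ≤ marg 𝒯 θ i :=
  Finset.sum_nonneg fun T _ => by split_ifs <;> [exact prb_nonneg 𝒯 θ T; exact le_rfl]

lemma marg_le_one (𝒯 : Finset (Finset ι)) (θ : ι → ℝ) (i : ι) : marg 𝒯 θ i ≤ 1 := by
  rcases 𝒯.eq_empty_or_nonempty with rfl | h
  · simp [marg]
  · calc marg 𝒯 θ i ≤ ∑ T ∈ 𝒯, prb 𝒯 θ T :=
        Finset.sum_le_sum fun T _ => by split_ifs <;> [exact le_rfl; exact prb_nonneg 𝒯 θ T]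
      _ = 1 := sum_prb h θ

lemma wt_congr {θ θ' : ι → ℝ} {T S : Finset ι} (hT : T ⊆ S) (h : ∀ i ∈ S, θ i = θ' i) :
    wt θ T = wt θ' T := by
  unfold wt
  rw [Finset.sum_congr rfl fun i hi => h i (hT hi)]

lemma marg_congr {𝒯 : Finset (Finset ι)} {θ θ' : ι → ℝ} {S : Finset ι}
    (hS : ∀ T ∈ 𝒯, T ⊆ S) (h : ∀ i ∈ S, θ i = θ' i) (i : ι) : marg 𝒯 θ i = marg 𝒯 θ' i := by
  unfold marg prb
  refine Finset.sum_congr rfl fun T hT => ?_
  have h1 : part 𝒯 θ = part 𝒯 θ' :=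
    Finset.sum_congr rfl fun T' hT' => wt_congr (hS T' hT') h
  rw [wt_congr (hS T hT) h, h1]

lemma marg_eq_zero {𝒯 : Finset (Finset ι)} {S : Finset ι} (hS : ∀ T ∈ 𝒯, T ⊆ S) {i : ι}
    (hi : i ∉ S) (θ : ι → ℝ) : marg 𝒯 θ i = 0 :=
  Finset.sum_eq_zero fun T hT => if_neg fun h => hi (hS T hT h)

/-- Linear response of the logarithm of the probability of `W`. -/
noncomputable def resp (𝒯 : Finset (Finset ι)) (θ : ι → ℝ) (W : Finset ι) (v : ι → ℝ) : ℝ :=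
  (∑ i ∈ W, v i) - ∑ T ∈ 𝒯, prb 𝒯 θ T * ∑ i ∈ T, v i

lemma resp_bound {𝒯 : Finset (Finset ι)} (hne : 𝒯.Nonempty) {k : ℕ}
    (hk : ∀ T ∈ 𝒯, T.card = k) (θ : ι → ℝ) {W : Finset ι} (hW : W ∈ 𝒯) {v : ι → ℝ}
    (hv : ∀ i, 0 ≤ v i ∧ v i ≤ 1) : |resp 𝒯 θ W v| ≤ k := by
  have hc : ∀ T ∈ 𝒯, 0 ≤ ∑ i ∈ T, v i ∧ ∑ i ∈ T, v i ≤ k := fun T hT =>
    ⟨Finset.sum_nonneg fun i _ => (hv i).1,
      (Finset.sum_le_sum fun i _ => (hv i).2).trans (by simp [hk T hT])⟩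
  have h1 : 0 ≤ ∑ T ∈ 𝒯, prb 𝒯 θ T * ∑ i ∈ T, v i :=
    Finset.sum_nonneg fun T hT => mul_nonneg (prb_nonneg _ _ _) (hc T hT).1
  have h2 : ∑ T ∈ 𝒯, prb 𝒯 θ T * ∑ i ∈ T, v i ≤ ∑ T ∈ 𝒯, prb 𝒯 θ T * k :=
    Finset.sum_le_sum fun T hT => mul_le_mul_of_nonneg_left (hc T hT).2 (prb_nonneg _ _ _)
  rw [← Finset.sum_mul, sum_prb hne, one_mul] at h2
  have := hc W hW
  rw [resp, abs_le]
  constructor <;> linarith

/-- First order expansion of the probability of `W` along a direction `v` in the unit cube. -/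
lemma prb_expand {𝒯 : Finset (Finset ι)} (hne : 𝒯.Nonempty) {k : ℕ}
    (hk : ∀ T ∈ 𝒯, T.card = k) (θ : ι → ℝ) {W : Finset ι} (hW : W ∈ 𝒯) {v : ι → ℝ}
    (hv : ∀ i, 0 ≤ v i ∧ v i ≤ 1) {h : ℝ} (h0 : 0 ≤ h) (h1 : h * (k + 1) ≤ 1 / 2) :
    |prb 𝒯 (fun i => θ i + h * v i) W - prb 𝒯 θ W * (1 + h * resp 𝒯 θ W v)|
      ≤ 4 * ((k : ℝ) + 1) ^ 2 * h ^ 2 := by
  set c : Finset ι → ℝ := fun T => ∑ i ∈ T, v i with hcdef
  have hc : ∀ T ∈ 𝒯, 0 ≤ c T ∧ c T ≤ k := fun T hT =>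
    ⟨Finset.sum_nonneg fun i _ => (hv i).1,
      (Finset.sum_le_sum fun i _ => (hv i).2).trans (by simp [hk T hT])⟩
  have hwt : ∀ T, wt (fun i => θ i + h * v i) T = wt θ T * Real.exp (h * c T) := by
    intro T
    simp only [wt, hcdef, Finset.sum_add_distrib, Finset.mul_sum, Real.exp_add]
  set b : ℝ := ∑ T ∈ 𝒯, prb 𝒯 θ T * Real.exp (h * c T) with hb
  have hZ := part_pos hne θ
  have hpart : part 𝒯 (fun i => θ i + h * v i) = part 𝒯 θ * b := by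
    rw [hb, Finset.mul_sum]
    refine Finset.sum_congr rfl fun T _ => ?_
    rw [hwt, prb]
    field_simp
  set K : ℝ := (k : ℝ) + 1
  have hK : 1 ≤ K := by simp [K]
  have hrem : ∀ T ∈ 𝒯, |Real.exp (h * c T) - 1 - h * c T| ≤ (K * h) ^ 2 := by
    intro T hT
    have hA : 0 ≤ h * c T := mul_nonneg h0 (hc T hT).1
    have hB : h * c T ≤ K * h := by
      rw [mul_comm K]
      exact mul_le_mul_of_nonneg_left (by simp only [K]; linarith [(hc T hT).2]) h0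
    refine le_trans (Real.abs_exp_sub_one_sub_id_le ?_) (pow_le_pow_left₀ hA hB 2)
    rw [abs_of_nonneg hA]
    simp only [K] at hB
    nlinarith
  set cb : ℝ := ∑ T ∈ 𝒯, prb 𝒯 θ T * c T with hcb
  have hcb0 : 0 ≤ cb := Finset.sum_nonneg fun T hT => mul_nonneg (prb_nonneg _ _ _) (hc T hT).1
  have hcbK : cb ≤ K := by
    calc cb ≤ ∑ T ∈ 𝒯, prb 𝒯 θ T * K := Finset.sum_le_sum fun T hT =>
          mul_le_mul_of_nonneg_left (by simp only [K]; linarith [(hc T hT).2]) (prb_nonneg _ _ _)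
      _ = K := by rw [← Finset.sum_mul, sum_prb hne, one_mul]
  have hrb : |b - 1 - h * cb| ≤ (K * h) ^ 2 := by
    have : b - 1 - h * cb = ∑ T ∈ 𝒯, prb 𝒯 θ T * (Real.exp (h * c T) - 1 - h * c T) := by
      simp only [mul_sub, Finset.sum_sub_distrib, mul_one, sum_prb hne, hcb, hb, Finset.mul_sum]
      congr 1
      exact Finset.sum_congr rfl fun T _ => by ring
    rw [this]
    refine (Finset.abs_sum_le_sum_abs _ _).trans ?_
    calc ∑ T ∈ 𝒯, |prb 𝒯 θ T * (Real.exp (h * c T) - 1 - h * c T)|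
        ≤ ∑ T ∈ 𝒯, prb 𝒯 θ T * (K * h) ^ 2 := Finset.sum_le_sum fun T hT => by
          rw [abs_mul, abs_of_nonneg (prb_nonneg _ _ _)]
          exact mul_le_mul_of_nonneg_left (hrem T hT) (prb_nonneg _ _ _)
      _ = (K * h) ^ 2 := by rw [← Finset.sum_mul, sum_prb hne, one_mul]
  have hb1 : 1 ≤ b := by
    calc (1 : ℝ) = ∑ T ∈ 𝒯, prb 𝒯 θ T * 1 := by simp [sum_prb hne]
      _ ≤ b := Finset.sum_le_sum fun T hT => mul_le_mul_of_nonneg_left
          (Real.one_le_exp (mul_nonneg h0 (hc T hT).1)) (prb_nonneg _ _ _)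
  set a := Real.exp (h * c W)
  set d := c W - cb
  have hd : resp 𝒯 θ W v = d := rfl
  have hdK : |d| ≤ K := by
    have := hc W hW
    simp only [K] at hcbK ⊢
    rw [abs_le]
    constructor <;> simp only [d] <;> linarith
  have hra := hrem W hW
  have key : |a / b - (1 + h * d)| ≤ 4 * K ^ 2 * h ^ 2 := by
    have hb0 : 0 < b := by linarith
    have heq : a / b - (1 + h * d) =
        ((a - 1 - h * c W) - (b - 1 - h * cb) * (1 + h * d) - h ^ 2 * cb * d) / b := by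
      field_simp
      simp only [d]
      ring
    rw [heq, abs_div, abs_of_pos hb0, div_le_iff₀ hb0]
    have hh : |1 + h * d| ≤ 2 := by
      have : |h * d| ≤ 1 / 2 := by
        rw [abs_mul, abs_of_nonneg h0]
        exact (mul_le_mul_of_nonneg_left hdK h0).trans h1
      rw [abs_le] at this ⊢
      constructor <;> linarith
    have h2 : |(b - 1 - h * cb) * (1 + h * d)| ≤ (K * h) ^ 2 * 2 := by
      rw [abs_mul]
      exact mul_le_mul hrb hh (abs_nonneg _) (sq_nonneg _)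
    have h3 : |h ^ 2 * cb * d| ≤ (K * h) ^ 2 := by
      rw [abs_mul, abs_mul, abs_of_nonneg (sq_nonneg h), abs_of_nonneg hcb0, mul_pow]
      calc h ^ 2 * cb * |d| ≤ h ^ 2 * K * K := by gcongr
        _ = K ^ 2 * h ^ 2 := by ring
    calc |(a - 1 - h * c W) - (b - 1 - h * cb) * (1 + h * d) - h ^ 2 * cb * d|
        ≤ |(a - 1 - h * c W) - (b - 1 - h * cb) * (1 + h * d)| + |h ^ 2 * cb * d| := abs_sub _ _
      _ ≤ (|a - 1 - h * c W| + |(b - 1 - h * cb) * (1 + h * d)|) + |h ^ 2 * cb * d| :=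
          by gcongr; exact abs_sub _ _
      _ ≤ (K * h) ^ 2 + (K * h) ^ 2 * 2 + (K * h) ^ 2 := by linarith
      _ = 4 * K ^ 2 * h ^ 2 * 1 := by ring
      _ ≤ 4 * K ^ 2 * h ^ 2 * b := by gcongr
  have : prb 𝒯 (fun i => θ i + h * v i) W - prb 𝒯 θ W * (1 + h * resp 𝒯 θ W v)
      = prb 𝒯 θ W * (a / b - (1 + h * d)) := by
    rw [hd, prb, hwt, hpart, prb]
    field_simp
    simp only [a]
  rw [this, abs_mul, abs_of_nonneg (prb_nonneg _ _ _)]
  calc prb 𝒯 θ W * |a / b - (1 + h * d)| ≤ 1 * (4 * K ^ 2 * h ^ 2) :=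
        mul_le_mul (prb_le_one hW) key (abs_nonneg _) zero_le_one
    _ = _ := one_mul _

/-- Comparison of an intersection event with the product of the marginals. -/
lemma prod_marg_close {𝒯 : Finset (Finset ι)} (hne : 𝒯.Nonempty) (θ : ι → ℝ) (A : Finset ι)
    (η : ι → Bool) :
    |(∑ T ∈ 𝒯, if (∀ e ∈ A, (e ∈ T ↔ η e = true)) then prb 𝒯 θ T else 0)
      - ∏ e ∈ A, (if η e = true then marg 𝒯 θ e else 1 - marg 𝒯 θ e)|
      ≤ 2 * ∑ e ∈ A, marg 𝒯 θ e * (1 - marg 𝒯 θ e) := by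
  set q : ι → ℝ := fun e => if η e = true then marg 𝒯 θ e else 1 - marg 𝒯 θ e with hq
  have hq01 : ∀ e, 0 ≤ q e ∧ q e ≤ 1 := by
    intro e
    have := marg_nonneg 𝒯 θ e
    have := marg_le_one 𝒯 θ e
    simp only [hq]
    split_ifs <;> constructor <;> linarith
  have key : ∀ (A : Finset ι) (f : ι → ℝ), (∀ e, 0 ≤ f e ∧ f e ≤ 1) →
      |(∏ e ∈ A, f e) - ∏ e ∈ A, q e| ≤ ∑ e ∈ A, |f e - q e| := by
    intro A f hf
    induction A using Finset.induction_on with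
    | empty => simp
    | @insert x s hx ih =>
      rw [Finset.prod_insert hx, Finset.prod_insert hx, Finset.sum_insert hx]
      have hP : |∏ e ∈ s, f e| ≤ 1 := by
        rw [Finset.abs_prod]
        exact Finset.prod_le_one (fun e _ => abs_nonneg _)
          (fun e _ => by rw [abs_of_nonneg (hf e).1]; exact (hf e).2)
      calc |f x * ∏ e ∈ s, f e - q x * ∏ e ∈ s, q e|
          = |(f x - q x) * (∏ e ∈ s, f e) + q x * ((∏ e ∈ s, f e) - ∏ e ∈ s, q e)| := by ring_nf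
        _ ≤ |f x - q x| * |∏ e ∈ s, f e| + |q x| * |(∏ e ∈ s, f e) - ∏ e ∈ s, q e| := by
            rw [← abs_mul, ← abs_mul]; exact abs_add_le _ _
        _ ≤ |f x - q x| * 1 + 1 * ∑ e ∈ s, |f e - q e| := by
            apply add_le_add
            · exact mul_le_mul_of_nonneg_left hP (abs_nonneg _)
            · exact mul_le_mul (by rw [abs_of_nonneg (hq01 x).1]; exact (hq01 x).2) ih
                (abs_nonneg _) zero_le_one
        _ = _ := by ring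
  set f : Finset ι → ι → ℝ := fun T e => if (e ∈ T ↔ η e = true) then 1 else 0 with hf
  have hprod : ∀ T : Finset ι,
      (if (∀ e ∈ A, (e ∈ T ↔ η e = true)) then prb 𝒯 θ T else 0)
        = prb 𝒯 θ T * ∏ e ∈ A, f T e := by
    intro T
    split_ifs with hA
    · rw [Finset.prod_eq_one fun e he => if_pos (hA e he), mul_one]
    · push Not at hA
      obtain ⟨e, he, hne⟩ := hA
      have hcond : ¬ (e ∈ T ↔ η e = true) := by tauto
      rw [Finset.prod_eq_zero he (if_neg hcond), mul_zero]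
  simp only [hprod]
  have hmean : ∀ e, ∑ T ∈ 𝒯, prb 𝒯 θ T * |f T e - q e|
      = 2 * (marg 𝒯 θ e * (1 - marg 𝒯 θ e)) := by
    intro e
    set m := marg 𝒯 θ e with hm
    have h0 := marg_nonneg 𝒯 θ e
    have h1 := marg_le_one 𝒯 θ e
    have hT : ∀ T : Finset ι, prb 𝒯 θ T * |f T e - q e| =
        (1 - 2 * m) * (if e ∈ T then prb 𝒯 θ T else 0) + m * prb 𝒯 θ T := by
      intro T
      simp only [hf, hq, ← hm]
      have a1 : |1 - m| = 1 - m := abs_of_nonneg (by linarith)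
      have a2 : |m - 1| = 1 - m := by rw [abs_sub_comm]; exact a1
      have a3 : |m| = m := abs_of_nonneg h0
      cases η e <;> by_cases heT : e ∈ T <;>
        simp [heT, a1, a2, a3] <;> ring
    rw [Finset.sum_congr rfl fun T _ => hT T, Finset.sum_add_distrib, ← Finset.mul_sum,
      ← Finset.mul_sum, sum_prb hne]
    rw [show (∑ T ∈ 𝒯, if e ∈ T then prb 𝒯 θ T else 0) = m from rfl]
    ring
  calc |(∑ T ∈ 𝒯, prb 𝒯 θ T * ∏ e ∈ A, f T e) - ∏ e ∈ A, q e|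
      = |∑ T ∈ 𝒯, prb 𝒯 θ T * ((∏ e ∈ A, f T e) - ∏ e ∈ A, q e)| := by
        simp only [mul_sub, Finset.sum_sub_distrib, ← Finset.sum_mul, sum_prb hne, one_mul]
    _ ≤ ∑ T ∈ 𝒯, prb 𝒯 θ T * ∑ e ∈ A, |f T e - q e| := by
        refine (Finset.abs_sum_le_sum_abs _ _).trans (Finset.sum_le_sum fun T _ => ?_)
        rw [abs_mul, abs_of_nonneg (prb_nonneg _ _ _)]
        refine mul_le_mul_of_nonneg_left (key A (f T) fun e => ?_) (prb_nonneg _ _ _)
        simp only [hf]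
        split_ifs <;> simp
    _ = ∑ e ∈ A, ∑ T ∈ 𝒯, prb 𝒯 θ T * |f T e - q e| := by
        simp only [Finset.mul_sum]; exact Finset.sum_comm
    _ = _ := by simp only [hmean, Finset.mul_sum]

end Vale.Agent.P143
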