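import Vale.Agent.P143.Forest
import Vale.Agent.P143.Softmax

/-!
# The Thomson principle for weighted uniform spanning forests
-/

namespace Vale.Agent.P143

open Finset Real
open scoped Classical

variable {V : Type}

/-- The probability that the random maximal forest of `S` with conductances `exp θ` contains `e`. -/
noncomputable def mfin (S : Finset (Sym2 V)) (θ : Sym2 V → ℝ) (e : Sym2 V) : ℝ :=
  marg (bases S) θ e

lemma bases_subset {S : Finset (Sym2 V)} : ∀ T ∈ bases S, T ⊆ S :=
  fun _ hT => (mem_bases.1 hT).1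

lemma mfin_nonneg (S : Finset (Sym2 V)) (θ : Sym2 V → ℝ) (e : Sym2 V) : 0 ≤ mfin S θ e :=
  marg_nonneg _ _ _

lemma mfin_le_one (S : Finset (Sym2 V)) (θ : Sym2 V → ℝ) (e : Sym2 V) : mfin S θ e ≤ 1 :=
  marg_le_one _ _ _

lemma mfin_eq_zero {S : Finset (Sym2 V)} {e : Sym2 V} (he : e ∉ S) (θ : Sym2 V → ℝ) :
    mfin S θ e = 0 := marg_eq_zero bases_subset he θ

/-- A fixed orientation of an edge. -/
noncomputable def ort (f : Sym2 V) : V × V := Quot.out f

lemma ort_spec (f : Sym2 V) : s((ort f).1, (ort f).2) = f := Quot.out_eq f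

/-- The difference of a potential along an oriented edge. -/
noncomputable def dif (p : V → ℝ) (f : Sym2 V) : ℝ := p (ort f).1 - p (ort f).2

/-- `φ` is a unit flow from `a` to `b` carried by `S`. -/
def IsFlow (S : Finset (Sym2 V)) (a b : V) (φ : Sym2 V → ℝ) : Prop :=
  (∀ f, f ∉ S → φ f = 0) ∧ ∀ p : V → ℝ, ∑ f ∈ S, φ f * dif p f = p a - p b

/-- The energy of a flow. -/
noncomputable def energy (S : Finset (Sym2 V)) (θ φ : Sym2 V → ℝ) : ℝ :=
  ∑ f ∈ S, φ f ^ 2 * Real.exp (-θ f)

/-- The indicator of being connected. -/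
noncomputable def ind (C : Finset (Sym2 V)) (u v : V) : ℝ := if Conn C u v then 1 else 0

/-- The unit flow along a base. -/
noncomputable def chi (T : Finset (Sym2 V)) (a b : V) (f : Sym2 V) : ℝ :=
  ind (T.erase f) a (ort f).1 - ind (T.erase f) b (ort f).1

lemma ind_congr {C : Finset (Sym2 V)} {u v z : V} (h : Conn C u v) :
    ind C u z = ind C v z := by
  unfold ind
  exact if_congr ⟨fun hc => h.symm.trans hc, fun hc => h.trans hc⟩ rfl rfl

lemma chi_flow {T : Finset (Sym2 V)} (hT : Forest T) {a b : V} (hab : Conn T a b) (p : V → ℝ) :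
    ∑ f ∈ T, chi T a b f * dif p f = p a - p b := by
  set Gz : V → ℝ := fun z => ∑ f ∈ T, ind (T.erase f) z (ort f).1 * dif p f with hG
  have hgoal : ∑ f ∈ T, chi T a b f * dif p f = Gz a - Gz b := by
    simp only [hG, ← Finset.sum_sub_distrib, chi, sub_mul]
  rw [hgoal]
  clear hgoal
  induction hab with
  | refl => simp
  | @tail u v _ hs ih =>
    suffices Gz u - Gz v = p u - p v by linarith
    have hmem : s(u, v) ∈ T := hs
    simp only [hG, ← Finset.sum_sub_distrib, ← sub_mul]
    rw [Finset.sum_eq_single_of_mem s(u, v) hmem]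
    · have hn : ¬ Conn (T.erase s(u, v)) u v := hT u v hmem
      rcases Sym2.eq_iff.1 (ort_spec s(u, v)) with ⟨h1, h2⟩ | ⟨h1, h2⟩
      · have e1 : ind (T.erase s(u, v)) u u = 1 := if_pos (Conn.refl u)
        have e2 : ind (T.erase s(u, v)) v u = 0 := if_neg fun h => hn h.symm
        rw [dif, h1, h2, e1, e2]; ring
      · have e1 : ind (T.erase s(u, v)) v v = 1 := if_pos (Conn.refl v)
        have e2 : ind (T.erase s(u, v)) u v = 0 := if_neg hn
        rw [dif, h1, h2, e1, e2]; ring
    · intro f _ hne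
      rw [ind_congr (Conn.edge (Finset.mem_erase.2 ⟨hne.symm, hmem⟩)), sub_self, zero_mul]

/-- The current from `a` to `b`. -/
noncomputable def current (S : Finset (Sym2 V)) (θ : Sym2 V → ℝ) (a b : V) (f : Sym2 V) : ℝ :=
  ∑ T ∈ bases S, if f ∈ T then prb (bases S) θ T * chi T a b f else 0

/-- The potential of the current from `a` to `b`. -/
noncomputable def pot (S : Finset (Sym2 V)) (θ : Sym2 V → ℝ) (a b z : V) : ℝ :=
  (∑ T ∈ bases S, if s(a, b) ∈ T then wt θ (T.erase s(a, b)) * ind (T.erase s(a, b)) a z else 0)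
    / part (bases S) θ

lemma current_flow {S : Finset (Sym2 V)} (θ : Sym2 V → ℝ) {a b : V} (hab : s(a, b) ∈ S) :
    IsFlow S a b (current S θ a b) := by
  refine ⟨fun f hf => Finset.sum_eq_zero fun T hT => if_neg fun h => hf (bases_subset T hT h),
    fun p => ?_⟩
  simp only [current, Finset.sum_mul]
  rw [Finset.sum_comm]
  have : ∀ T ∈ bases S,
      (∑ f ∈ S, (if f ∈ T then prb (bases S) θ T * chi T a b f else 0) * dif p f)
        = prb (bases S) θ T * (p a - p b) := by
    intro T hT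
    obtain ⟨hTS, hTF, hTC⟩ := mem_bases.1 hT
    rw [← chi_flow hTF (hTC a b hab) p, Finset.mul_sum]
    refine ((Finset.sum_subset hTS ?_).symm).trans (Finset.sum_congr rfl fun f hf => ?_)
    · intro f _ hf; rw [if_neg hf, zero_mul]
    · rw [if_pos hf, mul_assoc]
  rw [Finset.sum_congr rfl this, ← Finset.sum_mul, sum_prb (bases_nonempty S), one_mul]

lemma wt_erase {T : Finset (Sym2 V)} {f : Sym2 V} (hf : f ∈ T) (θ : Sym2 V → ℝ) :
    wt θ T = Real.exp (θ f) * wt θ (T.erase f) := by
  rw [wt, wt, ← Real.exp_add, Finset.add_sum_erase _ _ hf]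

lemma cross_cases {S T : Finset (Sym2 V)} (h : IsBase S T) {a b x y : V} (hab : s(a, b) ∈ T)
    (hxy : s(x, y) ∈ S)
    (hne : ind (T.erase s(a, b)) a x - ind (T.erase s(a, b)) a y ≠ 0) :
    (Conn (T.erase s(a, b)) a x ∧ Conn (T.erase s(a, b)) b y ∨
      Conn (T.erase s(a, b)) a y ∧ Conn (T.erase s(a, b)) b x) := by
  have hT : Conn (Insert.insert s(a, b) (T.erase s(a, b))) x y := by
    rw [Finset.insert_erase hab]; exact h.2.2 x y hxy
  rcases conn_insert hT with h1 | ⟨h1, h2⟩ | ⟨h1, h2⟩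
  · exfalso
    apply hne
    have : ind (T.erase s(a, b)) a x = ind (T.erase s(a, b)) a y :=
      if_congr ⟨fun hc => hc.trans h1, fun hc => hc.trans h1.symm⟩ rfl rfl
    rw [this, sub_self]
  · exact Or.inl ⟨h1.symm, h2⟩
  · exact Or.inr ⟨h2, h1.symm⟩

lemma current_eq_pot {S : Finset (Sym2 V)} (θ : Sym2 V → ℝ) {a b : V} (hab : s(a, b) ∈ S)
    {f : Sym2 V} (hf : f ∈ S) :
    current S θ a b f = Real.exp (θ f) * dif (pot S θ a b) f := by
  obtain ⟨x, y, hxy⟩ : ∃ x y, ort f = (x, y) := ⟨_, _, rfl⟩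
  have hfxy : s(x, y) = f := by simpa [hxy] using ort_spec f
  set e := s(a, b) with he
  have hkey : (∑ T ∈ bases S, if f ∈ T then wt θ (T.erase f) * chi T a b f else 0)
      = ∑ T ∈ bases S,
        if e ∈ T then wt θ (T.erase e) * (ind (T.erase e) a x - ind (T.erase e) a y) else 0 := by
    rw [← Finset.sum_filter, ← Finset.sum_filter]
    refine Finset.sum_bij_ne_zero (fun T _ _ => Insert.insert e (T.erase f)) ?_ ?_ ?_ ?_
    · intro T hT hne
      obtain ⟨hTb, hfT⟩ := Finset.mem_filter.1 hT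
      have hb := mem_bases.1 hTb
      have hfT' : s(x, y) ∈ T := hfxy ▸ hfT
      have hcr : Conn (T.erase s(x, y)) x a ∧ Conn (T.erase s(x, y)) y b ∨
          Conn (T.erase s(x, y)) x b ∧ Conn (T.erase s(x, y)) y a := by
        refine cross_cases hb hfT' hab fun h0 => hne ?_
        have hsym : ∀ z, ind (T.erase s(x, y)) x z = ind (T.erase s(x, y)) z x := fun z =>
          if_congr ⟨Conn.symm, Conn.symm⟩ rfl rfl
        rw [hsym, hsym] at h0
        rw [chi, hxy, ← hfxy]
        exact mul_eq_zero_of_right _ h0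
      have hx := hb.exchange hfT' hab hcr
      rw [hfxy] at hx
      exact Finset.mem_filter.2 ⟨mem_bases.2 hx.2, Finset.mem_insert_self _ _⟩
    · intro T1 hT1 hne1 T2 hT2 hne2 heq
      obtain ⟨hTb1, hfT1⟩ := Finset.mem_filter.1 hT1
      obtain ⟨hTb2, hfT2⟩ := Finset.mem_filter.1 hT2
      have hnot : ∀ T ∈ bases S, wt θ (T.erase f) * chi T a b f ≠ 0 → e ∉ T.erase f := by
        intro T hT hne hm
        apply hne
        rw [chi, ind_congr (Conn.edge hm), sub_self, mul_zero]
      have := congrArg (fun U => U.erase e) heq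
      simp only [Finset.erase_insert (hnot T1 hTb1 hne1),
        Finset.erase_insert (hnot T2 hTb2 hne2)] at this
      rw [← Finset.insert_erase hfT1, this, Finset.insert_erase hfT2]
    · intro U hU hne
      obtain ⟨hUb, heU⟩ := Finset.mem_filter.1 hU
      have hb := mem_bases.1 hUb
      have hcr := cross_cases hb heU (hfxy ▸ hf) fun h0 => hne (by rw [h0, mul_zero])
      obtain ⟨hnm, hbase⟩ := hb.exchange heU (hfxy ▸ hf) hcr
      rw [hfxy] at hnm hbase
      refine ⟨Insert.insert f (U.erase e), Finset.mem_filter.2 ⟨mem_bases.2 hbase,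
        Finset.mem_insert_self _ _⟩, ?_, ?_⟩
      · rw [chi, Finset.erase_insert hnm, hxy]
        refine mul_ne_zero (wt_pos _ _).ne' ?_
        have hn : ¬ Conn (U.erase e) a b := hb.2.1 a b heU
        rcases hcr with ⟨h1, h2⟩ | ⟨h1, h2⟩
        · have : ¬ Conn (U.erase e) b x := fun h => hn (h1.trans h.symm)
          simp [ind, he, h1] at this ⊢
          simp [this]
        · have : ¬ Conn (U.erase e) a x := fun h => hn (h.trans h2.symm)
          simp [ind, he, h2] at this ⊢
          simp [this]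
      · rw [Finset.erase_insert hnm, Finset.insert_erase heU]
    · intro T hT hne
      obtain ⟨hTb, hfT⟩ := Finset.mem_filter.1 hT
      have hb := mem_bases.1 hTb
      have hfT' : s(x, y) ∈ T := hfxy ▸ hfT
      have hn : ¬ Conn (T.erase f) x y := hfxy ▸ hb.2.1 x y hfT'
      have hmem : e ∉ T.erase f := by
        intro hm
        apply hne
        rw [chi, ind_congr (Conn.edge hm), sub_self, mul_zero]
      rw [Finset.erase_insert hmem]
      congr 1
      rw [chi, hxy]
      have hT' : Conn (Insert.insert s(x, y) (T.erase f)) a b := by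
        rw [hfxy, Finset.insert_erase hfT]; exact hb.2.2 a b hab
      rcases conn_insert hT' with h1 | ⟨h1, h2⟩ | ⟨h1, h2⟩
      · exfalso
        apply hne
        rw [chi, ind_congr h1, sub_self, mul_zero]
      · have n1 : ¬ Conn (T.erase f) b x := fun h => hn (h.symm.trans h2.symm)
        have n2 : ¬ Conn (T.erase f) a y := fun h => hn (h1.symm.trans h)
        simp [ind, h1, n1, n2]
      · have n1 : ¬ Conn (T.erase f) a x := fun h => hn (h.symm.trans h1)
        simp [ind, h1, n1, h2.symm]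
  have hLHS : current S θ a b f = Real.exp (θ f) *
      ((∑ T ∈ bases S, if f ∈ T then wt θ (T.erase f) * chi T a b f else 0)
        / part (bases S) θ) := by
    rw [current, Finset.sum_div, Finset.mul_sum]
    refine Finset.sum_congr rfl fun T _ => ?_
    split_ifs with h
    · rw [prb, wt_erase h]; ring
    · simp
  rw [hLHS, hkey, dif, hxy, pot, pot, ← sub_div, ← Finset.sum_sub_distrib]
  congr 2
  refine Finset.sum_congr rfl fun T _ => ?_
  split_ifs <;> ring

lemma pot_right (S : Finset (Sym2 V)) (θ : Sym2 V → ℝ) (a b : V) : pot S θ a b b = 0 := by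
  rw [pot, Finset.sum_eq_zero, zero_div]
  intro T hT
  split_ifs with h
  · rw [ind, if_neg ((mem_bases.1 hT).2.1 a b h), mul_zero]
  · rfl

lemma mfin_eq_pot (S : Finset (Sym2 V)) (θ : Sym2 V → ℝ) (a b : V) :
    mfin S θ s(a, b) = Real.exp (θ s(a, b)) * pot S θ a b a := by
  rw [mfin, marg, pot, Finset.sum_div, Finset.mul_sum]
  refine Finset.sum_congr rfl fun T _ => ?_
  split_ifs with h
  · rw [prb, wt_erase h, ind, if_pos (Conn.refl a)]; ring
  · simp

/-- Orthogonality of the current to differences of unit flows. -/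
lemma current_dot {S : Finset (Sym2 V)} (θ : Sym2 V → ℝ) {a b : V} (hab : s(a, b) ∈ S)
    {φ : Sym2 V → ℝ} (hφ : IsFlow S a b φ) :
    ∑ f ∈ S, φ f * current S θ a b f * Real.exp (-θ f) = pot S θ a b a := by
  have := hφ.2 (pot S θ a b)
  rw [pot_right, sub_zero] at this
  rw [← this]
  refine Finset.sum_congr rfl fun f hf => ?_
  rw [current_eq_pot θ hab hf, Real.exp_neg]
  field_simp

lemma mfin_eq_energy {S : Finset (Sym2 V)} (θ : Sym2 V → ℝ) {a b : V} (hab : s(a, b) ∈ S) :
    mfin S θ s(a, b) = Real.exp (θ s(a, b)) * energy S θ (current S θ a b) := by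
  rw [mfin_eq_pot, ← current_dot θ hab (current_flow θ hab), energy]
  simp only [sq]

/-- Thomson's principle. -/
lemma mfin_le_energy {S : Finset (Sym2 V)} (θ : Sym2 V → ℝ) {a b : V} (hab : s(a, b) ∈ S)
    {φ : Sym2 V → ℝ} (hφ : IsFlow S a b φ) :
    mfin S θ s(a, b) ≤ Real.exp (θ s(a, b)) * energy S θ φ := by
  rw [mfin_eq_energy θ hab]
  refine mul_le_mul_of_nonneg_left ?_ (Real.exp_pos _).le
  have h1 := current_dot θ hab hφ
  have h2 := current_dot θ hab (current_flow θ hab)
  have h3 : 0 ≤ ∑ f ∈ S, (φ f - current S θ a b f) ^ 2 * Real.exp (-θ f) :=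
    Finset.sum_nonneg fun f _ => mul_nonneg (sq_nonneg _) (Real.exp_pos _).le
  have h4 : ∑ f ∈ S, (φ f - current S θ a b f) ^ 2 * Real.exp (-θ f)
      = energy S θ φ - 2 * (∑ f ∈ S, φ f * current S θ a b f * Real.exp (-θ f))
        + ∑ f ∈ S, current S θ a b f * current S θ a b f * Real.exp (-θ f) := by
    rw [energy, Finset.mul_sum, ← Finset.sum_sub_distrib, ← Finset.sum_add_distrib]
    exact Finset.sum_congr rfl fun f _ => by ring
  have h5 : energy S θ (current S θ a b)
      = ∑ f ∈ S, current S θ a b f * current S θ a b f * Real.exp (-θ f) := by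
    simp only [energy, sq]
  rw [h1, h2] at h4
  rw [h5, h2]
  linarith

lemma IsFlow.mono {S S' : Finset (Sym2 V)} (hSS : S ⊆ S') {a b : V} {φ : Sym2 V → ℝ}
    (h : IsFlow S a b φ) : IsFlow S' a b φ := by
  refine ⟨fun f hf => h.1 f fun hm => hf (hSS hm), fun p => ?_⟩
  rw [← h.2 p]
  exact (Finset.sum_subset hSS fun f _ hf => by rw [h.1 f hf, zero_mul]).symm

lemma energy_mono_eq {S S' : Finset (Sym2 V)} (hSS : S ⊆ S') {a b : V} {φ θ : Sym2 V → ℝ}
    (h : IsFlow S a b φ) : energy S' θ φ = energy S θ φ :=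
  (Finset.sum_subset hSS fun f _ hf => by rw [h.1 f hf]; ring).symm

lemma IsFlow.segment {S : Finset (Sym2 V)} {a b : V} {φ ψ : Sym2 V → ℝ} (hφ : IsFlow S a b φ)
    (hψ : IsFlow S a b ψ) (s : ℝ) : IsFlow S a b (fun f => φ f + s * (ψ f - φ f)) := by
  refine ⟨fun f hf => by simp [hφ.1 f hf, hψ.1 f hf], fun p => ?_⟩
  have : ∀ f ∈ S, (φ f + s * (ψ f - φ f)) * dif p f
      = (1 - s) * (φ f * dif p f) + s * (ψ f * dif p f) := fun f _ => by ring
  rw [Finset.sum_congr rfl this, Finset.sum_add_distrib, ← Finset.mul_sum, ← Finset.mul_sum,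
    hφ.2, hψ.2]
  ring

/-- Rayleigh monotonicity in the edge set. -/
lemma mfin_antitone {S S' : Finset (Sym2 V)} (hSS : S ⊆ S') (θ : Sym2 V → ℝ) {e : Sym2 V}
    (he : e ∈ S) : mfin S' θ e ≤ mfin S θ e := by
  induction e using Sym2.ind with
  | h a b =>
    rw [mfin_eq_energy θ he]
    refine (mfin_le_energy θ (hSS he) ((current_flow θ he).mono hSS)).trans_eq ?_
    rw [energy_mono_eq hSS (current_flow θ he)]

lemma mfin_le_exp_mul {S : Finset (Sym2 V)} {x x' : Sym2 V → ℝ} {δ : ℝ} {e : Sym2 V} (he : e ∈ S)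
    (h : ∀ f ∈ S, |x f - x' f| ≤ δ) : mfin S x' e ≤ Real.exp (2 * δ) * mfin S x e := by
  induction e using Sym2.ind with
  | h a b =>
    refine (mfin_le_energy x' he (current_flow x he)).trans ?_
    rw [mfin_eq_energy x he, energy, energy, Finset.mul_sum, Finset.mul_sum, Finset.mul_sum]
    refine Finset.sum_le_sum fun f hf => ?_
    have h1 := abs_le.1 (h f hf)
    have h2 := abs_le.1 (h _ he)
    have h3 : Real.exp (x' s(a, b)) * Real.exp (-x' f) ≤
        Real.exp (2 * δ) * (Real.exp (x s(a, b)) * Real.exp (-x f)) := by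
      rw [← Real.exp_add, ← Real.exp_add, ← Real.exp_add]
      exact Real.exp_le_exp.2 (by linarith)
    have h4 := mul_le_mul_of_nonneg_left h3 (sq_nonneg (current S x a b f))
    linarith

/-- The marginal is `2`-Lipschitz for the supremum norm. -/
lemma mfin_lipschitz {S : Finset (Sym2 V)} {x x' : Sym2 V → ℝ} {δ : ℝ} (hδ : 0 ≤ δ)
    (h : ∀ f ∈ S, |x f - x' f| ≤ δ) (e : Sym2 V) : |mfin S x e - mfin S x' e| ≤ 2 * δ := by
  by_cases he : e ∈ S
  · have h' : ∀ f ∈ S, |x' f - x f| ≤ δ := fun f hf => by rw [abs_sub_comm]; exact h f hf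
    have h1 := mfin_le_exp_mul he h
    have h2 := mfin_le_exp_mul he h'
    have hb : 1 - 2 * δ ≤ Real.exp (-(2 * δ)) := by
      have := Real.add_one_le_exp (-(2 * δ)); linarith
    have hE : Real.exp (2 * δ) * Real.exp (-(2 * δ)) = 1 := by
      rw [← Real.exp_add]; simp
    have key : ∀ u v : ℝ, 0 ≤ u → u ≤ 1 → v ≤ Real.exp (2 * δ) * u → 0 ≤ v → v ≤ 1 →
        v - u ≤ 2 * δ := by
      intro u v hu hu1 hvu hv hv1
      have h4 : v * Real.exp (-(2 * δ)) ≤ u := by
        have := mul_le_mul_of_nonneg_right hvu (Real.exp_pos (-(2 * δ))).le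
        rwa [mul_right_comm, hE, one_mul] at this
      nlinarith
    have n1 := mfin_nonneg S x e
    have n2 := mfin_nonneg S x' e
    have l1 := mfin_le_one S x e
    have l2 := mfin_le_one S x' e
    rw [abs_le]
    constructor
    · linarith [key _ _ n1 l1 h1 n2 l2]
    · linarith [key _ _ n2 l2 h2 n1 l1]
  · rw [mfin_eq_zero he, mfin_eq_zero he]
    simpa using hδ

lemma continuous_prb {ι : Type} {𝒯 : Finset (Finset ι)} (h : 𝒯.Nonempty) (T : Finset ι) :
    Continuous fun θ : ι → ℝ => prb 𝒯 θ T := by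
  unfold prb
  refine Continuous.div ?_ ?_ fun θ => (part_pos h θ).ne'
  · unfold wt; fun_prop
  · unfold part wt; fun_prop

lemma continuous_mfin (S : Finset (Sym2 V)) (e : Sym2 V) :
    Continuous fun θ : Sym2 V → ℝ => mfin S θ e := by
  unfold mfin marg
  refine continuous_finsetSum _ fun T hT => ?_
  split_ifs
  · exact continuous_prb ⟨T, hT⟩ T
  · exact continuous_const

end Vale.Agent.P143
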