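import Mathlib

/-!
# Continuous paths with independent Gaussian increments along all dyadic meshes
-/

namespace Vale.Agent.P143

open MeasureTheory ProbabilityTheory Filter Topology Finset Real
open scoped Classical NNReal ENNReal

/-- Independent standard Gaussian variables. -/
noncomputable def stdG (ι : Type) : Measure (ι → ℝ) := Measure.infinitePi fun _ => gaussianReal 0 1

instance (ι : Type) : IsProbabilityMeasure (stdG ι) := by unfold stdG; infer_instance

lemma infinitePi_comp_injective {ι κ X : Type} [MeasurableSpace X] (μ : Measure X)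
    [IsProbabilityMeasure μ] {g : κ → ι} (hg : Function.Injective g) :
    (Measure.infinitePi fun _ : ι => μ).map (fun x => x ∘ g)
      = Measure.infinitePi fun _ : κ => μ := by
  have hm : Measurable fun x : ι → X => x ∘ g :=
    measurable_pi_lambda _ fun i => measurable_pi_apply _
  refine Measure.eq_infinitePi _ fun s t ht => ?_
  rw [Measure.map_apply hm (MeasurableSet.pi s.countable_toSet fun i _ => ht i)]
  have hpre : (fun x : ι → X => x ∘ g) ⁻¹' Set.pi s t
      = Set.pi (↑(s.image g)) (Function.extend g t fun _ => Set.univ) := by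
    ext x
    simp [Set.mem_pi, hg.extend_apply]
  rw [hpre, Measure.infinitePi_pi _ (fun i hi => ?_), Finset.prod_image fun a _ b _ h => hg h]
  · simp [hg.extend_apply]
  · obtain ⟨a, -, rfl⟩ := Finset.mem_image.1 hi
    rw [hg.extend_apply]
    exact ht a

/-- Interleaving two families. -/
def interleave {ι X : Type} (p : (ι → X) × (ι → X)) (q : ι × Bool) : X :=
  if q.2 = true then p.1 q.1 else p.2 q.1

lemma measurable_interleave {ι X : Type} [MeasurableSpace X] :
    Measurable (interleave : (ι → X) × (ι → X) → ι × Bool → X) := by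
  refine measurable_pi_lambda _ fun q => ?_
  unfold interleave
  split_ifs
  · exact (measurable_pi_apply _).comp measurable_fst
  · exact (measurable_pi_apply _).comp measurable_snd

lemma infinitePi_interleave {ι X : Type} [MeasurableSpace X] (μ : Measure X)
    [IsProbabilityMeasure μ] :
    ((Measure.infinitePi fun _ : ι => μ).prod (Measure.infinitePi fun _ : ι => μ)).map interleave
      = Measure.infinitePi fun _ : ι × Bool => μ := by
  refine Measure.eq_infinitePi _ fun s t ht => ?_
  rw [Measure.map_apply measurable_interleave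
    (MeasurableSet.pi s.countable_toSet fun i _ => ht i)]
  set s1 := (s.filter fun q => q.2 = true).image Prod.fst with hs1
  set s2 := (s.filter fun q => q.2 = false).image Prod.fst with hs2
  have hpre : (interleave : (ι → X) × (ι → X) → ι × Bool → X) ⁻¹' Set.pi s t
      = (Set.pi ↑s1 fun i => t (i, true)) ×ˢ (Set.pi ↑s2 fun i => t (i, false)) := by
    ext ⟨x, y⟩
    simp [Set.mem_pi, interleave, hs1, hs2]
    constructor
    · intro h
      exact ⟨fun i hi => (h i).2 hi, fun i hi => (h i).1 hi⟩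
    · rintro ⟨h1, h2⟩ i
      exact ⟨h2 i, h1 i⟩
  rw [hpre, Measure.prod_prod, Measure.infinitePi_pi _ (fun i _ => ht _),
    Measure.infinitePi_pi _ (fun i _ => ht _)]
  have e1 : ∏ i ∈ s1, μ (t (i, true)) = ∏ q ∈ s.filter (fun q => q.2 = true), μ (t q) := by
    rw [hs1, Finset.prod_image (fun a ha b hb h => ?_)]
    · refine Finset.prod_congr rfl fun q hq => ?_
      rw [← (Finset.mem_filter.1 hq).2]
    · exact Prod.ext h ((Finset.mem_filter.1 ha).2.trans (Finset.mem_filter.1 hb).2.symm)
  have e2 : ∏ i ∈ s2, μ (t (i, false)) = ∏ q ∈ s.filter (fun q => q.2 = false), μ (t q) := by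
    rw [hs2, Finset.prod_image (fun a ha b hb h => ?_)]
    · refine Finset.prod_congr rfl fun q hq => ?_
      rw [← (Finset.mem_filter.1 hq).2]
    · exact Prod.ext h ((Finset.mem_filter.1 ha).2.trans (Finset.mem_filter.1 hb).2.symm)
  rw [e1, e2, ← Finset.prod_filter_mul_prod_filter_not s (fun q => q.2 = true) fun q => μ (t q)]
  congr 2
  exact Finset.filter_congr fun q _ => by simp

lemma prod_to_bool {X : Type} [MeasurableSpace X] (μ : Measure X) [IsProbabilityMeasure μ] :
    (μ.prod μ).map (fun (p : X × X) (b : Bool) => if b = true then p.1 else p.2)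
      = Measure.infinitePi fun _ : Bool => μ := by
  have hm : Measurable fun (p : X × X) (b : Bool) => if b = true then p.1 else p.2 := by
    refine measurable_pi_lambda _ fun b => ?_
    cases b <;> simp <;> fun_prop
  refine Measure.eq_infinitePi _ fun s t ht => ?_
  rw [Measure.map_apply hm (MeasurableSet.pi s.countable_toSet fun i _ => ht i)]
  have hpre : (fun (p : X × X) (b : Bool) => if b = true then p.1 else p.2) ⁻¹' Set.pi s t
      = (if true ∈ s then t true else Set.univ) ×ˢ (if false ∈ s then t false else Set.univ) := by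
    ext ⟨x, y⟩
    by_cases h1 : true ∈ s <;> by_cases h2 : false ∈ s <;> simp [Set.mem_pi, h1, h2, and_comm]
  rw [hpre, Measure.prod_prod]
  have hprod : ∀ f : Bool → ℝ≥0∞, ∏ b ∈ s, f b
      = (if true ∈ s then f true else 1) * (if false ∈ s then f false else 1) := by
    intro f
    rw [← Fintype.prod_bool (f := fun b => if b ∈ s then f b else 1), Finset.prod_ite_mem,
      Finset.univ_inter]
  rw [hprod]
  by_cases h1 : true ∈ s <;> by_cases h2 : false ∈ s <;> simp [h1, h2]

/-- The rotation by an eighth of a turn, composed with a reflection. -/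
noncomputable def mix (x : Bool → ℝ) (b : Bool) : ℝ :=
  if b = true then (x true + x false) / Real.sqrt 2 else (x true - x false) / Real.sqrt 2

lemma measurable_mix : Measurable mix := by
  refine measurable_pi_lambda _ fun b => ?_
  cases b <;> simp [mix] <;> fun_prop

lemma stdG_mix : (stdG Bool).map mix = stdG Bool := by
  have hs2 : Real.sqrt 2 ≠ 0 := by positivity
  have hsq : Real.sqrt 2 * Real.sqrt 2 = 2 := Real.mul_self_sqrt (by norm_num)
  have hR := IsGaussian.map_rotation_eq_self (μ := gaussianReal 0 1)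
    (by simp [integral_id_gaussianReal]) (Real.pi / 4)
  have hS := Measure.prod_swap (μ := gaussianReal 0 1) (ν := gaussianReal 0 1)
  set F : ℝ × ℝ → Bool → ℝ := fun p b => if b = true then p.1 else p.2 with hF
  have hFm : Measurable F := by
    refine measurable_pi_lambda _ fun b => ?_
    cases b <;> simp [hF] <;> fun_prop
  have hrot : Measurable (ContinuousLinearMap.rotation (E := ℝ) (Real.pi / 4)) :=
    (ContinuousLinearMap.rotation (E := ℝ) (Real.pi / 4)).continuous.measurable
  rw [stdG, ← prod_to_bool, Measure.map_map measurable_mix hFm]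
  have hfun : mix ∘ F
      = F ∘ (ContinuousLinearMap.rotation (E := ℝ) (Real.pi / 4)) ∘ Prod.swap := by
    funext p b
    simp only [Function.comp_apply, hF, mix, ContinuousLinearMap.rotation_apply,
      Prod.fst_swap, Prod.snd_swap, Real.cos_pi_div_four, Real.sin_pi_div_four]
    cases b <;> simp <;> field_simp <;> rw [Real.sq_sqrt (by norm_num)] <;> ring
  rw [hfun, ← Measure.map_map hFm (hrot.comp measurable_swap),
    ← Measure.map_map hrot measurable_swap, hS, hR]

/-- The normalised increments at level `j`. -/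
noncomputable def nrm (Z : ℕ × ℕ → ℝ) : ℕ → ℕ → ℝ
  | 0 => fun i => Z (0, i)
  | j + 1 => fun i =>
      mix (fun b => if b = true then nrm Z j (i / 2) else Z (j + 1, i / 2)) (decide (i % 2 = 0))

lemma measurable_nrm : ∀ j, Measurable fun Z : ℕ × ℕ → ℝ => nrm Z j := by
  intro j
  induction j with
  | zero => exact measurable_pi_lambda _ fun i => measurable_pi_apply _
  | succ j ih =>
    refine measurable_pi_lambda _ fun i => ?_
    have h1 : Measurable fun (Z : ℕ × ℕ → ℝ) (b : Bool) =>
        if b = true then nrm Z j (i / 2) else Z (j + 1, i / 2) := by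
      refine measurable_pi_lambda _ fun b => ?_
      cases b <;> simp
      · fun_prop
      · exact (measurable_pi_apply _).comp ih
    exact (measurable_pi_apply _).comp (measurable_mix.comp h1)

lemma map_prefix_next {X : Type} [MeasurableSpace X] [Zero X] (μ : Measure X)
    [IsProbabilityMeasure μ] {α : Type} [MeasurableSpace α] {i : ℕ} {r : (ℕ → X) → α}
    (hr : Measurable r) (hdep : ∀ η η', (∀ l < i, η l = η' l) → r η = r η') :
    (Measure.infinitePi fun _ : ℕ => μ).map (fun η => (r η, η i))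
      = ((Measure.infinitePi fun _ : ℕ => μ).map r).prod μ := by
  have hind : iIndepFun (fun (l : ℕ) (η : ℕ → X) => η l) (Measure.infinitePi fun _ : ℕ => μ) :=
    iIndepFun_infinitePi (X := fun _ x => x) fun _ => measurable_id
  have h1 := hind.indepFun_finset (Finset.range i) {i} (by simp)
    fun l => measurable_pi_apply l
  set pad : (↥(Finset.range i) → X) → ℕ → X :=
    fun u l => if hl : l ∈ Finset.range i then u ⟨l, hl⟩ else 0 with hpad
  have hpm : Measurable pad := by
    refine measurable_pi_lambda _ fun l => ?_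
    simp only [hpad]
    split_ifs
    · exact measurable_pi_apply _
    · exact measurable_const
  have h2 := h1.comp (hr.comp hpm)
    (measurable_pi_apply (⟨i, Finset.mem_singleton_self i⟩ : ↥({i} : Finset ℕ)))
  have hre : ∀ η, r (pad fun l => η l.1) = r η := fun η =>
    hdep _ _ fun l hl => by simp only [hpad]; rw [dif_pos (Finset.mem_range.2 hl)]
  have h3 : IndepFun r (fun η => η i) (Measure.infinitePi fun _ : ℕ => μ) := by
    have hfun : r = fun η => r (pad fun l => η l.1) := funext fun η => (hre η).symm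
    rw [hfun]
    exact h2
  rw [(indepFun_iff_map_prod_eq_prod_map_map hr.aemeasurable
    (measurable_pi_apply i).aemeasurable).1 h3, Measure.infinitePi_map_eval]

lemma nrm_congr {Z Z' : ℕ × ℕ → ℝ} : ∀ {j : ℕ}, (∀ l ≤ j, ∀ i, Z (l, i) = Z' (l, i)) →
    nrm Z j = nrm Z' j := by
  intro j
  induction j with
  | zero => intro h; funext i; exact h 0 le_rfl i
  | succ j ih =>
    intro h
    funext i
    simp only [nrm, ih fun l hl => h l (by omega), h (j + 1) le_rfl]

/-- The normalised increments at each level are independent standard Gaussian variables. -/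
lemma law_nrm : ∀ j, (stdG (ℕ × ℕ)).map (fun Z => nrm Z j) = stdG ℕ := by
  intro j
  induction j with
  | zero =>
    exact infinitePi_comp_injective (gaussianReal 0 1) (g := fun (i : ℕ) => ((0 : ℕ), i))
      fun a b h => by simpa using h
  | succ j ih =>
    set curZ : (ℕ × ℕ → ℝ) → ℕ → ℕ → ℝ := fun Z l i => Z (l, i) with hcur
    have hcm : Measurable curZ := (MeasurableEquiv.curry ℕ ℕ ℝ).measurable
    have hcl : (stdG (ℕ × ℕ)).map curZ = Measure.infinitePi fun _ : ℕ => stdG ℕ :=
      Measure.infinitePi_map_curry (fun _ _ => gaussianReal 0 1)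
    set r : (ℕ → ℕ → ℝ) → ℕ → ℝ := fun R => nrm (fun p => R p.1 p.2) j with hr
    have hrm : Measurable r := (measurable_nrm j).comp (measurable_pi_lambda _ fun p =>
      (measurable_pi_apply p.2).comp (measurable_pi_apply p.1))
    have hdep : ∀ R R' : ℕ → ℕ → ℝ, (∀ l < j + 1, R l = R' l) → r R = r R' := fun R R' h =>
      nrm_congr fun l hl i => by simp [h l (by omega)]
    have hjoint : (stdG (ℕ × ℕ)).map (fun Z => (nrm Z j, fun i => Z (j + 1, i)))
        = (stdG ℕ).prod (stdG ℕ) := by
      have h1 := map_prefix_next (stdG ℕ) hrm hdep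
      rw [← hcl, Measure.map_map (hrm.prodMk (measurable_pi_apply _)) hcm,
        Measure.map_map hrm hcm] at h1
      have h2 : (r ∘ curZ) = fun Z => nrm Z j := rfl
      rw [h2, ih] at h1
      exact h1
    set g : ℕ → ℕ × Bool := fun i => (i / 2, decide (i % 2 = 0)) with hg
    have hginj : Function.Injective g := by
      intro a b h
      simp only [hg, Prod.mk.injEq, decide_eq_decide] at h
      omega
    set post : (ℕ × Bool → ℝ) → ℕ → ℝ :=
      fun x i => mix (fun b => x ((g i).1, b)) (g i).2 with hpost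
    have hpm : Measurable post := by
      refine measurable_pi_lambda _ fun i => ?_
      have h1 : Measurable fun (x : ℕ × Bool → ℝ) (b : Bool) => x ((g i).1, b) :=
        measurable_pi_lambda _ fun b => measurable_pi_apply _
      exact (measurable_pi_apply (g i).2).comp (measurable_mix.comp h1)
    have hfun : (fun Z : ℕ × ℕ → ℝ => nrm Z (j + 1))
        = post ∘ interleave ∘ fun Z => (nrm Z j, fun i => Z (j + 1, i)) := rfl
    have hA : Measurable fun Z : ℕ × ℕ → ℝ => (nrm Z j, fun i => Z (j + 1, i)) :=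
      (measurable_nrm j).prodMk (measurable_pi_lambda _ fun i => measurable_pi_apply _)
    rw [hfun, ← Measure.map_map hpm (measurable_interleave.comp hA),
      ← Measure.map_map measurable_interleave hA, hjoint, stdG, infinitePi_interleave]
    set unc : (ℕ → Bool → ℝ) → ℕ × Bool → ℝ := ⇑(MeasurableEquiv.curry ℕ Bool ℝ).symm
    have hsplit : post = (fun x => x ∘ g) ∘ unc ∘ (fun (x : ℕ → Bool → ℝ) i => mix (x i))
        ∘ ⇑(MeasurableEquiv.curry ℕ Bool ℝ) := rfl
    have hm1 : Measurable fun (x : ℕ → Bool → ℝ) i => mix (x i) :=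
      measurable_pi_lambda _ fun i => measurable_mix.comp (measurable_pi_apply i)
    have hm2 : Measurable fun x : ℕ × Bool → ℝ => x ∘ g :=
      measurable_pi_lambda _ fun i => measurable_pi_apply _
    have hcu : Measurable unc := (MeasurableEquiv.curry ℕ Bool ℝ).symm.measurable
    have hc : Measurable ⇑(MeasurableEquiv.curry ℕ Bool ℝ) := MeasurableEquiv.measurable _
    rw [hsplit, ← Measure.map_map hm2 (hcu.comp (hm1.comp hc)),
      ← Measure.map_map hcu (hm1.comp hc), ← Measure.map_map hm1 hc,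
      Measure.infinitePi_map_curry (fun _ _ => gaussianReal 0 1),
      Measure.infinitePi_map_pi _ (fun _ => measurable_mix)]
    have : (fun _ : ℕ => (Measure.infinitePi fun _ : Bool => gaussianReal 0 1).map mix)
        = fun _ : ℕ => Measure.infinitePi fun _ : Bool => gaussianReal 0 1 :=
      funext fun _ => stdG_mix
    simp only [this]
    rw [Measure.infinitePi_map_curry_symm (fun _ _ => gaussianReal 0 1)]
    exact infinitePi_comp_injective _ hginj

/-- The increments at level `j`. -/
noncomputable def incr (Z : ℕ × ℕ → ℝ) (j i : ℕ) : ℝ := nrm Z j i / Real.sqrt 2 ^ j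

lemma incr_split (Z : ℕ × ℕ → ℝ) (j i : ℕ) :
    incr Z (j + 1) (2 * i) + incr Z (j + 1) (2 * i + 1) = incr Z j i ∧
      incr Z (j + 1) (2 * i) - incr Z (j + 1) (2 * i + 1) = Z (j + 1, i) / Real.sqrt 2 ^ j := by
  have hs : Real.sqrt 2 ≠ 0 := by positivity
  have hsq : Real.sqrt 2 * Real.sqrt 2 = 2 := Real.mul_self_sqrt (by norm_num)
  have h1 : (2 * i) / 2 = i := by omega
  have h2 : (2 * i + 1) / 2 = i := by omega
  have h3 : (2 * i + 1) % 2 ≠ 0 := by omega
  simp only [incr, nrm, mix, h1, h2, Nat.mul_mod_right, h3, decide_true, decide_false, if_true,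
    Bool.false_eq_true, if_false, pow_succ]
  constructor <;> field_simp <;> ring_nf <;> rw [Real.sq_sqrt (by norm_num)]

/-- The unit ramp. -/
noncomputable def ramp (x : ℝ) : ℝ := max 0 (min 1 x)

lemma ramp_zero {x : ℝ} (h : x ≤ 0) : ramp x = 0 := by
  rw [ramp, max_eq_left]; exact (min_le_right _ _).trans h

lemma ramp_one {x : ℝ} (h : 1 ≤ x) : ramp x = 1 := by
  rw [ramp, min_eq_left h, max_eq_right zero_le_one]

/-- The piecewise linear path with increments `d`. -/
noncomputable def poly (d : ℕ → ℝ) (x : ℝ) : ℝ :=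
  ∑ i ∈ Finset.range (⌊x⌋₊ + 1), d i * ramp (x - i)

lemma poly_eq (d : ℕ → ℝ) {x : ℝ} {N : ℕ} (h : x ≤ N) :
    poly d x = ∑ i ∈ Finset.range N, d i * ramp (x - i) := by
  have key : ∀ M : ℕ, x ≤ M → ∀ i, M ≤ i → d i * ramp (x - i) = 0 := fun M hM i hi => by
    have : (M : ℝ) ≤ i := by exact_mod_cast hi
    rw [ramp_zero (by linarith), mul_zero]
  have hfl : x ≤ ((⌊x⌋₊ + 1 : ℕ) : ℝ) := by
    push_cast; exact (Nat.lt_floor_add_one x).le
  have hext : ∀ M : ℕ, x ≤ M → (∑ i ∈ Finset.range M, d i * ramp (x - i))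
      = ∑ i ∈ Finset.range (max N (⌊x⌋₊ + 1) + M), d i * ramp (x - i) := fun M hM =>
    Finset.sum_subset (Finset.range_subset_range.2 (by omega)) fun i _ hi =>
      key M hM i (by simpa using hi)
  rw [poly]
  set A := ⌊x⌋₊ + 1
  have e1 : (∑ i ∈ Finset.range A, d i * ramp (x - i))
      = ∑ i ∈ Finset.range (A + N), d i * ramp (x - i) :=
    Finset.sum_subset (Finset.range_subset_range.2 (by omega)) fun i _ hi =>
      key A hfl i (by simpa using hi)
  have e2 : (∑ i ∈ Finset.range N, d i * ramp (x - i))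
      = ∑ i ∈ Finset.range (A + N), d i * ramp (x - i) :=
    Finset.sum_subset (Finset.range_subset_range.2 (by omega)) fun i _ hi =>
      key N h i (by simpa using hi)
  rw [e1, e2]

lemma poly_nat (d : ℕ → ℝ) (n : ℕ) : poly d n = ∑ i ∈ Finset.range n, d i := by
  rw [poly_eq d (le_refl (n : ℝ))]
  refine Finset.sum_congr rfl fun i hi => ?_
  have : (i : ℝ) + 1 ≤ n := by exact_mod_cast Finset.mem_range.1 hi
  rw [ramp_one (by linarith), mul_one]

lemma continuous_poly (d : ℕ → ℝ) : Continuous (poly d) := by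
  refine continuous_iff_continuousAt.2 fun x => ?_
  obtain ⟨N, hN⟩ := exists_nat_gt x
  refine ContinuousAt.congr (f := fun y => ∑ i ∈ Finset.range N, d i * ramp (y - i)) ?_ ?_
  · unfold ramp; fun_prop
  · filter_upwards [eventually_lt_nhds hN] with y hy
    exact (poly_eq d hy.le).symm

lemma poly_refine {d d' : ℕ → ℝ} (h : ∀ i, d' (2 * i) + d' (2 * i + 1) = d i) (x : ℝ) :
    |poly d' (2 * x) - poly d x| ≤ |d' (2 * ⌊x⌋₊) - d' (2 * ⌊x⌋₊ + 1)| / 2 ∧
      ∀ n : ℕ, x = n → poly d' (2 * x) = poly d x := by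
  obtain ⟨N, hN⟩ : ∃ N : ℕ, x < N ∧ ⌊x⌋₊ < N :=
    ⟨⌊x⌋₊ + 1, by push_cast; exact Nat.lt_floor_add_one x, Nat.lt_succ_self _⟩
  have hpair : ∀ (f : ℕ → ℝ) (M : ℕ), ∑ i ∈ Finset.range (2 * M), f i
      = ∑ i ∈ Finset.range M, (f (2 * i) + f (2 * i + 1)) := by
    intro f M
    induction M with
    | zero => simp
    | succ M ih =>
      rw [show 2 * (M + 1) = 2 * M + 1 + 1 by ring, Finset.sum_range_succ, Finset.sum_range_succ,
        ih, Finset.sum_range_succ _ M]
      ring
  set τ : ℕ → ℝ := fun i => ramp (2 * x - (2 * i : ℕ)) - ramp (2 * x - (2 * i + 1 : ℕ))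
  have hτ0 : ∀ i : ℕ, (x ≤ i ∨ (i : ℝ) + 1 ≤ x) → τ i = 0 := by
    intro i hi
    simp only [τ]
    push_cast
    rcases hi with hi | hi
    · rw [ramp_zero (by linarith), ramp_zero (by linarith), sub_self]
    · rw [ramp_one (by linarith), ramp_one (by linarith), sub_self]
  have hramp : ∀ i : ℕ, ramp (x - i)
      = (ramp (2 * x - (2 * i : ℕ)) + ramp (2 * x - (2 * i + 1 : ℕ))) / 2 := by
    intro i
    push_cast
    rcases le_total (x - i) 0 with h0 | h0
    · rw [ramp_zero h0, ramp_zero (by linarith), ramp_zero (by linarith)]; ring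
    rcases le_total 1 (x - i) with h1 | h1
    · rw [ramp_one h1, ramp_one (by linarith), ramp_one (by linarith)]; ring
    have e0 : ∀ y : ℝ, 0 ≤ y → y ≤ 1 → ramp y = y := fun y a b => by
      rw [ramp, min_eq_right b, max_eq_right a]
    rcases le_total (x - i) (1 / 2) with h2 | h2
    · rw [e0 _ h0 h1, e0 (2 * x - 2 * i) (by linarith) (by linarith), ramp_zero (by linarith)]
      ring
    · rw [e0 _ h0 h1, ramp_one (by linarith),
        e0 (2 * x - (2 * i + 1)) (by linarith) (by linarith)]
      ring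
  have hdiff : poly d' (2 * x) - poly d x
      = ∑ i ∈ Finset.range N, (d' (2 * i) - d' (2 * i + 1)) / 2 * τ i := by
    rw [poly_eq d' (N := 2 * N) (by push_cast; linarith [hN.1]), poly_eq d hN.1.le, hpair,
      ← Finset.sum_sub_distrib]
    refine Finset.sum_congr rfl fun i _ => ?_
    rw [hramp i, ← h i]
    simp only [τ]
    ring
  have hzero : ∀ i ∈ Finset.range N, i ≠ ⌊x⌋₊ → τ i = 0 := by
    intro i _ hne
    refine hτ0 i ?_
    rcases lt_or_gt_of_ne hne with hl | hg
    · right
      have h1 : ((i + 1 : ℕ) : ℝ) ≤ (⌊x⌋₊ : ℝ) := by exact_mod_cast hl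
      have h2 : (0:ℝ) ≤ x := by
        by_contra hx
        rw [Nat.floor_of_nonpos (by linarith)] at hl
        omega
      push_cast at h1
      linarith [Nat.floor_le h2]
    · left
      have h1 : ((⌊x⌋₊ + 1 : ℕ) : ℝ) ≤ (i : ℝ) := by exact_mod_cast hg
      push_cast at h1
      linarith [Nat.lt_floor_add_one x]
  have hsingle : poly d' (2 * x) - poly d x
      = (d' (2 * ⌊x⌋₊) - d' (2 * ⌊x⌋₊ + 1)) / 2 * τ ⌊x⌋₊ := by
    rw [hdiff]
    exact Finset.sum_eq_single_of_mem _ (Finset.mem_range.2 hN.2)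
      fun i hi hne => by rw [hzero i hi hne, mul_zero]
  have hτb : |τ ⌊x⌋₊| ≤ 1 := by
    simp only [τ, ramp, abs_le]
    constructor <;>
    · have a1 : ∀ y : ℝ, 0 ≤ max 0 (min 1 y) := fun y => le_max_left _ _
      have a2 : ∀ y : ℝ, max 0 (min 1 y) ≤ 1 := fun y => max_le zero_le_one (min_le_left _ _)
      linarith [a1 (2 * x - (2 * ⌊x⌋₊ : ℕ)), a2 (2 * x - (2 * ⌊x⌋₊ : ℕ)),
        a1 (2 * x - (2 * ⌊x⌋₊ + 1 : ℕ)), a2 (2 * x - (2 * ⌊x⌋₊ + 1 : ℕ))]
  constructor
  · rw [hsingle, abs_mul, abs_div, abs_two]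
    exact mul_le_of_le_one_right (by positivity) hτb
  · intro n hn
    have : τ ⌊x⌋₊ = 0 := hτ0 _ (Or.inl (by rw [hn, Nat.floor_natCast]))
    rw [this, mul_zero, sub_eq_zero] at hsingle
    exact hsingle

/-- Dyadic approximation at level `j`. -/
noncomputable def lev (Z : ℕ × ℕ → ℝ) (j : ℕ) (t : ℝ) : ℝ := poly (incr Z j) (t * 2 ^ j)

/-- The path. -/
noncomputable def path (Z : ℕ × ℕ → ℝ) (t : ℝ) : ℝ := limsup (fun j => lev Z j t) atTop

lemma lev_diff (Z : ℕ × ℕ → ℝ) (j : ℕ) (t : ℝ) :
    |lev Z (j + 1) t - lev Z j t| ≤ |Z (j + 1, ⌊t * 2 ^ j⌋₊)| / (2 * Real.sqrt 2 ^ j) := by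
  have h := (poly_refine (d := incr Z j) (d' := incr Z (j + 1))
    (fun i => (incr_split Z j i).1) (t * 2 ^ j)).1
  rw [(incr_split Z j _).2] at h
  rw [lev, lev, pow_succ, show t * ((2:ℝ) ^ j * 2) = 2 * (t * 2 ^ j) by ring]
  refine h.trans_eq ?_
  rw [abs_div, abs_of_pos (pow_pos (Real.sqrt_pos.2 two_pos) j)]
  field_simp

lemma lev_dyadic (Z : ℕ × ℕ → ℝ) (j n : ℕ) (t : ℝ) (ht : t * 2 ^ j = n) :
    ∀ l, j ≤ l → lev Z l t = ∑ i ∈ Finset.range n, incr Z j i := by
  intro l hl
  induction l, hl using Nat.le_induction with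
  | base => rw [lev, ht, poly_nat]
  | succ l hl ih =>
    rw [← ih, lev, lev, pow_succ, show t * ((2:ℝ) ^ l * 2) = 2 * (t * 2 ^ l) by ring]
    refine (poly_refine (fun i => (incr_split Z l i).1) _).2 (n * 2 ^ (l - j)) ?_
    obtain ⟨d, rfl⟩ := Nat.exists_eq_add_of_le hl
    rw [Nat.add_sub_cancel_left, pow_add, ← mul_assoc, ht]
    push_cast
    ring

lemma path_dyadic (Z : ℕ × ℕ → ℝ) (j n : ℕ) (t : ℝ) (ht : t * 2 ^ j = n) :
    path Z t = ∑ i ∈ Finset.range n, incr Z j i := by
  refine (tendsto_const_nhds.congr' ?_).limsup_eq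
  filter_upwards [eventually_ge_atTop j] with l hl
  exact (lev_dyadic Z j n t ht l hl).symm

lemma measurable_lev (j : ℕ) : Measurable fun p : (ℕ × ℕ → ℝ) × ℝ => lev p.1 j p.2 := by
  refine measurable_of_tendsto_metrizable (f := fun (N : ℕ) (p : (ℕ × ℕ → ℝ) × ℝ) =>
    ∑ i ∈ Finset.range N, incr p.1 j i * ramp (p.2 * 2 ^ j - i)) (fun N => ?_) ?_
  · refine Finset.measurable_sum _ fun i _ => Measurable.mul ?_ ?_
    · unfold incr
      exact (((measurable_pi_apply i).comp (measurable_nrm j)).comp measurable_fst).div_const _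
    · unfold ramp; fun_prop
  · refine tendsto_pi_nhds.2 fun p => tendsto_const_nhds.congr' ?_
    obtain ⟨M, hM⟩ := exists_nat_gt (p.2 * 2 ^ j)
    filter_upwards [eventually_ge_atTop M] with N hN
    exact poly_eq _ (hM.le.trans (by exact_mod_cast hN))

lemma measurable_path : Measurable fun p : (ℕ × ℕ → ℝ) × ℝ => path p.1 p.2 :=
  Measurable.limsup measurable_lev

lemma gaussian_tail {a : ℝ} (ha : 0 < a) :
    (gaussianReal 0 1).real {x | a < |x|} ≤ (∫ x, x ^ 8 ∂gaussianReal 0 1) / a ^ 8 := by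
  have hint : Integrable (fun x : ℝ => x ^ 8) (gaussianReal 0 1) := by
    have h : MemLp id ((8 : ℕ) : ℝ≥0∞) (gaussianReal 0 1) :=
      memLp_id_gaussianReal' _ (ENNReal.natCast_ne_top 8)
    refine (h.integrable_norm_pow (by norm_num)).congr (Eventually.of_forall fun x => ?_)
    simp only [id_eq, Real.norm_eq_abs]
    exact Even.pow_abs (by decide) x
  rw [le_div_iff₀ (by positivity), mul_comm]
  refine le_trans (mul_le_mul_of_nonneg_left ?_ (by positivity))
    (mul_meas_ge_le_integral_of_nonneg (Eventually.of_forall fun x => by positivity) hint (a ^ 8))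
  refine measureReal_mono fun x hx => ?_
  simp only [Set.mem_ofPred_eq] at hx ⊢
  calc a ^ 8 ≤ |x| ^ 8 := pow_le_pow_left₀ ha.le hx.le 8
    _ = x ^ 8 := Even.pow_abs (by decide) x

/-- The paths are almost surely continuous. -/
lemma path_continuous : ∀ᵐ Z ∂stdG (ℕ × ℕ), Continuous (path Z) := by
  set r := Real.sqrt (Real.sqrt 2) with hr
  have hr0 : 0 < r := Real.sqrt_pos.2 (Real.sqrt_pos.2 two_pos)
  have hr2 : r ^ 2 = Real.sqrt 2 := Real.sq_sqrt (Real.sqrt_nonneg _)
  have hr4 : r ^ 4 = 2 := by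
    rw [show r ^ 4 = (r ^ 2) ^ 2 by ring, hr2, Real.sq_sqrt (by norm_num)]
  have hr1 : 1 < r := by
    by_contra h
    push Not at h
    have := pow_le_one₀ hr0.le h (n := 4)
    linarith
  set C := ∫ x, x ^ 8 ∂gaussianReal 0 1 with hC
  have hC0 : 0 ≤ C := integral_nonneg fun x => by positivity
  have hgood : ∀ T : ℕ, ∀ᵐ Z ∂stdG (ℕ × ℕ), ∀ᶠ j in atTop, ∀ i ≤ T * 2 ^ j,
      |Z (j + 1, i)| ≤ r ^ j := by
    intro T
    set bad : ℕ → Set (ℕ × ℕ → ℝ) :=
      fun j => ⋃ i ∈ Finset.range (T * 2 ^ j + 1), {Z | r ^ j < |Z (j + 1, i)|} with hbad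
    have hb : ∀ j, stdG (ℕ × ℕ) (bad j) ≤ ENNReal.ofReal ((T + 1) * C * (1 / 2) ^ j) := by
      intro j
      refine (measure_biUnion_finset_le _ _).trans ?_
      have hone : ∀ i, stdG (ℕ × ℕ) {Z | r ^ j < |Z (j + 1, i)|}
          ≤ ENNReal.ofReal (C / (4:ℝ) ^ j) := by
        intro i
        have hmp : MeasurePreserving (fun Z : ℕ × ℕ → ℝ => Z (j + 1, i)) (stdG (ℕ × ℕ))
            (gaussianReal 0 1) := measurePreserving_eval_infinitePi _ _
        have hms : MeasurableSet {x : ℝ | r ^ j < |x|} :=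
          measurableSet_lt measurable_const (by fun_prop)
        rw [show {Z : ℕ × ℕ → ℝ | r ^ j < |Z (j + 1, i)|}
          = (fun Z : ℕ × ℕ → ℝ => Z (j + 1, i)) ⁻¹' {x : ℝ | r ^ j < |x|} from rfl,
          hmp.measure_preimage hms.nullMeasurableSet, ← ofReal_measureReal]
        refine ENNReal.ofReal_le_ofReal ((gaussian_tail (pow_pos hr0 j)).trans_eq ?_)
        rw [show (r ^ j) ^ 8 = (r ^ 4 * r ^ 4) ^ j by
          rw [← pow_mul, ← pow_add, ← pow_mul, mul_comm], hr4]
        norm_num [hC]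
      refine (Finset.sum_le_card_nsmul _ _ _ fun i _ => hone i).trans ?_
      rw [Finset.card_range, nsmul_eq_mul, ← ENNReal.ofReal_natCast,
        ← ENNReal.ofReal_mul (by positivity)]
      refine ENNReal.ofReal_le_ofReal ?_
      push_cast
      have h2 : (1:ℝ) ≤ 2 ^ j := one_le_pow₀ (by norm_num)
      calc ((T:ℝ) * 2 ^ j + 1) * (C / 4 ^ j) ≤ (((T:ℝ) + 1) * 2 ^ j) * (C / 4 ^ j) := by
            gcongr; nlinarith
        _ = _ := by
            rw [show (4:ℝ) ^ j = 2 ^ j * 2 ^ j by rw [← mul_pow]; norm_num, one_div, inv_pow]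
            field_simp
    have hsum : (∑' j, stdG (ℕ × ℕ) (bad j)) ≠ ⊤ := by
      refine ne_top_of_le_ne_top ?_ (ENNReal.tsum_le_tsum hb)
      rw [← ENNReal.ofReal_tsum_of_nonneg (fun j => by positivity)
        ((summable_geometric_of_lt_one (by norm_num) (by norm_num)).mul_left _)]
      exact ENNReal.ofReal_ne_top
    filter_upwards [ae_eventually_notMem hsum] with Z hZ
    filter_upwards [hZ] with j hj i hi
    simp only [hbad, Set.mem_iUnion, Set.mem_ofPred_eq, Finset.mem_range, not_exists, not_lt] at hj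
    exact hj i (by omega)
  rw [← ae_all_iff] at hgood
  filter_upwards [hgood] with Z hZ
  refine continuous_iff_continuousAt.2 fun t => ?_
  obtain ⟨T, hT⟩ := exists_nat_gt t
  refine ContinuousOn.continuousAt (s := Set.Iio (T:ℝ)) ?_ (Iio_mem_nhds hT)
  obtain ⟨J, hJ⟩ := eventually_atTop.1 (hZ T)
  have hq0 : 0 < 1 / r := by positivity
  have hq1 : 1 / r < 1 := by rw [div_lt_one hr0]; exact hr1
  have hd : ∀ s ∈ Set.Iio (T:ℝ), ∀ n,
      dist (lev Z (J + n) s) (lev Z (J + (n + 1)) s) ≤ (1 / r) ^ J * (1 / r) ^ n := by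
    intro s hs n
    rw [dist_comm, Real.dist_eq, ← pow_add]
    refine (lev_diff Z (J + n) s).trans ?_
    have hfl : ⌊s * 2 ^ (J + n)⌋₊ ≤ T * 2 ^ (J + n) := by
      refine Nat.floor_le_of_le ?_
      push_cast
      exact mul_le_mul_of_nonneg_right (le_of_lt hs) (by positivity)
    have hb := hJ (J + n) (by omega) _ hfl
    calc |Z (J + n + 1, ⌊s * 2 ^ (J + n)⌋₊)| / (2 * Real.sqrt 2 ^ (J + n))
        ≤ r ^ (J + n) / (1 * Real.sqrt 2 ^ (J + n)) := by gcongr <;> norm_num
      _ = (1 / r) ^ (J + n) := by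
          rw [one_mul, ← div_pow, ← hr2]
          congr 1
          field_simp
  have hlim : ∀ s ∈ Set.Iio (T:ℝ), Tendsto (fun n => lev Z (J + n) s) atTop (𝓝 (path Z s)) := by
    intro s hs
    obtain ⟨l, hl⟩ := cauchySeq_tendsto_of_complete
      (cauchySeq_of_le_geometric _ _ hq1 (hd s hs))
    have h2 : Tendsto (fun j => lev Z j s) atTop (𝓝 l) :=
      (tendsto_add_atTop_iff_nat J).1 (by simpa [add_comm] using hl)
    rw [path, h2.limsup_eq]
    exact hl
  have hu : TendstoUniformlyOn (fun n s => lev Z (J + n) s) (path Z) atTop (Set.Iio (T:ℝ)) := by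
    rw [Metric.tendstoUniformlyOn_iff]
    intro ε hε
    have h0 : Tendsto (fun n : ℕ => (1 / r) ^ J * (1 / r) ^ n / (1 - 1 / r)) atTop (𝓝 0) := by
      simpa using (((tendsto_pow_atTop_nhds_zero_of_lt_one hq0.le hq1)).const_mul
        ((1 / r) ^ J)).div_const (1 - 1 / r)
    filter_upwards [h0.eventually_lt_const hε] with n hn s hs
    rw [dist_comm]
    exact lt_of_le_of_lt
      (dist_le_of_le_geometric_of_tendsto _ _ hq1 (hd s hs) (hlim s hs) n) hn
  refine hu.continuousOn (Filter.Frequently.of_forall fun n => ?_)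
  exact ((continuous_poly _).comp (continuous_id.mul continuous_const)).continuousOn

/-- The law of the increments of the path along a dyadic mesh. -/
lemma law_path (j : ℕ) :
    (stdG (ℕ × ℕ)).map (fun Z i => path Z (((i + 1 : ℕ) : ℝ) / 2 ^ j) - path Z ((i : ℝ) / 2 ^ j))
      = Measure.infinitePi fun _ : ℕ => gaussianReal 0 (1 / 2 ^ j) := by
  have hfun : (fun Z i => path Z (((i + 1 : ℕ) : ℝ) / 2 ^ j) - path Z ((i : ℝ) / 2 ^ j))
      = (fun (x : ℕ → ℝ) i => x i / Real.sqrt 2 ^ j) ∘ fun Z => nrm Z j := by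
    funext Z i
    rw [path_dyadic Z j (i + 1) _ (by field_simp), path_dyadic Z j i _ (by field_simp),
      Finset.sum_range_succ]
    simp [incr]
  have hm : Measurable fun (x : ℕ → ℝ) i => x i / Real.sqrt 2 ^ j := by fun_prop
  rw [hfun, ← Measure.map_map hm (measurable_nrm j), law_nrm, stdG,
    Measure.infinitePi_map_pi (f := fun _ x => x / Real.sqrt 2 ^ j) _ (fun _ => by fun_prop)]
  congr 1
  funext _
  rw [gaussianReal_map_div_const]
  congr 1
  · simp
  · ext
    push_cast
    rw [← pow_mul, mul_comm j 2, pow_mul, Real.sq_sqrt (by norm_num)]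

end Vale.Agent.P143
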