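import Vale.Agent.P143.Softmax

/-!
# Gaussian shifts and the exact martingale identity
-/

namespace Vale.Agent.P143

open MeasureTheory ProbabilityTheory Finset Real
open scoped Classical NNReal ENNReal

variable {ι : Type}

/-- Extension by zero outside `S`. -/
noncomputable def ext0 (S : Finset ι) (x : ↥S → ℝ) (i : ι) : ℝ :=
  if h : i ∈ S then x ⟨i, h⟩ else 0

lemma measurable_ext0 (S : Finset ι) : Measurable (ext0 S) := by
  refine measurable_pi_lambda _ fun i => ?_
  unfold ext0
  split_ifs with h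
  · exact measurable_pi_apply _
  · exact measurable_const

/-- The indicator vector of a set. -/
noncomputable def vec (W : Finset ι) (i : ι) : ℝ := if i ∈ W then 1 else 0

lemma vec_mem (W : Finset ι) (i : ι) : 0 ≤ vec W i ∧ vec W i ≤ 1 := by
  unfold vec; split_ifs <;> norm_num

/-- Independent centred Gaussian variables of variance `v` indexed by `S`. -/
noncomputable def gam (S : Finset ι) (v : ℝ≥0) : Measure (↥S → ℝ) :=
  Measure.pi fun _ => gaussianReal 0 v

instance (S : Finset ι) (v : ℝ≥0) : IsProbabilityMeasure (gam S v) := by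
  unfold gam; infer_instance

lemma gaussianReal_shift (c : ℝ) {v : ℝ≥0} (hv : v ≠ 0) :
    gaussianReal c v = (gaussianReal 0 v).withDensity
      (fun x => ENNReal.ofReal (Real.exp (c / v * x - c ^ 2 / (2 * v)))) := by
  have hv' : (v : ℝ) ≠ 0 := by exact_mod_cast hv
  rw [gaussianReal_of_var_ne_zero c hv, gaussianReal_of_var_ne_zero 0 hv,
    ← withDensity_mul _ (measurable_gaussianPDF _ _) (by fun_prop)]
  congr 1
  funext x
  simp only [Pi.mul_apply, gaussianPDF, gaussianPDFReal]
  rw [← ENNReal.ofReal_mul (by positivity), mul_assoc _ (Real.exp _), ← Real.exp_add]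
  congr 3
  field_simp
  ring

/-- The density of the shift by `v • 1_W`. -/
noncomputable def dens (S : Finset ι) (W : Finset ι) (v : ℝ≥0) (x : ↥S → ℝ) : ℝ :=
  Real.exp ((∑ i ∈ W, ext0 S x i) - W.card * (v : ℝ) / 2)

lemma measurable_dens (S : Finset ι) (W : Finset ι) (v : ℝ≥0) : Measurable (dens S W v) := by
  unfold dens
  refine Real.measurable_exp.comp (Measurable.sub_const ?_ _)
  exact Finset.measurable_sum _ fun i _ => (measurable_pi_apply i).comp (measurable_ext0 S)

lemma map_shift {S W : Finset ι} (hW : W ⊆ S) {v : ℝ≥0} (hv : v ≠ 0) :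
    (gam S v).map (fun x i => x i + (v : ℝ) * vec W i.1)
      = (gam S v).withDensity (fun x => ENNReal.ofReal (dens S W v x)) := by
  set g : ↥S → ℝ → ℝ≥0∞ := fun i x => ENNReal.ofReal
    (Real.exp ((v : ℝ) * vec W i.1 / v * x - ((v : ℝ) * vec W i.1) ^ 2 / (2 * v))) with hg
  have hgm : ∀ i, Measurable (g i) := fun i => by simp only [hg]; fun_prop
  have hL : (gam S v).map (fun x i => x i + (v : ℝ) * vec W i.1)
      = Measure.pi fun i : ↥S => gaussianReal ((v : ℝ) * vec W i.1) v := by
    have h := Measure.pi_map_pi (μ := fun _ : ↥S => gaussianReal 0 v)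
      (f := fun i x => x + (v : ℝ) * vec W i.1) (hμ := fun i => inferInstance)
      (fun i => (measurable_id.add_const _).aemeasurable)
    rw [gam, h]
    congr 1
    funext i
    rw [gaussianReal_map_add_const, zero_add]
  rw [hL]
  refine Measure.pi_eq fun t ht => ?_
  have hprod : ∀ x : ↥S → ℝ, (Set.univ.pi t).indicator
      (fun x => ENNReal.ofReal (dens S W v x)) x = ∏ i, (t i).indicator (g i) (x i) := by
    intro x
    by_cases hx : x ∈ Set.univ.pi t
    · rw [Set.indicator_of_mem hx,
        Finset.prod_congr rfl fun i _ => Set.indicator_of_mem (hx i (Set.mem_univ i)) (g i)]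
      simp only [hg, dens]
      rw [← ENNReal.ofReal_prod_of_nonneg (fun i _ => (Real.exp_pos _).le), ← Real.exp_sum]
      congr 2
      have hv' : (v : ℝ) ≠ 0 := by exact_mod_cast hv
      have h1 : ∀ i : ↥S, (v : ℝ) * vec W i.1 / v * x i
          - ((v : ℝ) * vec W i.1) ^ 2 / (2 * v)
          = if i.1 ∈ W then ext0 S x i.1 - (v : ℝ) / 2 else 0 := by
        intro i
        unfold vec ext0
        rw [dif_pos i.2]
        split_ifs
        · field_simp
        · simp
      simp only [h1]
      rw [Finset.univ_eq_attach, Finset.sum_attach S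
        (fun i => if i ∈ W then ext0 S x i - (v : ℝ) / 2 else 0),
        Finset.sum_ite_mem, Finset.inter_eq_right.2 hW, Finset.sum_sub_distrib,
        Finset.sum_const, nsmul_eq_mul]
      ring
    · rw [Set.indicator_of_notMem hx]
      simp only [Set.mem_pi, Set.mem_univ, true_implies, not_forall] at hx
      obtain ⟨i, hi⟩ := hx
      exact (Finset.prod_eq_zero (Finset.mem_univ i) (Set.indicator_of_notMem hi _)).symm
  rw [withDensity_apply _ (MeasurableSet.univ_pi ht),
    ← lintegral_indicator (MeasurableSet.univ_pi ht)]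
  simp only [hprod]
  have hind : iIndepFun (fun i (x : ↥S → ℝ) => (t i).indicator (g i) (x i)) (gam S v) :=
    iIndepFun_pi (fun i => ((hgm i).indicator (ht i)).aemeasurable)
  rw [lintegral_prod_eq_prod_lintegral_of_indepFun Finset.univ _ hind
    (fun i => ((hgm i).indicator (ht i)).comp (measurable_pi_apply i))]
  refine Finset.prod_congr rfl fun i _ => ?_
  have hmp : MeasurePreserving (fun x : ↥S → ℝ => x i) (gam S v) (gaussianReal 0 v) :=
    measurePreserving_eval _ i
  rw [hmp.lintegral_comp ((hgm i).indicator (ht i)), lintegral_indicator (ht i),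
    gaussianReal_shift ((v : ℝ) * vec W i.1) hv, withDensity_apply _ (ht i)]

lemma ext0_shift {S W : Finset ι} (hW : W ⊆ S) (v : ℝ) (x : ↥S → ℝ) :
    ext0 S (fun i => x i + v * vec W i.1) = fun i => ext0 S x i + v * vec W i := by
  funext i
  unfold ext0
  by_cases h : i ∈ S
  · simp [h]
  · have : i ∉ W := fun hi => h (hW hi)
    simp [h, vec, this]

lemma integral_shift {S W : Finset ι} (hW : W ⊆ S) {v : ℝ≥0} (hv : v ≠ 0)
    {Φ : (ι → ℝ) → ℝ} (hΦ : Measurable Φ) :
    ∫ x, Φ (fun i => ext0 S x i + (v : ℝ) * vec W i) ∂gam S v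
      = ∫ x, Φ (ext0 S x) * dens S W v x ∂gam S v := by
  have hm : Measurable fun (x : ↥S → ℝ) (i : ↥S) => x i + (v : ℝ) * vec W i.1 := by fun_prop
  simp only [← ext0_shift hW]
  rw [← integral_map (f := fun x => Φ (ext0 S x)) hm.aemeasurable
    (hΦ.comp (measurable_ext0 S)).aestronglyMeasurable, map_shift hW hv,
    integral_withDensity_eq_integral_toReal_smul ((measurable_dens S W v).ennreal_ofReal)
      (Filter.Eventually.of_forall fun _ => ENNReal.ofReal_lt_top)]
  refine integral_congr_ae (Filter.Eventually.of_forall fun x => ?_)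
  simp only [smul_eq_mul, ENNReal.toReal_ofReal (show 0 ≤ dens S W v x from (Real.exp_pos _).le)]
  ring

lemma integrable_shift {S W : Finset ι} (hW : W ⊆ S) {v : ℝ≥0} (hv : v ≠ 0)
    {Φ : (ι → ℝ) → ℝ} (hΦ : Measurable Φ)
    (hint : Integrable (fun x => Φ (fun i => ext0 S x i + (v : ℝ) * vec W i)) (gam S v)) :
    Integrable (fun x => Φ (ext0 S x) * dens S W v x) (gam S v) := by
  have hm : Measurable fun (x : ↥S → ℝ) (i : ↥S) => x i + (v : ℝ) * vec W i.1 := by fun_prop
  simp only [← ext0_shift hW] at hint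
  have h1 : Integrable (fun x => Φ (ext0 S x))
      ((gam S v).map fun x i => x i + (v : ℝ) * vec W i.1) :=
    (integrable_map_measure (hΦ.comp (measurable_ext0 S)).aestronglyMeasurable hm.aemeasurable).2
      hint
  rw [map_shift hW hv, integrable_withDensity_iff (measurable_dens S W v).ennreal_ofReal
    (Filter.Eventually.of_forall fun _ => ENNReal.ofReal_lt_top)] at h1
  refine h1.congr (Filter.Eventually.of_forall fun x => ?_)
  simp only [ENNReal.toReal_ofReal (show 0 ≤ dens S W v x from (Real.exp_pos _).le)]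

lemma measurable_prb (𝒯 : Finset (Finset ι)) (T : Finset ι) :
    Measurable fun θ : ι → ℝ => prb 𝒯 θ T := by
  unfold prb part wt; fun_prop

lemma measurable_marg (𝒯 : Finset (Finset ι)) (i : ι) :
    Measurable fun θ : ι → ℝ => marg 𝒯 θ i := by
  unfold marg
  refine Finset.measurable_sum _ fun T _ => ?_
  split_ifs
  · exact measurable_prb 𝒯 T
  · exact measurable_const

/-- Bayes' formula: the exact martingale identity for the posterior probability of `W`. -/
lemma exact_identity {S : Finset ι} {𝒯 : Finset (Finset ι)} (hne : 𝒯.Nonempty)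
    (hsub : ∀ T ∈ 𝒯, T ⊆ S) {k : ℕ} (hk : ∀ T ∈ 𝒯, T.card = k) {v : ℝ≥0} (hv : v ≠ 0)
    {W : Finset ι} (hW : W ∈ 𝒯) {ψ : (ι → ℝ) → ℝ} (hψ : Measurable ψ) (y : ι → ℝ)
    (hint : ∀ T ∈ 𝒯, Integrable (fun x => prb 𝒯 (fun i => y i + ext0 S x i + (v : ℝ) * vec T i) W
      * ψ (fun i => y i + ext0 S x i + (v : ℝ) * vec T i)) (gam S v)) :
    ∑ T ∈ 𝒯, prb 𝒯 y T * ∫ x, prb 𝒯 (fun i => y i + ext0 S x i + (v : ℝ) * vec T i) W
        * ψ (fun i => y i + ext0 S x i + (v : ℝ) * vec T i) ∂gam S v
      = prb 𝒯 y W * ∫ x, ψ (fun i => y i + ext0 S x i + (v : ℝ) * vec W i) ∂gam S v := by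
  set Φ : (ι → ℝ) → ℝ := fun u => prb 𝒯 (fun i => y i + u i) W * ψ (fun i => y i + u i) with hΦdef
  have hadd : Measurable fun u : ι → ℝ => fun i => y i + u i := by fun_prop
  have hΦ : Measurable Φ := ((measurable_prb 𝒯 W).comp hadd).mul (hψ.comp hadd)
  have hψ' : Measurable fun u : ι → ℝ => ψ (fun i => y i + u i) := hψ.comp hadd
  have hint' : ∀ T ∈ 𝒯, Integrable (fun x => Φ (ext0 S x) * dens S T v x) (gam S v) := by
    intro T hT
    refine integrable_shift (hsub T hT) hv hΦ ((hint T hT).congr (Filter.Eventually.of_forall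
      fun x => ?_))
    simp only [hΦdef, add_assoc]
  have h1 : ∀ T ∈ 𝒯,
      (∫ x, prb 𝒯 (fun i => y i + ext0 S x i + (v : ℝ) * vec T i) W
        * ψ (fun i => y i + ext0 S x i + (v : ℝ) * vec T i) ∂gam S v)
      = ∫ x, Φ (ext0 S x) * dens S T v x ∂gam S v := by
    intro T hT
    rw [← integral_shift (hsub T hT) hv hΦ]
    simp only [hΦdef, add_assoc]
  have h2 : (∫ x, ψ (fun i => y i + ext0 S x i + (v : ℝ) * vec W i) ∂gam S v)
      = ∫ x, ψ (fun i => y i + ext0 S x i) * dens S W v x ∂gam S v := by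
    rw [← integral_shift (hsub W hW) hv hψ']
    simp only [add_assoc]
  rw [Finset.sum_congr rfl fun T hT => by rw [h1 T hT, ← integral_const_mul],
    ← integral_finsetSum _ fun T hT => (hint' T hT).const_mul _, h2, ← integral_const_mul]
  refine integral_congr_ae (Filter.Eventually.of_forall fun x => ?_)
  set u := ext0 S x with hu
  have hZ := part_pos hne y
  have hZ' := part_pos hne (fun i => y i + u i)
  have hd : ∀ T ∈ 𝒯, prb 𝒯 y T * dens S T v x
      = wt (fun i => y i + u i) T * (Real.exp (-((k : ℝ) * v / 2)) / part 𝒯 y) := by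
    intro T hT
    rw [prb, wt, wt, dens, hk T hT, Finset.sum_add_distrib, Real.exp_add, sub_eq_add_neg,
      Real.exp_add]
    ring
  calc ∑ T ∈ 𝒯, prb 𝒯 y T * (Φ u * dens S T v x)
      = Φ u * ∑ T ∈ 𝒯, prb 𝒯 y T * dens S T v x := by
        rw [Finset.mul_sum]; exact Finset.sum_congr rfl fun T _ => by ring
    _ = Φ u * (part 𝒯 (fun i => y i + u i) * (Real.exp (-((k : ℝ) * v / 2)) / part 𝒯 y)) := by
        rw [Finset.sum_congr rfl hd, ← Finset.sum_mul]; rfl
    _ = prb 𝒯 y W * (ψ (fun i => y i + u i) * dens S W v x) := by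
        rw [← mul_assoc (prb 𝒯 y W), mul_comm (prb 𝒯 y W) (ψ _), mul_assoc (ψ _), hd W hW]
        simp only [hΦdef]
        rw [prb]
        field_simp

end Vale.Agent.P143
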