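import Vale.Agent.P143.Defs
import Vale.Agent.P143.Infinite

/-!
# Spanning trees as bases, and existence of exhaustions
-/

namespace Vale.Agent.P143

open Finset Real Filter Topology
open scoped Classical

variable {V : Type} {G : SimpleGraph V}

lemma conn_iff_reachable {C : Finset (Sym2 V)} {u v : V} :
    Conn C u v ↔ (SimpleGraph.fromEdgeSet (C : Set (Sym2 V))).Reachable u v := by
  constructor
  · intro h
    induction h with
    | refl => exact SimpleGraph.Reachable.refl _
    | @tail b c _ hs ih =>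
      by_cases hbc : b = c
      · subst hbc; exact ih
      · exact ih.trans (SimpleGraph.Adj.reachable (by simp [hbc]; exact hs))
  · intro h
    rw [SimpleGraph.reachable_iff_reflTransGen] at h
    exact Relation.ReflTransGen.mono (fun a b hab => by
      simp only [SimpleGraph.fromEdgeSet_adj, Finset.mem_coe] at hab; exact hab.1) _ _ h

lemma forest_iff_isAcyclic {T : Finset (Sym2 V)} (hT : ↑T ⊆ G.edgeSet) :
    Forest T ↔ (SimpleGraph.fromEdgeSet (T : Set (Sym2 V))).IsAcyclic := by
  have hne : ∀ u v : V, s(u, v) ∈ T → u ≠ v := fun u v h => by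
    have := hT h
    rw [SimpleGraph.mem_edgeSet] at this
    exact this.ne
  have hdel : ∀ u v : V, (SimpleGraph.fromEdgeSet (T : Set (Sym2 V))).deleteEdges {s(u, v)}
      = SimpleGraph.fromEdgeSet ((T.erase s(u, v) : Finset (Sym2 V)) : Set (Sym2 V)) := by
    intro u v
    ext a b
    simp only [SimpleGraph.deleteEdges_adj, SimpleGraph.fromEdgeSet_adj, Finset.mem_coe,
      Finset.mem_erase, Set.mem_singleton_iff]
    tauto
  rw [SimpleGraph.isAcyclic_iff_forall_adj_isBridge]
  constructor
  · intro h u v huv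
    rw [SimpleGraph.fromEdgeSet_adj, Finset.mem_coe] at huv
    rw [SimpleGraph.isBridge_iff, hdel, ← conn_iff_reachable]
    exact h u v huv.1
  · intro h u v huv
    have := h (v := u) (w := v) (by simp [hne u v huv]; exact huv)
    rw [SimpleGraph.isBridge_iff, hdel, ← conn_iff_reachable] at this
    exact this

/-- The edges of a finite subgraph as a finset. -/
noncomputable def edgesOf (H : G.Subgraph) : Finset (Sym2 V) :=
  if h : H.edgeSet.Finite then h.toFinset else ∅

lemma finite_edgeSet {H : G.Subgraph} (hf : H.verts.Finite) : H.edgeSet.Finite := by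
  refine ((hf.prod hf).image fun p : V × V => s(p.1, p.2)).subset fun e he => ?_
  induction e using Sym2.ind with
  | h a b =>
    rw [SimpleGraph.Subgraph.mem_edgeSet] at he
    exact ⟨(a, b), ⟨H.edge_vert he, H.edge_vert he.symm⟩, rfl⟩

lemma coe_edgesOf {H : G.Subgraph} (hf : H.verts.Finite) :
    (edgesOf H : Set (Sym2 V)) = H.edgeSet := by
  rw [edgesOf, dif_pos (finite_edgeSet hf), Set.Finite.coe_toFinset]

lemma conn_of_subgraph {H : G.Subgraph} (hc : H.Connected) (hf : H.verts.Finite)
    {T : Finset (Sym2 V)} (hT : ∀ u v : V, s(u, v) ∈ edgesOf H → Conn T u v)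
    {u v : V} (hu : u ∈ H.verts) (hv : v ∈ H.verts) : Conn T u v := by
  have h := hc.coe.preconnected ⟨u, hu⟩ ⟨v, hv⟩
  rw [SimpleGraph.reachable_iff_reflTransGen] at h
  have key : ∀ x y : H.verts, Relation.ReflTransGen H.coe.Adj x y → Conn T x.1 y.1 := by
    intro x y hxy
    induction hxy with
    | refl => exact Conn.refl _
    | @tail b c _ hs ih =>
      refine ih.trans (hT _ _ ?_)
      rw [← Finset.mem_coe, coe_edgesOf hf, SimpleGraph.Subgraph.mem_edgeSet]
      exact hs
  exact key _ _ h

lemma spanningTrees_eq {H : G.Subgraph} (hf : H.verts.Finite) (hc : H.Connected) :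
    spanningTrees H = ((bases (edgesOf H)).image fun T : Finset (Sym2 V) => (T : Set (Sym2 V))) := by
  have hS := coe_edgesOf hf
  ext X
  simp only [spanningTrees, Set.mem_ofPred_eq, Finset.coe_image, Set.mem_image, Finset.mem_coe,
    mem_bases]
  constructor
  · rintro ⟨hsub, hac, hcon⟩
    have hXf : X.Finite := (finite_edgeSet hf).subset hsub
    refine ⟨hXf.toFinset, ⟨?_, ?_, ?_⟩, hXf.coe_toFinset⟩
    · rw [← Finset.coe_subset, hXf.coe_toFinset, hS]; exact hsub
    · rw [forest_iff_isAcyclic (G := G) (by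
        rw [hXf.coe_toFinset]; exact hsub.trans H.edgeSet_subset), hXf.coe_toFinset]
      exact hac
    · intro u v huv
      rw [conn_iff_reachable, hXf.coe_toFinset]
      have : s(u, v) ∈ H.edgeSet := hS ▸ huv
      rw [SimpleGraph.Subgraph.mem_edgeSet] at this
      exact hcon u (H.edge_vert this) v (H.edge_vert this.symm)
  · rintro ⟨T, ⟨hsub, hF, hC⟩, rfl⟩
    have hsub' : (T : Set (Sym2 V)) ⊆ H.edgeSet := hS ▸ Finset.coe_subset.2 hsub
    refine ⟨hsub', (forest_iff_isAcyclic (G := G) (hsub'.trans H.edgeSet_subset)).1 hF,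
      fun u hu v hv => ?_⟩
    exact conn_iff_reachable.1 (conn_of_subgraph hc hf hC hu hv)

lemma prb_zero {ι : Type} (𝒯 : Finset (Finset ι)) (T : Finset ι) :
    prb 𝒯 (fun _ => 0) T = 1 / 𝒯.card := by
  simp [prb, part, wt]

lemma ustProb_eq {H : G.Subgraph} (hf : H.verts.Finite) (hc : H.Connected)
    (A : Finset (Sym2 V)) (η : Sym2 V → Bool) :
    ustProb H (fun T => ∀ e ∈ A, (e ∈ T ↔ η e = true))
      = ∑ W ∈ bases (edgesOf H),
          if (∀ e ∈ A, (e ∈ W ↔ η e = true)) then prb (bases (edgesOf H)) (fun _ => 0) W else 0 := by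
  set B := bases (edgesOf H)
  have h1 : (spanningTrees H).ncard = B.card := by
    rw [spanningTrees_eq hf hc, Set.ncard_coe_finset,
      Finset.card_image_of_injective _ fun a b h => Finset.coe_injective h]
  have h2 : {T ∈ spanningTrees H | ∀ e ∈ A, (e ∈ T ↔ η e = true)}.ncard
      = (B.filter fun W => ∀ e ∈ A, (e ∈ W ↔ η e = true)).card := by
    have hcard := Finset.card_image_of_injective (B.filter fun W => ∀ e ∈ A, (e ∈ W ↔ η e = true))
      (f := fun T : Finset (Sym2 V) => (T : Set (Sym2 V))) fun a b h => Finset.coe_injective h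
    convert hcard using 1
    swap
    · congr 1
      exact Finset.filter_congr_decidable ..
    rw [← Set.ncard_coe_finset]
    congr 1
    ext X
    rw [Set.mem_ofPred_eq, spanningTrees_eq hf hc]
    simp only [Finset.coe_image, Set.mem_image, Finset.mem_coe, Finset.mem_filter]
    constructor
    · rintro ⟨⟨T, hT, rfl⟩, h⟩
      exact ⟨T, ⟨hT, h⟩, rfl⟩
    · rintro ⟨T, ⟨hT, h⟩, rfl⟩
      exact ⟨⟨T, hT, rfl⟩, h⟩
  rw [ustProb, h1, h2, ← Finset.sum_filter]
  simp only [prb_zero, Finset.sum_const, nsmul_eq_mul]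
  rw [mul_one_div]
  congr 3
  exact Finset.filter_congr_decidable ..

lemma edgeExh_of_exhaustion {H : ℕ → G.Subgraph} (hH : IsExhaustion G H) :
    EdgeExh G (fun n => edgesOf (H n)) := by
  obtain ⟨hmono, hfc, -, hcov⟩ := hH
  refine ⟨fun m n hmn => ?_, fun n => ?_, fun e he => ?_⟩
  · rw [← Finset.coe_subset, coe_edgesOf (hfc m).1, coe_edgesOf (hfc n).1]
    exact SimpleGraph.Subgraph.edgeSet_mono (hmono hmn)
  · rw [coe_edgesOf (hfc n).1]; exact (H n).edgeSet_subset
  · induction e using Sym2.ind with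
    | h a b =>
      obtain ⟨n, hn⟩ := hcov a b he
      refine ⟨n, ?_⟩
      rw [← Finset.mem_coe, coe_edgesOf (hfc n).1]
      exact hn

/-- Every connected countable graph has an exhaustion. -/
lemma exists_exhaustion [Countable V] (hc : G.Connected) : ∃ H, IsExhaustion G H := by
  obtain ⟨r⟩ := hc.nonempty
  have : Nonempty (V × V) := ⟨(r, r)⟩
  obtain ⟨p, hp⟩ := exists_surjective_nat (V × V)
  have hW : ∀ i, ∃ W : G.Subgraph, W.verts.Finite ∧ W.Connected ∧ r ∈ W.verts ∧
      (p i).1 ∈ W.verts ∧ (G.Adj (p i).1 (p i).2 → W.Adj (p i).1 (p i).2) := by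
    intro i
    obtain ⟨w⟩ := hc.preconnected r (p i).1
    by_cases h : G.Adj (p i).1 (p i).2
    · refine ⟨(w.concat h).toSubgraph, ?_, (w.concat h).toSubgraph_connected,
        (w.concat h).start_mem_verts_toSubgraph, ?_, fun _ => ?_⟩
      · rw [SimpleGraph.Walk.verts_toSubgraph]; exact List.finite_toSet _
      · rw [SimpleGraph.Walk.verts_toSubgraph]
        simp [SimpleGraph.Walk.support_concat]
      · rw [← SimpleGraph.Subgraph.mem_edgeSet, SimpleGraph.Walk.mem_edges_toSubgraph]
        simp [SimpleGraph.Walk.edges_concat]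
    · refine ⟨w.toSubgraph, ?_, w.toSubgraph_connected, w.start_mem_verts_toSubgraph,
        w.end_mem_verts_toSubgraph, fun h' => absurd h' h⟩
      rw [SimpleGraph.Walk.verts_toSubgraph]; exact List.finite_toSet _
  choose W hWf hWc hWr hWa hWe using hW
  let H : ℕ → G.Subgraph := fun n => Nat.rec (W 0) (fun i Hi => Hi ⊔ W i) n
  have hsucc : ∀ n, H (n + 1) = H n ⊔ W n := fun n => rfl
  have hr : ∀ n, r ∈ (H n).verts := by
    intro n
    induction n with
    | zero => exact hWr 0
    | succ n ih => rw [hsucc]; exact Or.inl ih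
  refine ⟨H, monotone_nat_of_le_succ fun n => by rw [hsucc]; exact le_sup_left, fun n => ?_,
    fun v => ?_, fun u v huv => ?_⟩
  · induction n with
    | zero => exact ⟨hWf 0, hWc 0⟩
    | succ n ih =>
      rw [hsucc]
      exact ⟨ih.1.union (hWf n),
        SimpleGraph.Subgraph.connected_sup ih.2.preconnected (hWc n).preconnected ⟨r, hr n, hWr n⟩⟩
  · obtain ⟨i, hi⟩ := hp (v, v)
    refine ⟨i + 1, ?_⟩
    rw [hsucc]
    refine Or.inr ?_
    simpa [hi] using hWa i
  · obtain ⟨i, hi⟩ := hp (u, v)
    refine ⟨i + 1, ?_⟩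
    rw [hsucc]
    refine Or.inr ?_
    simpa [hi, huv] using hWe i

end Vale.Agent.P143
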